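import Vale.Agent.P028.Bilinear

/-! The two absorption arguments that close the bilinear induction, and grouping by small primes. -/

namespace Vale.Agent.P028

open Finset Real

namespace GcdSys

variable {S : GcdSys}

open Classical in
noncomputable def apartSum (S : GcdSys) (V W R : Finset ℕ) (N : ℕ → ℕ) : ℝ :=
  ∑ v ∈ V, ∑ w ∈ W, if Apart R N v w then S.k v w else 0

open Classical in
noncomputable def sharedSum (S : GcdSys) (V W R : Finset ℕ) (N : ℕ → ℕ) : ℝ :=
  ∑ v ∈ V, ∑ w ∈ W, if Apart R N v w then 0 else S.k v w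

/-- Absorption hypothesis. -/
def Absorbs (S : GcdSys) : Prop :=
  ∀ V W R T : Finset ℕ, S.Conf V W R T → ∀ n, S.Below n → V.card + W.card + T.card ≤ n →
    ∀ N, Concentrated S V W T N → ∀ v ∈ V, ∀ w ∈ W,
      sharedSum S V W R N ≤ S.C₀ * (S.mV V * S.mW W) ^ S.θ * S.shift R v w

theorem pairs_le_of (hleaf : S.Leaf) (habs : S.Absorbs) :
    ∀ V W R T : Finset ℕ, S.Conf V W R T → S.Goal V W R := by
  suffices h : ∀ n, S.Below n by
    intro V W R T hc
    exact h (V.card + W.card + T.card + 1) V W R T hc (Nat.lt_succ_self _)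
  intro n
  induction n with
  | zero => intro V W R T _ h; omega
  | succ n ih =>
    intro V W R T hc hlt
    rcases step hc ih (by omega) with h | ⟨N, hN⟩
    · exact h
    · intro v hv w hw
      have h1 := hleaf V W R hc.hV hc.hW hc.hR hc.hRT hc.cV hc.cW N v hv w hw
      have h2 := habs V W R T hc n ih (by omega) N hN v hv w hw
      have h3 : S.pairs V W = apartSum S V W R N + sharedSum S V W R N := by
        simp only [pairs, apartSum, sharedSum, ← sum_add_distrib]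
        refine sum_congr rfl fun a _ => sum_congr rfl fun b _ => ?_
        split <;> simp
      rw [h3]
      change apartSum S V W R N ≤ _ at h1
      linarith

/-- A pair that is not apart deviates on both sides at some prime still to be resolved. -/
theorem exists_shared {V W R T : Finset ℕ} (hc : S.Conf V W R T) {N : ℕ → ℕ}
    (hN : Concentrated S V W T N) {v w : ℕ} (hv : v ∈ V) (h : ¬ Apart R N v w) :
    ∃ p ∈ T, v.factorization p ≠ N p ∧ w.factorization p ≠ N p := by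
  simp only [Apart, not_forall, exists_prop, not_or] at h
  obtain ⟨p, hpR, hpv, hpw⟩ := h
  refine ⟨p, ?_, hpv, hpw⟩
  by_contra hpT
  refine hpv ?_
  rw [hN.off p hpT]
  by_contra hne
  have := hc.cover v (mem_union_left _ hv) (by
    rw [← Nat.support_factorization]; exact Finsupp.mem_support_iff.2 hne)
  exact (mem_union.1 this).elim hpR hpT

/-- Absorption when the thresholds are summable. -/
theorem absorbs_of_sum (hdir : ∀ p ∈ S.T₀, S.thr p ^ S.θ ≤ S.t₂ p)
    (hsum : ∑ p ∈ S.T₀, (4 * (S.thr p * S.thr₂ p) ^ S.θ +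
      6 * S.t₁ p ^ 2 * (S.thr p * S.thr p) ^ S.θ) ≤ 1 / 2) : S.Absorbs := by
  classical
  intro V W R T hc n ih hn N hN v₀ hv₀ w₀ hw₀
  have hcoef : 0 ≤ 2 * S.C₀ * S.shift R v₀ w₀ :=
    mul_nonneg (mul_nonneg zero_le_two S.hC₀) (shift_nonneg hc.hRT _ _)
  have hθ0 : (0 : ℝ) < S.θ := by linarith [S.hθ]
  have hle : sharedSum S V W R N ≤ ∑ p ∈ T, S.pairs (dev N V p) (dev N W p) := by
    have : ∀ p, S.pairs (dev N V p) (dev N W p) = ∑ v ∈ V, ∑ w ∈ W,
        if v.factorization p ≠ N p ∧ w.factorization p ≠ N p then S.k v w else 0 := by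
      intro p
      simp only [pairs, dev, sum_filter]
      refine sum_congr rfl fun v _ => ?_
      split_ifs with h1
      · exact sum_congr rfl fun w _ => by simp [h1]
      · exact (sum_eq_zero fun w _ => by simp [h1]).symm
    rw [sum_congr rfl (fun p _ => this p), sum_comm (s := T)]
    refine sum_le_sum fun v hv => ?_
    rw [sum_comm (s := T)]
    refine sum_le_sum fun w _ => ?_
    split_ifs with h
    · exact sum_nonneg fun p _ => by split <;> simp [S.hk]
    · obtain ⟨p, hp, h1, h2⟩ := exists_shared hc hN hv h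
      refine le_trans ?_ (single_le_sum (fun q _ => by split <;> simp [S.hk]) hp)
      simp [h1, h2]
  refine hle.trans ?_
  have hterm : ∀ p ∈ T, S.pairs (dev N V p) (dev N W p) ≤ 2 * S.C₀ * S.shift R v₀ w₀ *
      ((4 * (S.thr p * S.thr₂ p) ^ S.θ + 6 * S.t₁ p ^ 2 * (S.thr p * S.thr p) ^ S.θ) *
        (S.mV V * S.mW W) ^ S.θ) := by
    intro p hp
    have hpT := hc.hT hp
    have ht₂ := S.ht₂ p hpT
    have ht₂₁ := S.ht₂₁ p hpT
    have ht₁ := S.ht₁ p hpT
    have ht₁0 : 0 ≤ S.t₁ p := ht₂.trans ht₂₁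
    set DV := dev N V p with hDV
    set DW := dev N W p with hDW
    set LV := V.filter (fun v => v.factorization p < N p) with hLV
    set HW := W.filter (fun w => N p < w.factorization p) with hHW
    have hLVs : LV ⊆ DV := fun x hx => by
      simp only [LV, DV, dev, mem_filter] at hx ⊢; exact ⟨hx.1, by omega⟩
    have hHWs : HW ⊆ DW := fun x hx => by
      simp only [HW, DW, dev, mem_filter] at hx ⊢; exact ⟨hx.1, by omega⟩
    have hDVV : DV ⊆ V := filter_subset _ _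
    have hDWW : DW ⊆ W := filter_subset _ _
    have hLVV : LV ⊆ V := filter_subset _ _
    have hHWW : HW ⊆ W := filter_subset _ _
    have hHVV : DV \ LV ⊆ V := sdiff_subset.trans hDVV
    have hLWW : DW \ HW ⊆ W := sdiff_subset.trans hDWW
    have hmV := mV_nonneg hc.hV
    have hmW := mW_nonneg hc.hW
    have hr2 : ∀ (J : Finset ℕ) (i : ℕ), ∑ j ∈ J, expKer (S.t₁ p) (S.t₂ p) i j ≤ 2 := fun J i =>
      (sum_expKer_le ht₁0 ht₂ le_rfl ht₂₁ ht₁ J i).1.trans (by linarith)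
    have hc2 : ∀ (J : Finset ℕ) (i : ℕ), ∑ j ∈ J, expKer (S.t₁ p) (S.t₂ p) j i ≤ 2 := fun J i =>
      (sum_expKer_le ht₁0 ht₂ le_rfl ht₂₁ ht₁ J i).2.trans (by linarith)
    have hfar : ∀ (I J : Finset ℕ), (∀ i ∈ I, ∀ j ∈ J, 2 ≤ Nat.dist i j) →
        (∀ i ∈ I, ∑ j ∈ J, expKer (S.t₁ p) (S.t₂ p) i j ≤ 3 * S.t₁ p ^ 2) ∧
        (∀ j ∈ J, ∑ i ∈ I, expKer (S.t₁ p) (S.t₂ p) i j ≤ 3 * S.t₁ p ^ 2) := fun I J h =>
      ⟨fun i hi => (sum_le_sum fun j _ => expKer_le ht₁0 ht₂ le_rfl ht₂₁ i j).trans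
          (sum_pow_dist_le ht₁0 ht₁ J i 2 (by norm_num) (h i hi)),
        fun j hj => (sum_le_sum fun i _ => (expKer_le ht₁0 ht₂ le_rfl ht₂₁ i j).trans_eq
          (by rw [Nat.dist_comm])).trans (sum_pow_dist_le ht₁0 ht₁ I j 2 (by norm_num)
            fun i hi => by rw [Nat.dist_comm]; exact h i hi j hj)⟩
    have hHV : ∀ x ∈ DV \ LV, N p < x.factorization p := fun x hx => by
      simp only [DV, LV, dev, mem_sdiff, mem_filter, not_and] at hx
      have := hx.2 hx.1.1; omega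
    have hLW : ∀ x ∈ DW \ HW, x.factorization p < N p := fun x hx => by
      simp only [DW, HW, dev, mem_sdiff, mem_filter, not_and] at hx
      have := hx.2 hx.1.1; omega
    have e1 := children_le hc ih hn hp hHVV hHWW hv₀ hw₀ (K := 2) (by norm_num)
      (fun i _ => hr2 _ i) (fun j _ => hc2 _ j)
    have e2 := children_le hc ih hn hp hLVV hLWW hv₀ hw₀ (K := 2) (by norm_num)
      (fun i _ => hr2 _ i) (fun j _ => hc2 _ j)
    obtain ⟨f3, f3'⟩ := hfar ((DV \ LV).image (fun v => v.factorization p))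
      ((DW \ HW).image (fun w => w.factorization p)) (fun i hi j hj => by
        obtain ⟨x, hx, rfl⟩ := mem_image.1 hi
        obtain ⟨y, hy, rfl⟩ := mem_image.1 hj
        have := hHV x hx; have := hLW y hy
        simp only [Nat.dist]; omega)
    have e3 := children_le hc ih hn hp hHVV hLWW hv₀ hw₀ (K := 3 * S.t₁ p ^ 2) (by positivity) f3 f3'
    obtain ⟨f4, f4'⟩ := hfar (LV.image (fun v => v.factorization p))
      (HW.image (fun w => w.factorization p)) (fun i hi j hj => by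
        obtain ⟨x, hx, rfl⟩ := mem_image.1 hi
        obtain ⟨y, hy, rfl⟩ := mem_image.1 hj
        have := (mem_filter.1 hx).2; have := (mem_filter.1 hy).2
        simp only [Nat.dist]; omega)
    have e4 := children_le hc ih hn hp hLVV hHWW hv₀ hw₀ (K := 3 * S.t₁ p ^ 2) (by positivity) f4 f4'
    rw [pairs_split_left LV DV DW hLVs, pairs_split_right HW (DV \ LV) DW hHWs,
      pairs_split_right HW LV DW hHWs]
    have hthr : 0 ≤ S.thr p :=
      rpow_nonneg (div_nonneg (by linarith) hθ0.le) _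
    have hthr₂ : 0 ≤ S.thr₂ p :=
      rpow_nonneg (div_nonneg (by linarith) hθ0.le) _
    have bVh : S.mV (DV \ LV) ≤ S.thr p * S.mV V :=
      (mV_mono sdiff_subset (hDVV.trans hc.hV)).trans (hN.dV p hp)
    have bWl : S.mW (DW \ HW) ≤ S.thr p * S.mW W :=
      (mW_mono sdiff_subset (hDWW.trans hc.hW)).trans (hN.dW p hp)
    have bVl : S.mV LV ≤ S.thr₂ p * S.mV V := hN.lowV p hp (hdir p hpT)
    have bWh : S.mW HW ≤ S.thr₂ p * S.mW W := hN.highW p hp (hdir p hpT)
    have bVl' : S.mV LV ≤ S.thr p * S.mV V :=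
      (mV_mono hLVs (hDVV.trans hc.hV)).trans (hN.dV p hp)
    have bWh' : S.mW HW ≤ S.thr p * S.mW W :=
      (mW_mono hHWs (hDWW.trans hc.hW)).trans (hN.dW p hp)
    have prod_le : ∀ x y a b : ℝ, 0 ≤ x → 0 ≤ y → 0 ≤ a → 0 ≤ b → x ≤ a * S.mV V → y ≤ b * S.mW W →
        (x * y) ^ S.θ ≤ (a * b) ^ S.θ * (S.mV V * S.mW W) ^ S.θ := by
      intro x y a b hx hy ha hb hxa hyb
      rw [← mul_rpow (by positivity) (by positivity)]
      refine rpow_le_rpow (mul_nonneg hx hy) ((mul_le_mul hxa hyb hy (mul_nonneg ha hmV)).trans_eq ?_) hθ0.le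
      ring
    have z1 := prod_le _ _ _ _ (mV_nonneg (hHVV.trans hc.hV)) (mW_nonneg (hHWW.trans hc.hW)) hthr hthr₂ bVh bWh
    have z2 := prod_le _ _ _ _ (mV_nonneg (hLVV.trans hc.hV)) (mW_nonneg (hLWW.trans hc.hW)) hthr₂ hthr bVl bWl
    have z3 := prod_le _ _ _ _ (mV_nonneg (hHVV.trans hc.hV)) (mW_nonneg (hLWW.trans hc.hW)) hthr hthr bVh bWl
    have z4 := prod_le _ _ _ _ (mV_nonneg (hLVV.trans hc.hV)) (mW_nonneg (hHWW.trans hc.hW)) hthr hthr bVl' bWh'
    rw [mul_comm (S.thr₂ p)] at z2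
    have h3 : 0 ≤ 3 * S.t₁ p ^ 2 := by positivity
    have y1 := mul_le_mul_of_nonneg_left (mul_le_mul_of_nonneg_left z1 zero_le_two) hcoef
    have y2 := mul_le_mul_of_nonneg_left (mul_le_mul_of_nonneg_left z2 zero_le_two) hcoef
    have y3 := mul_le_mul_of_nonneg_left (mul_le_mul_of_nonneg_left z3 h3) hcoef
    have y4 := mul_le_mul_of_nonneg_left (mul_le_mul_of_nonneg_left z4 h3) hcoef
    linarith
  refine (sum_le_sum hterm).trans ?_
  rw [← mul_sum, ← sum_mul]
  have hnonneg : ∀ p ∈ S.T₀, 0 ≤ 4 * (S.thr p * S.thr₂ p) ^ S.θ +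
      6 * S.t₁ p ^ 2 * (S.thr p * S.thr p) ^ S.θ := fun p hp => by
    have h1 := (S.ht₂ p hp).trans (S.ht₂₁ p hp)
    have h2 := S.ht₂ p hp
    have h3 : 0 ≤ S.thr p := rpow_nonneg (div_nonneg (by linarith) hθ0.le) _
    have h4 : 0 ≤ S.thr₂ p := rpow_nonneg (div_nonneg (by linarith) hθ0.le) _
    positivity
  have h := (sum_le_sum_of_subset_of_nonneg hc.hT fun p hp _ => hnonneg p hp).trans hsum
  have hP : 0 ≤ (S.mV V * S.mW W) ^ S.θ :=
    rpow_nonneg (mul_nonneg (mV_nonneg hc.hV) (mW_nonneg hc.hW)) _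
  nlinarith [mul_le_mul_of_nonneg_left (mul_le_mul_of_nonneg_right h hP) hcoef]

/-- Absorption when the pairs differ at boundedly many primes. -/
theorem absorbs_of_count {L : ℕ} {τ : ℝ} (hτ : 0 ≤ τ) (hthr : ∀ p ∈ S.T₀, S.thr p ≤ τ)
    (hL : ∀ v ∈ S.V₀, ∀ w ∈ S.W₀, S.k v w ≠ 0 →
      (S.T₀.filter (fun p => v.factorization p ≠ w.factorization p)).card ≤ L)
    (hsmall : 4 * (L + 1) * (2 * L + 1) * τ ^ (2 * S.θ - 1) ≤ 1) : S.Absorbs := by
  classical
  intro V W R T hc n ih hn N hN v₀ hv₀ w₀ hw₀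
  have hθ := S.hθ
  have hmV := mV_nonneg hc.hV
  have hmW := mW_nonneg hc.hW
  have hcoef : 0 ≤ 2 * S.C₀ * S.shift R v₀ w₀ :=
    mul_nonneg (mul_nonneg zero_le_two S.hC₀) (shift_nonneg hc.hRT _ _)
  -- number of deviations, and the layers
  set ω : ℕ → ℕ := fun v => (T.filter (fun p => v.factorization p ≠ N p)).card with hω
  set IV := V.image ω
  set IW := W.image ω
  set cw : ℕ → ℕ → ℝ := fun i j =>
    if i ≤ j + L ∧ j ≤ i + L then ((L : ℝ) + 1) / (√(i : ℝ) * √(j : ℝ)) else 0 with hcw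
  have hcw0 : ∀ i j, 0 ≤ cw i j := fun i j => by simp only [cw]; split <;> positivity
  set Vi : ℕ → Finset ℕ := fun i => V.filter (fun v => ω v = i)
  set Wj : ℕ → Finset ℕ := fun j => W.filter (fun w => ω w = j)
  have hpt : ∀ v ∈ V, ∀ w ∈ W, (if Apart R N v w then 0 else S.k v w) ≤
      cw (ω v) (ω w) * ∑ p ∈ T,
        (if v.factorization p ≠ N p ∧ w.factorization p ≠ N p then S.k v w else 0) := by
    intro v hv w hw
    have hsum0 : 0 ≤ ∑ p ∈ T,
        (if v.factorization p ≠ N p ∧ w.factorization p ≠ N p then S.k v w else 0) :=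
      sum_nonneg fun p _ => by split <;> simp [S.hk]
    split_ifs with h
    · exact mul_nonneg (hcw0 _ _) hsum0
    by_cases hk0 : S.k v w = 0
    · rw [hk0]; simp
    rw [← sum_filter, sum_const, nsmul_eq_mul]
    set Sh := T.filter (fun p => v.factorization p ≠ N p ∧ w.factorization p ≠ N p) with hSh
    have hsh : 1 ≤ Sh.card := by
      obtain ⟨p, hp, h1, h2⟩ := exists_shared hc hN hv h
      exact card_pos.2 ⟨p, mem_filter.2 ⟨hp, h1, h2⟩⟩
    have hd := hL v (hc.hV hv) w (hc.hW hw) hk0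
    set Df := S.T₀.filter (fun p => v.factorization p ≠ w.factorization p)
    have hb1 : ω v ≤ Sh.card + L := by
      refine le_trans ?_ ((card_union_le Sh Df).trans (Nat.add_le_add_left hd _))
      refine card_le_card fun p hp => ?_
      obtain ⟨hpT, hpv⟩ := mem_filter.1 hp
      by_cases hpw : w.factorization p = N p
      · exact mem_union_right _ (mem_filter.2 ⟨hc.hT hpT, by rw [hpw]; exact hpv⟩)
      · exact mem_union_left _ (mem_filter.2 ⟨hpT, hpv, hpw⟩)
    have hb2 : ω w ≤ Sh.card + L := by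
      refine le_trans ?_ ((card_union_le Sh Df).trans (Nat.add_le_add_left hd _))
      refine card_le_card fun p hp => ?_
      obtain ⟨hpT, hpw⟩ := mem_filter.1 hp
      by_cases hpv : v.factorization p = N p
      · exact mem_union_right _ (mem_filter.2 ⟨hc.hT hpT, by rw [hpv]; exact Ne.symm hpw⟩)
      · exact mem_union_left _ (mem_filter.2 ⟨hpT, hpv, hpw⟩)
    have hs1 : Sh.card ≤ ω v := card_le_card fun p hp => by
      simp only [Sh, mem_filter] at hp ⊢; exact ⟨hp.1, hp.2.1⟩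
    have hs2 : Sh.card ≤ ω w := card_le_card fun p hp => by
      simp only [Sh, mem_filter] at hp ⊢; exact ⟨hp.1, hp.2.2⟩
    have hcwv : cw (ω v) (ω w) = ((L : ℝ) + 1) / (√(ω v : ℝ) * √(ω w : ℝ)) :=
      if_pos ⟨by omega, by omega⟩
    have hv1 : (0 : ℝ) < (ω v : ℝ) := by exact_mod_cast (show 0 < ω v by omega)
    have hw1 : (0 : ℝ) < (ω w : ℝ) := by exact_mod_cast (show 0 < ω w by omega)
    have hkey : √(ω v : ℝ) * √(ω w : ℝ) ≤ ((L : ℝ) + 1) * Sh.card := by
      have e1 : (ω v : ℝ) ≤ ((L : ℝ) + 1) * Sh.card := by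
        have : ω v ≤ (L + 1) * Sh.card := by nlinarith
        exact_mod_cast this
      have e2 : (ω w : ℝ) ≤ ((L : ℝ) + 1) * Sh.card := by
        have : ω w ≤ (L + 1) * Sh.card := by nlinarith
        exact_mod_cast this
      calc √(ω v : ℝ) * √(ω w : ℝ)
          ≤ √(((L : ℝ) + 1) * Sh.card) * √(((L : ℝ) + 1) * Sh.card) := by gcongr
        _ = _ := mul_self_sqrt (by positivity)
    rw [hcwv, ← mul_assoc]
    refine le_mul_of_one_le_left (S.hk v w) ?_
    rw [div_mul_eq_mul_div, le_div_iff₀ (by positivity), one_mul]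
    exact hkey
  have hdecomp : sharedSum S V W R N ≤ ∑ i ∈ IV, ∑ j ∈ IW, cw i j *
      ∑ p ∈ T, S.pairs (dev N (Vi i) p) (dev N (Wj j) p) := by
    refine (sum_le_sum fun v hv => sum_le_sum fun w hw => hpt v hv w hw).trans_eq ?_
    rw [← sum_fiberwise_of_maps_to (g := ω) (t := IV) (fun v hv => mem_image_of_mem _ hv)]
    refine sum_congr rfl fun i _ => ?_
    have : ∀ v ∈ Vi i, ∑ w ∈ W, cw (ω v) (ω w) * ∑ p ∈ T,
        (if v.factorization p ≠ N p ∧ w.factorization p ≠ N p then S.k v w else 0) =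
        ∑ j ∈ IW, cw i j * ∑ p ∈ T, ∑ w ∈ Wj j,
          (if v.factorization p ≠ N p ∧ w.factorization p ≠ N p then S.k v w else 0) := by
      intro v hv
      rw [← sum_fiberwise_of_maps_to (g := ω) (t := IW) (fun v hv => mem_image_of_mem _ hv)]
      refine sum_congr rfl fun j _ => ?_
      rw [sum_comm (s := T), mul_sum]
      refine sum_congr rfl fun w hw => ?_
      rw [(mem_filter.1 hv).2, (mem_filter.1 hw).2]
    rw [sum_congr rfl this, sum_comm (s := Vi i)]
    refine sum_congr rfl fun j _ => ?_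
    rw [← mul_sum, sum_comm (s := Vi i)]
    congr 1
    refine sum_congr rfl fun p _ => ?_
    simp only [pairs, dev]
    rw [sum_filter (s := Vi i)]
    refine sum_congr rfl fun v _ => ?_
    by_cases h1 : v.factorization p = N p
    · simp [h1]
    · rw [if_pos h1, sum_filter (s := Wj j)]
      exact sum_congr rfl fun w _ => by simp [h1]
  refine hdecomp.trans ?_
  set δ := S.θ - 1 / 2 with hδ
  have hδ0 : 0 ≤ δ := by linarith
  set P := ((τ * S.mV V) * (τ * S.mW W)) ^ δ with hP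
  have hlayer : ∀ i ∈ IV, ∀ j ∈ IW, ∑ p ∈ T, S.pairs (dev N (Vi i) p) (dev N (Wj j) p) ≤
      2 * S.C₀ * S.shift R v₀ w₀ * (2 * P * (√(i * S.mV (Vi i)) * √(j * S.mW (Wj j)))) := by
    intro i _ j _
    have hViV : Vi i ⊆ V := filter_subset _ _
    have hWjW : Wj j ⊆ W := filter_subset _ _
    have hdV : ∀ p, dev N (Vi i) p ⊆ V := fun p => (filter_subset _ _).trans hViV
    have hdW : ∀ p, dev N (Wj j) p ⊆ W := fun p => (filter_subset _ _).trans hWjW
    have hp1 : ∀ p ∈ T, S.pairs (dev N (Vi i) p) (dev N (Wj j) p) ≤ 2 * S.C₀ * S.shift R v₀ w₀ *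
        (2 * P * (√(S.mV (dev N (Vi i) p)) * √(S.mW (dev N (Wj j) p)))) := by
      intro p hp
      have hpT := hc.hT hp
      have ht₁ := S.ht₁ p hpT
      have ht₁0 : 0 ≤ S.t₁ p := (S.ht₂ p hpT).trans (S.ht₂₁ p hpT)
      refine (children_le hc ih hn hp (hdV p) (hdW p) hv₀ hw₀ (K := 2) (by norm_num)
        (fun a _ => (sum_expKer_le ht₁0 (S.ht₂ p hpT) le_rfl (S.ht₂₁ p hpT) ht₁ _ a).1.trans (by linarith))
        (fun a _ => (sum_expKer_le ht₁0 (S.ht₂ p hpT) le_rfl (S.ht₂₁ p hpT) ht₁ _ a).2.trans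
          (by linarith))).trans ?_
      refine mul_le_mul_of_nonneg_left ?_ hcoef
      have hx := mV_nonneg ((hdV p).trans hc.hV)
      have hy := mW_nonneg ((hdW p).trans hc.hW)
      have hxa : S.mV (dev N (Vi i) p) ≤ τ * S.mV V :=
        ((mV_mono (filter_subset_filter _ hViV) ((filter_subset _ _).trans hc.hV)).trans (hN.dV p hp)).trans
          (mul_le_mul_of_nonneg_right (hthr p hpT) hmV)
      have hyb : S.mW (dev N (Wj j) p) ≤ τ * S.mW W :=
        ((mW_mono (filter_subset_filter _ hWjW) ((filter_subset _ _).trans hc.hW)).trans (hN.dW p hp)).trans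
          (mul_le_mul_of_nonneg_right (hthr p hpT) hmW)
      rw [mul_assoc 2]
      refine mul_le_mul_of_nonneg_left ?_ zero_le_two
      rw [show S.θ = δ + 1 / 2 by ring, rpow_add' (mul_nonneg hx hy) (by linarith),
        ← sqrt_eq_rpow, sqrt_mul hx, hP]
      exact mul_le_mul_of_nonneg_right
        (rpow_le_rpow (mul_nonneg hx hy) (mul_le_mul hxa hyb hy (mul_nonneg hτ hmV)) hδ0) (by positivity)
    refine (sum_le_sum hp1).trans ?_
    rw [← mul_sum, ← mul_sum]
    refine mul_le_mul_of_nonneg_left (mul_le_mul_of_nonneg_left ?_ (by positivity)) hcoef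
    refine (Real.sum_sqrt_mul_sqrt_le T (fun p => mV_nonneg ((hdV p).trans hc.hV))
      (fun p => mW_nonneg ((hdW p).trans hc.hW))).trans_eq ?_
    have cnt : ∀ (A : Finset ℕ) (a : ℕ → ℝ) (i : ℕ), (∀ x ∈ A, ω x = i) →
        ∑ p ∈ T, ∑ x ∈ dev N A p, a x = i * ∑ x ∈ A, a x := by
      intro A a i hA
      simp only [dev, sum_filter]
      rw [sum_comm, mul_sum]
      refine sum_congr rfl fun x hx => ?_
      rw [← sum_filter, sum_const, nsmul_eq_mul, ← hA x hx]
    simp only [mV, mW]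
    rw [cnt _ _ i (fun x hx => (mem_filter.1 hx).2), cnt _ _ j (fun x hx => (mem_filter.1 hx).2)]
  refine (sum_le_sum fun i hi => sum_le_sum fun j hj =>
    mul_le_mul_of_nonneg_left (hlayer i hi j hj) (hcw0 i j)).trans ?_
  set ind : ℕ → ℕ → ℝ := fun i j => if i ≤ j + L ∧ j ≤ i + L then 1 else 0 with hind
  have hstep : ∀ i ∈ IV, ∀ j ∈ IW,
      cw i j * (2 * S.C₀ * S.shift R v₀ w₀ * (2 * P * (√(i * S.mV (Vi i)) * √(j * S.mW (Wj j))))) ≤
        2 * S.C₀ * S.shift R v₀ w₀ * (2 * P * ((L : ℝ) + 1)) *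
          ((S.mV (Vi i) * S.mW (Wj j)) ^ (1 / 2 : ℝ) * ind i j) := by
    intro i _ j _
    have hA := mV_nonneg ((filter_subset (fun v => ω v = i) V).trans hc.hV)
    have hB := mW_nonneg ((filter_subset (fun w => ω w = j) W).trans hc.hW)
    rw [← sqrt_eq_rpow, sqrt_mul hA]
    have hP0 : 0 ≤ P := by positivity
    simp only [cw, ind]
    split_ifs with h
    · rcases Nat.eq_zero_or_pos i with rfl | hi0
      · simp; positivity
      rcases Nat.eq_zero_or_pos j with rfl | hj0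
      · simp; positivity
      rw [sqrt_mul (Nat.cast_nonneg i), sqrt_mul (Nat.cast_nonneg j)]
      have : (√(i : ℝ) * √(j : ℝ)) ≠ 0 := by positivity
      exact le_of_eq (by field_simp; try ring)
    · simp
  refine (sum_le_sum fun i hi => sum_le_sum fun j hj => hstep i hi j hj).trans ?_
  simp_rw [← mul_sum]
  have hcnt : ∀ (I : Finset ℕ) (i : ℕ),
      ∑ j ∈ I, ind i j ≤ (2 * L + 1 : ℝ) ∧ ∑ j ∈ I, ind j i ≤ (2 * L + 1 : ℝ) := by
    intro I i
    have : (I.filter (fun j => i ≤ j + L ∧ j ≤ i + L)).card ≤ 2 * L + 1 := by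
      refine (card_le_card (t := Icc (i - L) (i + L)) fun j hj => ?_).trans ?_
      · simp only [mem_filter, mem_Icc] at hj ⊢; omega
      · rw [Nat.card_Icc]; omega
    refine ⟨?_, ?_⟩
    · simp only [ind]; rw [sum_boole]; exact_mod_cast this
    · simp only [ind]
      rw [sum_boole, filter_congr (fun j _ => and_comm)]
      exact_mod_cast this
  have hfin := sum_kernel_le IV IW (fun i => S.mV (Vi i)) (fun j => S.mW (Wj j)) ind
    (X := S.mV V) (Y := S.mW W) (R := 2 * L + 1) (le_refl (1 / 2 : ℝ))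
    (fun i _ => mV_nonneg ((filter_subset _ _).trans hc.hV))
    (fun j _ => mW_nonneg ((filter_subset _ _).trans hc.hW))
    (sum_fiberwise_of_maps_to (fun v hv => mem_image_of_mem _ hv) _).le
    (sum_fiberwise_of_maps_to (fun v hv => mem_image_of_mem _ hv) _).le
    (fun i _ j _ => by simp only [ind]; split <;> norm_num) (by positivity)
    (fun i _ => (hcnt IW i).1) (fun j _ => (hcnt IV j).2)
  refine (mul_le_mul_of_nonneg_left hfin (mul_nonneg hcoef (by positivity))).trans ?_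
  have hPe : P * (S.mV V * S.mW W) ^ (1 / 2 : ℝ) =
      τ ^ (2 * S.θ - 1) * (S.mV V * S.mW W) ^ S.θ := by
    rw [hP, show τ * S.mV V * (τ * S.mW W) = (τ * τ) * (S.mV V * S.mW W) by ring,
      mul_rpow (mul_self_nonneg τ) (mul_nonneg hmV hmW), mul_assoc,
      ← rpow_add' (mul_nonneg hmV hmW) (by linarith), show δ + 1 / 2 = S.θ by ring,
      mul_rpow hτ hτ, ← rpow_add' hτ (by linarith), show δ + δ = 2 * S.θ - 1 by ring]
  have hfac := mul_le_mul_of_nonneg_left hsmall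
    (show 0 ≤ S.C₀ * (S.mV V * S.mW W) ^ S.θ * S.shift R v₀ w₀ from
      mul_nonneg (mul_nonneg S.hC₀ (by positivity)) (shift_nonneg hc.hRT _ _))
  rw [mul_one] at hfac
  refine le_of_eq_of_le ?_ hfac
  calc 2 * S.C₀ * S.shift R v₀ w₀ * (2 * P * ((L : ℝ) + 1)) *
      ((2 * L + 1) * (S.mV V * S.mW W) ^ (1 / 2 : ℝ))
      = 4 * S.C₀ * S.shift R v₀ w₀ * ((L : ℝ) + 1) * (2 * L + 1) *
          (P * (S.mV V * S.mW W) ^ (1 / 2 : ℝ)) := by ring
    _ = _ := by rw [hPe]; ring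

end GcdSys

/-- Grouping by the exponents at a finite set of primes. -/
theorem sum_pairs_le_of_patterns (P : Finset ℕ) (V W : Finset ℕ) (α β : ℕ → ℝ) (k : ℕ → ℕ → ℝ)
    (t₁ t₂ : ℕ → ℝ) {θ C : ℝ} (hθ : 1 / 2 ≤ θ) (hα : ∀ v ∈ V, 0 ≤ α v) (hβ : ∀ w ∈ W, 0 ≤ β w)
    (hC : 0 ≤ C) (h₁ : ∀ p ∈ P, 0 ≤ t₁ p) (h₂ : ∀ p ∈ P, 0 ≤ t₂ p) (b : ℕ → ℝ)
    (hrow : ∀ p ∈ P, ∀ (J : Finset ℕ) (i : ℕ), ∑ j ∈ J, expKer (t₁ p) (t₂ p) i j ≤ b p)
    (hcol : ∀ p ∈ P, ∀ (J : Finset ℕ) (i : ℕ), ∑ j ∈ J, expKer (t₁ p) (t₂ p) j i ≤ b p)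
    (hsub : ∀ V' ⊆ V, ∀ W' ⊆ W, ExpConst P V' → ExpConst P W' → ∀ v ∈ V', ∀ w ∈ W',
      ∑ x ∈ V', ∑ y ∈ W', k x y ≤
        C * ((∑ x ∈ V', α x) * ∑ y ∈ W', β y) ^ θ * shiftWt t₁ t₂ P v w) :
    ∑ v ∈ V, ∑ w ∈ W, k v w ≤ C * (∏ p ∈ P, b p) * ((∑ v ∈ V, α v) * ∑ w ∈ W, β w) ^ θ := by
  classical
  set σ : ℕ → ({x // x ∈ P} → ℕ) := fun v p => v.factorization p.1 with hσ
  set I := V.image σ
  set J := W.image σ
  set Kf : ({x // x ∈ P} → ℕ) → ({x // x ∈ P} → ℕ) → ℝ := fun e f =>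
    ∏ p : {x // x ∈ P}, expKer (t₁ p.1) (t₂ p.1) (e p) (f p) with hK
  have hsh : ∀ v w, shiftWt t₁ t₂ P v w = Kf (σ v) (σ w) := fun v w =>
    (prod_coe_sort P (fun p => expKer (t₁ p) (t₂ p) (v.factorization p) (w.factorization p))).symm
  have hKnn : ∀ e f, 0 ≤ Kf e f := fun e f => prod_nonneg fun p _ =>
    expKer_nonneg (h₁ p.1 p.2) (h₂ p.1 p.2) _ _
  have hb : ∏ p : {x // x ∈ P}, b p.1 = ∏ p ∈ P, b p := prod_coe_sort P b
  have hrowK : ∀ (Jf : Finset ({x // x ∈ P} → ℕ)) (e : {x // x ∈ P} → ℕ),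
      ∑ f ∈ Jf, Kf e f ≤ ∏ p ∈ P, b p ∧ ∑ f ∈ Jf, Kf f e ≤ ∏ p ∈ P, b p := by
    intro Jf e
    have hsubJ : Jf ⊆ Fintype.piFinset (fun p => Jf.image (fun f => f p)) := fun f hf =>
      Fintype.mem_piFinset.2 fun p => mem_image_of_mem (fun g : {x // x ∈ P} → ℕ => g p) hf
    rw [← hb]
    refine ⟨?_, ?_⟩
    · refine (sum_le_sum_of_subset_of_nonneg hsubJ fun f _ _ => hKnn e f).trans ?_
      simp only [Kf]
      rw [← prod_univ_sum (fun p => Jf.image (fun f => f p))
        (fun p x => expKer (t₁ p.1) (t₂ p.1) (e p) x)]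
      exact prod_le_prod (fun p _ => sum_nonneg fun j _ => expKer_nonneg (h₁ p.1 p.2) (h₂ p.1 p.2) _ _)
        fun p _ => hrow p.1 p.2 _ _
    · refine (sum_le_sum_of_subset_of_nonneg hsubJ fun f _ _ => hKnn f e).trans ?_
      simp only [Kf]
      rw [← prod_univ_sum (fun p => Jf.image (fun f => f p))
        (fun p x => expKer (t₁ p.1) (t₂ p.1) x (e p))]
      exact prod_le_prod (fun p _ => sum_nonneg fun j _ => expKer_nonneg (h₁ p.1 p.2) (h₂ p.1 p.2) _ _)
        fun p _ => hcol p.1 p.2 _ _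
  have hconst : ∀ (U : Finset ℕ) (e : {x // x ∈ P} → ℕ), ExpConst P (U.filter (fun v => σ v = e)) :=
    fun U e p hp a ha b hb => by
      have := (mem_filter.1 ha).2.trans (mem_filter.1 hb).2.symm
      exact congrFun this ⟨p, hp⟩
  calc ∑ v ∈ V, ∑ w ∈ W, k v w
      = ∑ e ∈ I, ∑ f ∈ J, ∑ v ∈ V.filter (fun v => σ v = e), ∑ w ∈ W.filter (fun w => σ w = f), k v w := by
        rw [← sum_fiberwise_of_maps_to (g := σ) (t := I) (fun v hv => mem_image_of_mem _ hv)]
        refine sum_congr rfl fun e _ => ?_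
        rw [sum_comm (s := J)]
        exact sum_congr rfl fun v _ =>
          (sum_fiberwise_of_maps_to (fun w hw => mem_image_of_mem _ hw) _).symm
    _ ≤ ∑ e ∈ I, ∑ f ∈ J, C * (((∑ v ∈ V.filter (fun v => σ v = e), α v) *
          ∑ w ∈ W.filter (fun w => σ w = f), β w) ^ θ * Kf e f) := by
        refine sum_le_sum fun e he => sum_le_sum fun f hf => ?_
        obtain ⟨v, hv, rfl⟩ := mem_image.1 he
        obtain ⟨w, hw, rfl⟩ := mem_image.1 hf
        refine (hsub _ (filter_subset _ _) _ (filter_subset _ _) (hconst V _) (hconst W _) v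
          (mem_filter.2 ⟨hv, rfl⟩) w (mem_filter.2 ⟨hw, rfl⟩)).trans_eq ?_
        rw [hsh]; ring
    _ ≤ C * ((∏ p ∈ P, b p) * ((∑ v ∈ V, α v) * ∑ w ∈ W, β w) ^ θ) := by
        simp_rw [← mul_sum]
        refine mul_le_mul_of_nonneg_left ?_ hC
        rcases V.eq_empty_or_nonempty with hVe | ⟨v0, hv0⟩
        · subst hVe; simp [I, zero_rpow (by linarith : θ ≠ 0)]
        refine sum_kernel_le I J _ _ Kf hθ (fun e _ => sum_nonneg fun v hv => hα v (filter_subset _ _ hv))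
          (fun f _ => sum_nonneg fun w hw => hβ w (filter_subset _ _ hw))
          (sum_fiberwise_of_maps_to (fun v hv => mem_image_of_mem _ hv) _).le
          (sum_fiberwise_of_maps_to (fun v hv => mem_image_of_mem _ hv) _).le
          (fun e _ f _ => hKnn e f) (prod_nonneg fun p hp => ?_) (fun e _ => (hrowK J e).1)
          (fun f _ => (hrowK I f).2)
        exact (sum_nonneg fun j _ => expKer_nonneg (h₁ p hp) (h₂ p hp) _ _).trans (hrow p hp ∅ 0)
    _ = _ := by ring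

end Vale.Agent.P028
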