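import Vale.Agent.P028.Defs

/-! Proof of `LatticeStmt`: solutions along one progression, sorted by the integer `m = B n + A d`. -/

namespace Vale.Agent.P028

open Finset

/-- Integers congruent modulo `k` within an interval of length `L`. -/
theorem card_le_of_dvd_sub (S : Finset ℤ) {k : ℕ} (hk : 1 ≤ k) {L : ℝ} (hL : 0 ≤ L)
    (hd : ∀ x ∈ S, ∀ y ∈ S, (k : ℤ) ∣ x - y)
    (hl : ∀ x ∈ S, ∀ y ∈ S, (x : ℝ) - y ≤ L) :
    (S.card : ℝ) ≤ L / k + 1 := by
  rcases S.eq_empty_or_nonempty with rfl | hS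
  · simp only [Finset.card_empty, Nat.cast_zero]; positivity
  have hk0 : (0 : ℤ) < k := by exact_mod_cast hk
  have hkR : (0 : ℝ) < k := by exact_mod_cast hk
  set x₀ := S.min' hS with hx₀
  have hmem : x₀ ∈ S := S.min'_mem hS
  have hcard : S.card ≤ (Finset.range (⌊L / k⌋₊ + 1)).card := by
    refine Finset.card_le_card_of_injOn (fun x => ((x - x₀) / k).toNat) ?_ ?_
    · intro x hx
      rw [Finset.mem_coe] at hx
      simp only [Finset.mem_coe, Finset.mem_range, Nat.lt_succ_iff]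
      obtain ⟨j, hj⟩ := hd x hx x₀ hmem
      have hj0 : 0 ≤ j := by
        have := S.min'_le x hx
        by_contra hneg
        have : (k : ℤ) * j < 0 := mul_neg_of_pos_of_neg hk0 (by omega)
        omega
      rw [hj, Int.mul_ediv_cancel_left _ hk0.ne']
      apply Nat.le_floor
      have h1 := hl x hx x₀ hmem
      have h2 : (x : ℝ) - x₀ = (k : ℝ) * j := by exact_mod_cast hj
      rw [le_div_iff₀ hkR]
      have h3 : ((j.toNat : ℕ) : ℝ) = (j : ℝ) := by exact_mod_cast Int.toNat_of_nonneg hj0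
      rw [h3]; linarith
    · intro x hx y hy hxy
      rw [Finset.mem_coe] at hx hy
      simp only at hxy
      obtain ⟨i, hi⟩ := hd x hx x₀ hmem
      obtain ⟨j, hj⟩ := hd y hy x₀ hmem
      have hi0 : x₀ ≤ x := S.min'_le x hx
      have hj0 : x₀ ≤ y := S.min'_le y hy
      rw [hi, hj, Int.mul_ediv_cancel_left _ hk0.ne', Int.mul_ediv_cancel_left _ hk0.ne'] at hxy
      have hin : 0 ≤ i := by
        by_contra hneg
        have : (k : ℤ) * i < 0 := mul_neg_of_pos_of_neg hk0 (by omega)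
        omega
      have hjn : 0 ≤ j := by
        by_contra hneg
        have : (k : ℤ) * j < 0 := mul_neg_of_pos_of_neg hk0 (by omega)
        omega
      have : i = j := by omega
      subst this
      omega
  rw [Finset.card_range] at hcard
  calc (S.card : ℝ) ≤ ((⌊L / k⌋₊ + 1 : ℕ) : ℝ) := by exact_mod_cast hcard
    _ ≤ L / k + 1 := by
      push_cast
      linarith [Nat.floor_le (by positivity : 0 ≤ L / (k : ℝ))]

theorem latticeStmt : LatticeStmt := by
  classical
  refine ⟨12, ?_⟩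
  intro γ A B X c D Q hcop hB hX hD hQ hc
  set S := (Finset.Icc 1 ⌊Q / X⌋₊).filter (fun t : ℕ => ∃ n : ℤ,
    |(n : ℝ) + γ * ((c : ℝ) - (X : ℝ) * t)| ≤ 2 * D ∧
      (B : ℤ) * n + A * ((c : ℤ) - (X : ℤ) * t) ≠ 0) with hSdef
  set ε := (B : ℝ) * γ - A with hε
  set g := Nat.gcd X B with hgdef
  set T := Q / (X : ℝ) with hTdef
  have hB0 : (0 : ℝ) < B := by exact_mod_cast hB
  have hX0 : (0 : ℝ) < X := by exact_mod_cast hX
  have hgpos : 0 < g := Nat.gcd_pos_of_pos_left _ hX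
  have hg0 : (0 : ℝ) < g := by exact_mod_cast hgpos
  have hT : 0 < T := by positivity
  have hTX : T * X = Q := div_mul_cancel₀ Q hX0.ne'
  have hrhs0 : 0 ≤ 12 * T * (D + (g : ℝ) * min (B : ℝ)⁻¹ D + X * (|ε| + (1 + B * D) / Q)) := by
    positivity
  rcases S.eq_empty_or_nonempty with hS | hS
  · rw [hS]; simpa using hrhs0
  -- basic facts about members
  have hspec : ∀ t ∈ S, ∃ n : ℤ, |(n : ℝ) + γ * ((c : ℝ) - (X : ℝ) * t)| ≤ 2 * D ∧
      (B : ℤ) * n + A * ((c : ℤ) - (X : ℤ) * t) ≠ 0 := by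
    intro t ht; exact (Finset.mem_filter.1 ht).2
  choose! nf hn using hspec
  let mf : ℕ → ℤ := fun t => (B : ℤ) * nf t + A * ((c : ℤ) - (X : ℤ) * t)
  set M := 2 * B * D + |ε| * Q with hMdef
  have ht1 : ∀ t ∈ S, (1 : ℝ) ≤ t ∧ (t : ℝ) ≤ T := by
    intro t ht
    have h := Finset.mem_Icc.1 (Finset.mem_filter.1 ht).1
    refine ⟨by exact_mod_cast h.1, ?_⟩
    exact le_trans (by exact_mod_cast h.2) (Nat.floor_le hT.le)
  have hd : ∀ t ∈ S, |(c : ℝ) - (X : ℝ) * t| ≤ Q := by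
    intro t ht
    obtain ⟨h1, h2⟩ := ht1 t ht
    have : (X : ℝ) * t ≤ Q := by rw [← hTX]; nlinarith
    have : (0 : ℝ) ≤ (X : ℝ) * t := by positivity
    rw [abs_le]; constructor <;> linarith [Nat.cast_nonneg (α := ℝ) c]
  have hkey : ∀ t ∈ S, |(mf t : ℝ) + ε * ((c : ℝ) - (X : ℝ) * t)| ≤ 2 * B * D := by
    intro t ht
    have h := mul_le_mul_of_nonneg_left (hn t ht).1 hB0.le
    have e : (mf t : ℝ) + ε * ((c : ℝ) - (X : ℝ) * t)
        = (B : ℝ) * ((nf t : ℝ) + γ * ((c : ℝ) - (X : ℝ) * t)) := by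
      simp only [mf, hε]; push_cast; ring
    rw [e, abs_mul, abs_of_pos hB0]; linarith
  have hmM : ∀ t ∈ S, |(mf t : ℝ)| ≤ M := by
    intro t ht
    have h1 := hkey t ht
    have h2 : |ε * ((c : ℝ) - (X : ℝ) * t)| ≤ |ε| * Q := by
      rw [abs_mul]; exact mul_le_mul_of_nonneg_left (hd t ht) (abs_nonneg _)
    have h3 := abs_sub ((mf t : ℝ) + ε * ((c : ℝ) - (X : ℝ) * t)) (ε * ((c : ℝ) - (X : ℝ) * t))
    rw [add_sub_cancel_right] at h3
    linarith
  have hM1 : 1 ≤ M := by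
    obtain ⟨t, ht⟩ := hS
    have h1 : (1 : ℝ) ≤ |(mf t : ℝ)| := by
      rw [← Int.cast_abs]; exact Int.cast_one_le_of_pos (abs_pos.2 (hn t ht).2)
    exact h1.trans (hmM t ht)
  have hM0 : 0 ≤ M := by linarith
  -- the number of values of `m`
  have himg : ((S.image mf).card : ℝ) ≤ 2 * M / g + 1 := by
    refine card_le_of_dvd_sub _ hgpos (by positivity) ?_ ?_
    · intro x hx y hy
      obtain ⟨t, -, rfl⟩ := Finset.mem_image.1 hx
      obtain ⟨u, -, rfl⟩ := Finset.mem_image.1 hy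
      have h1 : (g : ℤ) ∣ (B : ℤ) := by exact_mod_cast Nat.gcd_dvd_right X B
      have h2 : (g : ℤ) ∣ (X : ℤ) := by exact_mod_cast Nat.gcd_dvd_left X B
      have e : mf t - mf u = (B : ℤ) * (nf t - nf u) + (X : ℤ) * (A * ((u : ℤ) - t)) := by
        simp only [mf]; ring
      rw [e]
      exact dvd_add (dvd_mul_of_dvd_left h1 _) (dvd_mul_of_dvd_left h2 _)
    · intro x hx y hy
      obtain ⟨t, ht, rfl⟩ := Finset.mem_image.1 hx
      obtain ⟨u, hu, rfl⟩ := Finset.mem_image.1 hy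
      have h1 := abs_le.1 (hmM t ht)
      have h2 := abs_le.1 (hmM u hu)
      linarith
  -- the fibres
  set L := if ε = 0 then T else min (4 * B * D / (|ε| * X)) T with hLdef
  have hL0 : 0 ≤ L := by rw [hLdef]; split_ifs <;> positivity
  have hLT : L ≤ T := by
    rw [hLdef]; split_ifs
    · exact le_rfl
    · exact min_le_right _ _
  have hLε : |ε| * L * X ≤ 4 * B * D := by
    rw [hLdef]; split_ifs with h0
    · rw [h0, abs_zero, zero_mul, zero_mul]; positivity
    · have hp : 0 < |ε| * X := by positivity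
      have := min_le_left (4 * B * D / (|ε| * X)) T
      rw [le_div_iff₀ hp] at this
      linarith
  have hk1 : 1 ≤ B / g := Nat.div_pos (Nat.le_of_dvd hB (Nat.gcd_dvd_right X B)) hgpos
  have hkR : ((B / g : ℕ) : ℝ) = (B : ℝ) / g :=
    Nat.cast_div (Nat.gcd_dvd_right X B) hg0.ne'
  have hfib : ∀ m ∈ S.image mf, ((S.filter fun t => mf t = m).card : ℝ) ≤ L * g / B + 1 := by
    intro m hm
    set F := S.filter fun t => mf t = m with hF
    have hcardF : (F.image (fun t : ℕ => (t : ℤ))).card = F.card :=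
      Finset.card_image_of_injective _ Nat.cast_injective
    rw [← hcardF]
    have e : L * g / B = L / ((B / g : ℕ) : ℝ) := by rw [hkR, div_div_eq_mul_div]
    rw [e]
    refine card_le_of_dvd_sub _ hk1 hL0 ?_ ?_
    · intro x hx y hy
      obtain ⟨t, ht, rfl⟩ := Finset.mem_image.1 hx
      obtain ⟨u, hu, rfl⟩ := Finset.mem_image.1 hy
      have htm := (Finset.mem_filter.1 ht).2
      have hum := (Finset.mem_filter.1 hu).2
      have e2 : (B : ℤ) * (nf t - nf u) = A * ((X : ℤ) * ((t : ℤ) - u)) := by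
        have : mf t = mf u := htm.trans hum.symm
        simp only [mf] at this
        linarith
      have h1 : (B : ℤ) ∣ (X : ℤ) * ((t : ℤ) - u) :=
        hcop.symm.dvd_of_dvd_mul_left ⟨_, e2.symm⟩
      have hBg : (B : ℤ) = (g : ℤ) * ((B / g : ℕ) : ℤ) := by
        exact_mod_cast (Nat.mul_div_cancel' (Nat.gcd_dvd_right X B)).symm
      have hXg : (X : ℤ) = (g : ℤ) * ((X / g : ℕ) : ℤ) := by
        exact_mod_cast (Nat.mul_div_cancel' (Nat.gcd_dvd_left X B)).symm
      rw [hBg, hXg, mul_assoc] at h1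
      have h2 := (mul_dvd_mul_iff_left (by exact_mod_cast hgpos.ne' : (g : ℤ) ≠ 0)).1 h1
      have h3 : IsCoprime ((B / g : ℕ) : ℤ) ((X / g : ℕ) : ℤ) :=
        Nat.isCoprime_iff_coprime.2 (Nat.coprime_div_gcd_div_gcd hgpos).symm
      exact h3.dvd_of_dvd_mul_left h2
    · intro x hx y hy
      obtain ⟨t, ht, rfl⟩ := Finset.mem_image.1 hx
      obtain ⟨u, hu, rfl⟩ := Finset.mem_image.1 hy
      obtain ⟨htS, htm⟩ := Finset.mem_filter.1 ht
      obtain ⟨huS, hum⟩ := Finset.mem_filter.1 hu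
      push_cast
      have hT' : (t : ℝ) - u ≤ T := by
        linarith [(ht1 t htS).2, (Nat.cast_nonneg u : (0 : ℝ) ≤ u)]
      rw [hLdef]; split_ifs with h0
      · exact hT'
      · refine le_min ?_ hT'
        rw [le_div_iff₀ (by positivity)]
        have h1 := hkey t htS
        have h2 := hkey u huS
        rw [htm] at h1; rw [hum] at h2
        have h3 : |ε * ((X : ℝ) * ((t : ℝ) - u))| ≤ 4 * B * D := by
          have e3 : ε * ((X : ℝ) * ((t : ℝ) - u)) = ((m : ℝ) + ε * ((c : ℝ) - (X : ℝ) * u))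
              - ((m : ℝ) + ε * ((c : ℝ) - (X : ℝ) * t)) := by ring
          rw [e3]
          exact (abs_sub _ _).trans (by linarith)
        rw [abs_mul, abs_mul, abs_of_pos hX0] at h3
        nlinarith [le_abs_self ((t : ℝ) - u), mul_nonneg (abs_nonneg ε) hX0.le]
  have hsum : (S.card : ℝ) ≤ (2 * M / g + 1) * (L * g / B + 1) := by
    rw [Finset.card_eq_sum_card_image mf S, Nat.cast_sum]
    refine (Finset.sum_le_card_nsmul _ _ _ hfib).trans ?_
    rw [nsmul_eq_mul]
    exact mul_le_mul_of_nonneg_right himg (by positivity)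
  -- multiply out
  have hML : M * L ≤ 6 * B * D * T := by
    have h1 : 2 * B * D * L ≤ 2 * B * D * T := mul_le_mul_of_nonneg_left hLT (by positivity)
    have h2 : |ε| * Q * L ≤ 4 * B * D * T := by
      calc |ε| * Q * L = (|ε| * L * X) * T := by rw [← hTX]; ring
        _ ≤ 4 * B * D * T := mul_le_mul_of_nonneg_right hLε hT.le
    rw [hMdef, add_mul]; linarith
  have p1 : 2 * M / g * (L * g / B) ≤ 12 * (T * D) := by
    have e : 2 * M / g * (L * g / B) = 2 * (M * L) / B := by field_simp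
    rw [e, div_le_iff₀ hB0]; linarith
  have p2 : L * g / B ≤ 6 * (T * ((g : ℝ) * min (B : ℝ)⁻¹ D)) := by
    rw [mul_min_of_nonneg _ _ hg0.le, mul_min_of_nonneg _ _ hT.le,
      mul_min_of_nonneg _ _ (by norm_num : (0 : ℝ) ≤ 6)]
    refine le_min ?_ ?_
    · rw [div_eq_mul_inv]
      have : L * g * (B : ℝ)⁻¹ ≤ T * g * (B : ℝ)⁻¹ :=
        mul_le_mul_of_nonneg_right (mul_le_mul_of_nonneg_right hLT hg0.le) (by positivity)
      have h0 : 0 ≤ T * g * (B : ℝ)⁻¹ := by positivity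
      linarith
    · rw [div_le_iff₀ hB0]
      have h1 : L ≤ 6 * B * D * T := le_trans (le_mul_of_one_le_left hL0 hM1) hML
      linarith [mul_le_mul_of_nonneg_right h1 hg0.le]
  have p3 : 2 * M / g ≤ 4 * (B * D) + 2 * (|ε| * Q) := by
    refine (div_le_self (by positivity) (by exact_mod_cast hgpos)).trans ?_
    rw [hMdef]; linarith
  have e : 12 * T * (D + (g : ℝ) * min (B : ℝ)⁻¹ D + X * (|ε| + (1 + B * D) / Q))
      = 12 * (T * D) + 12 * (T * ((g : ℝ) * min (B : ℝ)⁻¹ D))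
        + 12 * (|ε| * Q) + 12 + 12 * (B * D) := by
    rw [← hTX]; field_simp; ring
  rw [e]
  have h0 : 0 ≤ T * ((g : ℝ) * min (B : ℝ)⁻¹ D) := by positivity
  have h1 : 0 ≤ |ε| * Q := by positivity
  have h2 : 0 ≤ (B : ℝ) * D := by positivity
  nlinarith [hsum]

end Vale.Agent.P028
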