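import Mathlib

/-! Scalar inequalities for the bilinear gcd lemma. -/

namespace Vale.Agent.P028

open Finset Real

/-- A kernel with row and column sums at most `R` acts boundedly on `θ`-th powers, `θ ≥ 1/2`. -/
theorem sum_kernel_le {ι κ : Type*} (I : Finset ι) (J : Finset κ) (x : ι → ℝ) (y : κ → ℝ)
    (K : ι → κ → ℝ) {X Y R θ : ℝ} (hθ : 1 / 2 ≤ θ) (hx : ∀ i ∈ I, 0 ≤ x i) (hy : ∀ j ∈ J, 0 ≤ y j)
    (hX : ∑ i ∈ I, x i ≤ X) (hY : ∑ j ∈ J, y j ≤ Y) (hK : ∀ i ∈ I, ∀ j ∈ J, 0 ≤ K i j)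
    (hR : 0 ≤ R) (hr : ∀ i ∈ I, ∑ j ∈ J, K i j ≤ R) (hc : ∀ j ∈ J, ∑ i ∈ I, K i j ≤ R) :
    ∑ i ∈ I, ∑ j ∈ J, (x i * y j) ^ θ * K i j ≤ R * (X * Y) ^ θ := by
  have hX0 : 0 ≤ X := (sum_nonneg hx).trans hX
  have hY0 : 0 ≤ Y := (sum_nonneg hy).trans hY
  set P := (X * Y) ^ θ with hP
  have hP0 : 0 ≤ P := by positivity
  have key : ∀ i ∈ I, ∀ j ∈ J, (x i * y j) ^ θ ≤ P * ((x i / X + y j / Y) / 2) := by
    intro i hi j hj
    have hxX : x i ≤ X := (single_le_sum hx hi).trans hX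
    have hyY : y j ≤ Y := (single_le_sum hy hj).trans hY
    have hxi := hx i hi
    have hyj := hy j hj
    rcases eq_or_lt_of_le hX0 with hX' | hX'
    · have : x i = 0 := le_antisymm (hxX.trans_eq hX'.symm) hxi
      rw [this, zero_mul, zero_rpow (by linarith : θ ≠ 0)]; positivity
    rcases eq_or_lt_of_le hY0 with hY' | hY'
    · have : y j = 0 := le_antisymm (hyY.trans_eq hY'.symm) hyj
      rw [this, mul_zero, zero_rpow (by linarith : θ ≠ 0)]; positivity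
    have h1 : (x i * y j) ^ θ = P * (x i / X * (y j / Y)) ^ θ := by
      rw [hP, ← mul_rpow (by positivity) (by positivity)]
      congr 1; field_simp
    rw [h1]
    refine mul_le_mul_of_nonneg_left ?_ hP0
    set u := x i / X
    set v := y j / Y
    have hu : 0 ≤ u := by positivity
    have hv : 0 ≤ v := by positivity
    have hu1 : u ≤ 1 := (div_le_one hX').2 hxX
    have hv1 : v ≤ 1 := (div_le_one hY').2 hyY
    have h2 : (u * v) ^ θ ≤ (u * v) ^ (1 / 2 : ℝ) :=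
      rpow_le_rpow_of_exponent_ge' (mul_nonneg hu hv) (mul_le_one₀ hu1 hv hv1) (by norm_num) hθ
    refine h2.trans ?_
    rw [mul_rpow hu hv]
    refine (geom_mean_le_arith_mean2_weighted (by norm_num) (by norm_num) hu hv
      (by norm_num)).trans_eq ?_
    ring
  calc ∑ i ∈ I, ∑ j ∈ J, (x i * y j) ^ θ * K i j
      ≤ ∑ i ∈ I, ∑ j ∈ J, P * ((x i / X + y j / Y) / 2) * K i j :=
        sum_le_sum fun i hi => sum_le_sum fun j hj =>
          mul_le_mul_of_nonneg_right (key i hi j hj) (hK i hi j hj)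
    _ = P / 2 * (∑ i ∈ I, x i / X * ∑ j ∈ J, K i j + ∑ j ∈ J, y j / Y * ∑ i ∈ I, K i j) := by
        rw [mul_add, mul_sum, mul_sum]
        simp_rw [mul_sum]
        rw [sum_comm (s := J) (t := I), ← sum_add_distrib]
        refine sum_congr rfl fun i _ => ?_
        rw [← sum_add_distrib]
        exact sum_congr rfl fun j _ => by ring
    _ ≤ P / 2 * (∑ i ∈ I, x i / X * R + ∑ j ∈ J, y j / Y * R) := by
        refine mul_le_mul_of_nonneg_left (add_le_add (sum_le_sum fun i hi => ?_)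
          (sum_le_sum fun j hj => ?_)) (by positivity)
        · exact mul_le_mul_of_nonneg_left (hr i hi) (div_nonneg (hx i hi) hX0)
        · exact mul_le_mul_of_nonneg_left (hc j hj) (div_nonneg (hy j hj) hY0)
    _ ≤ P / 2 * (1 * R + 1 * R) := by
        rw [← sum_mul, ← sum_mul, ← sum_div, ← sum_div]
        gcongr
        · exact div_le_one_of_le₀ hX hX0
        · exact div_le_one_of_le₀ hY hY0
    _ = R * P := by ring

/-- The kernel on exponents. -/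
def expKer (t₁ t₂ : ℝ) (i j : ℕ) : ℝ := t₁ ^ (i - j) * t₂ ^ (j - i)

theorem expKer_nonneg {t₁ t₂ : ℝ} (h₁ : 0 ≤ t₁) (h₂ : 0 ≤ t₂) (i j : ℕ) : 0 ≤ expKer t₁ t₂ i j := by
  unfold expKer; positivity

theorem expKer_le {t₁ t₂ t : ℝ} (h₁ : 0 ≤ t₁) (h₂ : 0 ≤ t₂) (h₁' : t₁ ≤ t) (h₂' : t₂ ≤ t) (i j : ℕ) :
    expKer t₁ t₂ i j ≤ t ^ Nat.dist i j := by
  rw [Nat.dist, pow_add]
  exact mul_le_mul (pow_le_pow_left₀ h₁ h₁' _) (pow_le_pow_left₀ h₂ h₂' _) (by positivity)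
    (pow_nonneg (h₁.trans h₁') _)

/-- Geometric bound for powers of distances at least `m` from a fixed exponent. -/
theorem sum_pow_dist_le {t : ℝ} (h0 : 0 ≤ t) (h1 : t ≤ 1 / 4) (J : Finset ℕ) (k m : ℕ) (_hm : 1 ≤ m)
    (hJ : ∀ j ∈ J, m ≤ Nat.dist k j) : ∑ j ∈ J, t ^ Nat.dist k j ≤ 3 * t ^ m := by
  have hgeo : ∀ S : Finset ℕ, (∀ d ∈ S, m ≤ d) → ∑ d ∈ S, t ^ d ≤ t ^ m / (1 - t) := by
    intro S hS
    refine le_trans (sum_le_sum_of_subset_of_nonneg (t := Ico m (S.sup id + 1)) ?_ ?_)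
      (geom_sum_Ico_le_of_lt_one h0 (by linarith))
    · intro d hd
      exact mem_Ico.2 ⟨hS d hd, Nat.lt_succ_of_le (le_sup (f := id) hd)⟩
    · intros; positivity
  rw [← sum_filter_add_sum_filter_not J (fun j => j ≤ k)]
  have hdiv : t ^ m / (1 - t) ≤ 3 / 2 * t ^ m := by
    rw [div_le_iff₀ (by linarith)]
    nlinarith [pow_nonneg h0 m]
  have hA : ∑ j ∈ J.filter (fun j => j ≤ k), t ^ Nat.dist k j ≤ t ^ m / (1 - t) := by
    rw [← sum_image (f := fun d => t ^ d) (g := fun j => Nat.dist k j)]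
    · refine hgeo _ fun d hd => ?_
      obtain ⟨j, hj, rfl⟩ := mem_image.1 hd
      exact hJ j (mem_filter.1 hj).1
    · intro a ha b hb hab
      simp only [coe_filter, Set.mem_ofPred_eq] at ha hb
      simp only [Nat.dist] at hab
      omega
  have hB : ∑ j ∈ J.filter (fun j => ¬ j ≤ k), t ^ Nat.dist k j ≤ t ^ m / (1 - t) := by
    rw [← sum_image (f := fun d => t ^ d) (g := fun j => Nat.dist k j)]
    · refine hgeo _ fun d hd => ?_
      obtain ⟨j, hj, rfl⟩ := mem_image.1 hd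
      exact hJ j (mem_filter.1 hj).1
    · intro a ha b hb hab
      simp only [coe_filter, Set.mem_ofPred_eq] at ha hb
      simp only [Nat.dist] at hab
      omega
  linarith

theorem sum_expKer_le {t₁ t₂ t : ℝ} (h₁ : 0 ≤ t₁) (h₂ : 0 ≤ t₂) (h₁' : t₁ ≤ t) (h₂' : t₂ ≤ t)
    (ht : t ≤ 1 / 4) (J : Finset ℕ) (i : ℕ) :
    ∑ j ∈ J, expKer t₁ t₂ i j ≤ 1 + 3 * t ∧ ∑ j ∈ J, expKer t₁ t₂ j i ≤ 1 + 3 * t := by
  have h0 : 0 ≤ t := h₁.trans h₁'
  have h : ∑ j ∈ J, t ^ Nat.dist i j ≤ 1 + 3 * t := by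
    rw [← sum_filter_add_sum_filter_not J (fun j => j = i)]
    refine add_le_add ?_ ((sum_pow_dist_le h0 ht _ i 1 le_rfl ?_).trans_eq (by rw [pow_one]))
    · rw [filter_eq']; split <;> simp [Nat.dist_self]
    · intro j hj
      simp only [mem_filter] at hj
      simp only [Nat.dist]; omega
  refine ⟨(sum_le_sum fun j _ => expKer_le h₁ h₂ h₁' h₂' i j).trans h,
    (sum_le_sum fun j _ => (expKer_le h₁ h₂ h₁' h₂' j i).trans_eq (by rw [Nat.dist_comm])).trans h⟩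

/-- Subadditivity used to discard a small deviating part. -/
theorem split_le_one {θ a c : ℝ} (hθ0 : 0 < θ) (hθ1 : θ < 1) (ha0 : 0 ≤ a) (ha1 : a ≤ 1)
    (hc : c ≤ θ * a ^ (1 - θ)) : (1 - a) ^ θ + c * a ^ θ ≤ 1 := by
  have h1 : (1 - a) ^ θ ≤ 1 - θ * a := by
    have := rpow_one_add_le_one_add_mul_self (show -1 ≤ -a by linarith) hθ0.le hθ1.le
    simpa [sub_eq_add_neg, mul_neg] using this
  have h2 : c * a ^ θ ≤ θ * a := by
    refine (mul_le_mul_of_nonneg_right hc (rpow_nonneg ha0 θ)).trans_eq ?_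
    rw [mul_assoc, ← rpow_add' ha0 (by norm_num)]
    norm_num
  linarith

/-- Where `c ≤ θ a^{1-θ}` fails, `a` is at most this threshold. -/
noncomputable def thrOf (θ c : ℝ) : ℝ := (c / θ) ^ (1 / (1 - θ))

theorem le_thrOf {θ a c : ℝ} (hθ0 : 0 < θ) (hθ1 : θ < 1) (ha0 : 0 ≤ a)
    (hc : ¬ c ≤ θ * a ^ (1 - θ)) : a ≤ thrOf θ c := by
  have h : a ^ (1 - θ) ≤ c / θ := by
    rw [le_div_iff₀ hθ0]; linarith [not_le.1 hc]
  calc a = (a ^ (1 - θ)) ^ (1 / (1 - θ)) := by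
        rw [← rpow_mul ha0, mul_one_div, div_self (by linarith : (1 - θ) ≠ 0), rpow_one]
    _ ≤ _ := rpow_le_rpow (by positivity) h (div_nonneg zero_le_one (by linarith))

/-- Two exponent distributions give at most one unless concentrated at a common exponent. -/
theorem exists_common_max {θ η t : ℝ} (hθ : 1 / 2 < θ) (hθ1 : θ < 1) (hη : 0 < η) (hη' : η < 1 / 2)
    (ht0 : 0 ≤ t) (ht : t ≤ 1 / 4) (hsmall1 : 3 * t + 4 * η ^ θ ≤ 1)
    (hsmall2 : (1 + 3 * t) * ((1 - η) ^ (2 * θ - 1) + 1) ≤ 2)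
    {t₁ t₂ : ℝ} (h₁ : 0 ≤ t₁) (h₂ : 0 ≤ t₂) (h₁' : t₁ ≤ t) (h₂' : t₂ ≤ t)
    (I J : Finset ℕ) (x y : ℕ → ℝ) (hx : ∀ i ∈ I, 0 ≤ x i) (hy : ∀ j ∈ J, 0 ≤ y j)
    {X Y : ℝ} (hX : ∑ i ∈ I, x i = X) (hY : ∑ j ∈ J, y j = Y)
    (hF : (X * Y) ^ θ < ∑ i ∈ I, ∑ j ∈ J, (x i * y j) ^ θ * expKer t₁ t₂ i j) :
    ∃ k ∈ I, k ∈ J ∧ (1 - η) * X < x k ∧ (1 - η) * Y < y k := by
  by_contra hno
  push Not at hno
  have hX0 : 0 ≤ X := hX ▸ sum_nonneg hx
  have hY0 : 0 ≤ Y := hY ▸ sum_nonneg hy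
  set x' : ℕ → ℝ := fun i => x i / X
  set y' : ℕ → ℝ := fun j => y j / Y
  rcases eq_or_lt_of_le hX0 with hX' | hX'
  · have hz : ∀ i ∈ I, x i = 0 := (sum_eq_zero_iff_of_nonneg hx).1 (hX.trans hX'.symm)
    rw [← hX', zero_mul, zero_rpow (by linarith : θ ≠ 0)] at hF
    refine hF.not_ge (sum_nonpos fun i hi => sum_nonpos fun j _ => ?_)
    rw [hz i hi, zero_mul, zero_rpow (by linarith : θ ≠ 0), zero_mul]
  rcases eq_or_lt_of_le hY0 with hY' | hY'
  · have hz : ∀ j ∈ J, y j = 0 := (sum_eq_zero_iff_of_nonneg hy).1 (hY.trans hY'.symm)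
    rw [← hY', mul_zero, zero_rpow (by linarith : θ ≠ 0)] at hF
    refine hF.not_ge (sum_nonpos fun i _ => sum_nonpos fun j hj => ?_)
    rw [hz j hj, mul_zero, zero_rpow (by linarith : θ ≠ 0), zero_mul]
  have hx' : ∀ i ∈ I, 0 ≤ x' i := fun i hi => div_nonneg (hx i hi) hX0
  have hy' : ∀ j ∈ J, 0 ≤ y' j := fun j hj => div_nonneg (hy j hj) hY0
  have hxs : ∑ i ∈ I, x' i = 1 := by rw [← sum_div, hX, div_self hX'.ne']
  have hys : ∑ j ∈ J, y' j = 1 := by rw [← sum_div, hY, div_self hY'.ne']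
  have hscale : ∀ i ∈ I, ∀ j ∈ J, (x i * y j) ^ θ = (X * Y) ^ θ * (x' i * y' j) ^ θ := by
    intro i hi j hj
    rw [← mul_rpow (by positivity) (mul_nonneg (hx' i hi) (hy' j hj))]
    congr 1; simp only [x', y']; field_simp
  have hF' : 1 < ∑ i ∈ I, ∑ j ∈ J, (x' i * y' j) ^ θ * expKer t₁ t₂ i j := by
    have hP : 0 < (X * Y) ^ θ := by positivity
    refine lt_of_mul_lt_mul_left ?_ hP.le
    rw [mul_one, mul_sum]
    refine hF.trans_eq (sum_congr rfl fun i hi => ?_)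
    rw [mul_sum]
    exact sum_congr rfl fun j hj => by rw [hscale i hi j hj, mul_assoc]
  -- bound by the diagonal weight and the off-diagonal kernel
  set px := ∑ i ∈ I, x' i ^ (2 * θ) with hpx
  set py := ∑ j ∈ J, y' j ^ (2 * θ) with hpy
  have hamgm : ∀ i ∈ I, ∀ j ∈ J,
      (x' i * y' j) ^ θ ≤ (x' i ^ (2 * θ) + y' j ^ (2 * θ)) / 2 := by
    intro i hi j hj
    have h1 : x' i ^ (2 * θ) = (x' i ^ θ) ^ 2 := by
      rw [mul_comm, rpow_mul (hx' i hi)]; norm_num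
    have h2 : y' j ^ (2 * θ) = (y' j ^ θ) ^ 2 := by
      rw [mul_comm, rpow_mul (hy' j hj)]; norm_num
    rw [h1, h2, mul_rpow (hx' i hi) (hy' j hj)]
    nlinarith [sq_nonneg (x' i ^ θ - y' j ^ θ)]
  have hall : ∑ i ∈ I, ∑ j ∈ J, (x' i * y' j) ^ θ * expKer t₁ t₂ i j ≤ (1 + 3 * t) * (px + py) / 2 := by
    calc ∑ i ∈ I, ∑ j ∈ J, (x' i * y' j) ^ θ * expKer t₁ t₂ i j
        ≤ ∑ i ∈ I, ∑ j ∈ J, (x' i ^ (2 * θ) + y' j ^ (2 * θ)) / 2 * expKer t₁ t₂ i j :=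
          sum_le_sum fun i hi => sum_le_sum fun j hj =>
            mul_le_mul_of_nonneg_right (hamgm i hi j hj) (expKer_nonneg h₁ h₂ i j)
      _ = (∑ i ∈ I, x' i ^ (2 * θ) * ∑ j ∈ J, expKer t₁ t₂ i j +
            ∑ j ∈ J, y' j ^ (2 * θ) * ∑ i ∈ I, expKer t₁ t₂ i j) / 2 := by
          simp_rw [mul_sum]
          rw [sum_comm (s := J) (t := I), ← sum_add_distrib, sum_div]
          refine sum_congr rfl fun i _ => ?_
          rw [← sum_add_distrib, sum_div]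
          exact sum_congr rfl fun j _ => by ring
      _ ≤ (∑ i ∈ I, x' i ^ (2 * θ) * (1 + 3 * t) + ∑ j ∈ J, y' j ^ (2 * θ) * (1 + 3 * t)) / 2 := by
          gcongr with i hi j hj
          · exact rpow_nonneg (hx' i hi) _
          · exact (sum_expKer_le h₁ h₂ h₁' h₂' ht J i).1
          · exact rpow_nonneg (hy' j hj) _
          · exact (sum_expKer_le h₁ h₂ h₁' h₂' ht I j).2
      _ = (1 + 3 * t) * (px + py) / 2 := by rw [← sum_mul, ← sum_mul]; ring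
  -- a distribution without a dominant exponent has small `2θ`-mass
  have hpow : ∀ (S : Finset ℕ) (z : ℕ → ℝ) (b : ℝ), (∀ i ∈ S, 0 ≤ z i) → (∀ i ∈ S, z i ≤ b) →
      ∑ i ∈ S, z i ^ (2 * θ) ≤ b ^ (2 * θ - 1) * ∑ i ∈ S, z i := by
    intro S z b hz hb
    rw [mul_sum]
    refine sum_le_sum fun i hi => ?_
    calc z i ^ (2 * θ) = z i ^ (2 * θ - 1) * z i := by
          rw [← rpow_add_one' (hz i hi) (by linarith : 2 * θ - 1 + 1 ≠ 0)]; ring_nf
      _ ≤ _ := mul_le_mul_of_nonneg_right (rpow_le_rpow (hz i hi) (hb i hi) (by linarith)) (hz i hi)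
  have hle1 : ∀ (S : Finset ℕ) (z : ℕ → ℝ), (∀ i ∈ S, 0 ≤ z i) → (∀ i ∈ S, z i ≤ 1) →
      ∑ i ∈ S, z i ^ (2 * θ) ≤ ∑ i ∈ S, z i := fun S z hz hb =>
    sum_le_sum fun i hi => rpow_le_self_of_le_one (hz i hi) (hb i hi) (by linarith)
  have hx1 : ∀ i ∈ I, x' i ≤ 1 := fun i hi => (single_le_sum hx' hi).trans_eq hxs
  have hy1 : ∀ j ∈ J, y' j ≤ 1 := fun j hj => (single_le_sum hy' hj).trans_eq hys
  by_cases hxc : ∀ i ∈ I, x' i ≤ 1 - η
  · have := hpow I x' (1 - η) hx' hxc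
    have := hle1 J y' hy' hy1
    rw [hxs] at *; rw [hys] at *
    nlinarith
  by_cases hyc : ∀ j ∈ J, y' j ≤ 1 - η
  · have := hpow J y' (1 - η) hy' hyc
    have := hle1 I x' hx' hx1
    rw [hxs] at *; rw [hys] at *
    nlinarith
  push Not at hxc hyc
  obtain ⟨k, hkI, hk⟩ := hxc
  obtain ⟨l, hlJ, hl⟩ := hyc
  have hkx : (1 - η) * X < x k := by simpa [x', lt_div_iff₀ hX'] using hk
  have hly : (1 - η) * Y < y l := by simpa [y', lt_div_iff₀ hY'] using hl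
  have hkl : k ≠ l := fun h => absurd hly (not_lt.2 (hno l (h ▸ hkI) hlJ (h ▸ hkx)))
  have hxo : ∀ i ∈ I, i ≠ k → x' i ≤ η := by
    intro i hi hik
    have := add_le_sum hx' hkI hi (Ne.symm hik)
    rw [hxs] at this; linarith
  have hyo : ∀ j ∈ J, j ≠ l → y' j ≤ η := by
    intro j hj hjl
    have := add_le_sum hy' hlJ hj (Ne.symm hjl)
    rw [hys] at this; linarith
  -- every diagonal term has a small factor
  have hηθ : 0 ≤ η ^ θ := rpow_nonneg hη.le θ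
  have hdiag : ∀ i ∈ I, i ∈ J → (x' i * y' i) ^ θ ≤ η ^ θ * (if i = k ∨ i = l then 1 else 0)
      + (if i ≠ k ∧ i ≠ l then (x' i + y' i) / 2 else 0) := by
    intro i hi hiJ
    by_cases h : i = k ∨ i = l
    · have h' : ¬ (i ≠ k ∧ i ≠ l) := by tauto
      rw [if_pos h, if_neg h', mul_one, add_zero]
      refine rpow_le_rpow (mul_nonneg (hx' i hi) (hy' i hiJ)) ?_ (by linarith)
      rcases h with h | h
      · calc x' i * y' i ≤ 1 * η := mul_le_mul (hx1 i hi) (hyo i hiJ (h ▸ hkl)) (hy' i hiJ) (by norm_num)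
          _ = η := one_mul η
      · calc x' i * y' i ≤ η * 1 := mul_le_mul (hxo i hi (h ▸ hkl.symm)) (hy1 i hiJ) (hy' i hiJ) hη.le
          _ = η := mul_one η
    · rw [if_neg h, if_pos (by tauto : i ≠ k ∧ i ≠ l), mul_zero, zero_add]
      refine (hamgm i hi i hiJ).trans ?_
      linarith [rpow_le_self_of_le_one (hx' i hi) (hx1 i hi) (show (1 : ℝ) ≤ 2 * θ by linarith),
        rpow_le_self_of_le_one (hy' i hiJ) (hy1 i hiJ) (show (1 : ℝ) ≤ 2 * θ by linarith)]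
  have hη1 : η ≤ η ^ θ := by
    simpa using rpow_le_rpow_of_exponent_ge hη (by linarith) hθ1.le
  have hD : ∑ i ∈ I ∩ J, (x' i * y' i) ^ θ ≤ 3 * η ^ θ := by
    refine (sum_le_sum fun i hi => hdiag i (mem_inter.1 hi).1 (mem_inter.1 hi).2).trans ?_
    rw [sum_add_distrib]
    have h1 : ∑ i ∈ I ∩ J, η ^ θ * (if i = k ∨ i = l then (1 : ℝ) else 0) ≤ 2 * η ^ θ := by
      rw [← mul_sum, mul_comm (2 : ℝ)]
      refine mul_le_mul_of_nonneg_left ?_ hηθ
      rw [sum_boole]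
      have : ((I ∩ J).filter (fun i => i = k ∨ i = l)).card ≤ ({k, l} : Finset ℕ).card :=
        card_le_card fun i hi => by simpa using (mem_filter.1 hi).2
      exact_mod_cast this.trans card_le_two
    have h2 : ∑ i ∈ I ∩ J, (if i ≠ k ∧ i ≠ l then (x' i + y' i) / 2 else 0) ≤ η := by
      rw [← sum_filter, ← sum_div, sum_add_distrib]
      have hA : ∑ i ∈ (I ∩ J).filter (fun i => i ≠ k ∧ i ≠ l), x' i ≤ ∑ i ∈ I.erase k, x' i :=
        sum_le_sum_of_subset_of_nonneg (fun i hi => by simp at hi ⊢; tauto)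
          fun i hi _ => hx' i (mem_of_mem_erase hi)
      have hB : ∑ i ∈ (I ∩ J).filter (fun i => i ≠ k ∧ i ≠ l), y' i ≤ ∑ i ∈ J.erase l, y' i :=
        sum_le_sum_of_subset_of_nonneg (fun i hi => by simp at hi ⊢; tauto)
          fun i hi _ => hy' i (mem_of_mem_erase hi)
      rw [sum_erase_eq_sub hkI, hxs] at hA
      rw [sum_erase_eq_sub hlJ, hys] at hB
      linarith
    linarith
  have hoff : ∑ i ∈ I, ∑ j ∈ J, (x' i * y' j) ^ θ * (if j = i then 0 else expKer t₁ t₂ i j)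
      ≤ 3 * t * (1 * 1) ^ θ := by
    refine sum_kernel_le I J x' y' _ hθ.le hx' hy' hxs.le hys.le
      (fun i _ j _ => by split; · exact le_rfl
                         exact expKer_nonneg h₁ h₂ i j) (by positivity) (fun i _ => ?_) (fun j _ => ?_)
    · rw [sum_ite, sum_const_zero, zero_add]
      refine (sum_le_sum fun j _ => expKer_le h₁ h₂ h₁' h₂' i j).trans
        ((sum_pow_dist_le ht0 ht _ i 1 le_rfl fun j hj => ?_).trans_eq (by rw [pow_one]))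
      simp only [mem_filter] at hj
      simp only [Nat.dist]; omega
    · rw [sum_ite, sum_const_zero, zero_add]
      refine (sum_le_sum fun i _ => (expKer_le h₁ h₂ h₁' h₂' i j).trans_eq
        (by rw [Nat.dist_comm])).trans
        ((sum_pow_dist_le ht0 ht _ j 1 le_rfl fun i hi => ?_).trans_eq (by rw [pow_one]))
      simp only [mem_filter] at hi
      simp only [Nat.dist]; omega
  have hsplit : ∑ i ∈ I, ∑ j ∈ J, (x' i * y' j) ^ θ * expKer t₁ t₂ i j =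
      ∑ i ∈ I ∩ J, (x' i * y' i) ^ θ +
        ∑ i ∈ I, ∑ j ∈ J, (x' i * y' j) ^ θ * (if j = i then 0 else expKer t₁ t₂ i j) := by
    have : ∀ i, ∑ j ∈ J, (x' i * y' j) ^ θ * expKer t₁ t₂ i j =
        (if i ∈ J then (x' i * y' i) ^ θ else 0) +
          ∑ j ∈ J, (x' i * y' j) ^ θ * (if j = i then 0 else expKer t₁ t₂ i j) := by
      intro i
      rw [← sum_ite_eq' J i (fun j => (x' i * y' j) ^ θ), ← sum_add_distrib]
      refine sum_congr rfl fun j _ => ?_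
      by_cases h : j = i
      · subst h; simp [expKer]
      · simp [h]
    rw [sum_congr rfl (fun i _ => this i), sum_add_distrib, sum_ite_mem]
  rw [mul_one, one_rpow, mul_one] at hoff
  linarith

end Vale.Agent.P028
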