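import Vale.Agent.P028.RatioLeaf
import Vale.Agent.P028.Kernel

/-! Leaf bound for many levels at once: pairs of comparable arc scale. -/

namespace Vale.Agent.P028

open Finset Real

theorem phiR_eq_prod {v : ℕ} (hv : 0 < v) :
    phiR v = ∏ p ∈ v.primeFactors, (1 - (p : ℝ)⁻¹) := by
  have h : ((Nat.totient v : ℚ) : ℝ) = (((v : ℚ) * ∏ p ∈ v.primeFactors, (1 - (p : ℚ)⁻¹) : ℚ) : ℝ) := by
    rw [← Nat.totient_eq_mul_prod_factors]
  rw [phiR]
  push_cast at h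
  rw [h]
  field_simp

theorem one_sub_inv_mem_unit {p : ℕ} (hp : p.Prime) :
    0 ≤ 1 - (p : ℝ)⁻¹ ∧ 1 - (p : ℝ)⁻¹ ≤ 1 := by
  have : (p : ℝ)⁻¹ ≤ 1 := inv_le_one_of_one_le₀ (by exact_mod_cast hp.one_le)
  have : 0 ≤ (p : ℝ)⁻¹ := by positivity
  constructor <;> linarith

theorem phiR_le_prod {v : ℕ} (hv : 0 < v) {P : Finset ℕ} (hP : P ⊆ v.primeFactors) :
    phiR v ≤ ∏ p ∈ P, (1 - (p : ℝ)⁻¹) := by
  rw [phiR_eq_prod hv, ← prod_sdiff hP]
  refine mul_le_of_le_one_left (prod_nonneg fun p hp => (one_sub_inv_mem_unit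
    (Nat.prime_of_mem_primeFactors (hP hp))).1) (prod_le_one ?_ ?_)
  · exact fun p hp => (one_sub_inv_mem_unit (Nat.prime_of_mem_primeFactors (sdiff_subset hp))).1
  · exact fun p hp => (one_sub_inv_mem_unit (Nat.prime_of_mem_primeFactors (sdiff_subset hp))).2

/-- Density weight of a divisor `b` of a number supported on `P`. -/
noncomputable def divWeight (P : Finset ℕ) (b : ℕ) : ℝ :=
  (∏ p ∈ P.filter (fun p => b.factorization p = 0), (1 - (p : ℝ)⁻¹)) / b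

theorem divWeight_nonneg {P : Finset ℕ} (hP : ∀ p ∈ P, p.Prime) (b : ℕ) : 0 ≤ divWeight P b :=
  div_nonneg (prod_nonneg fun p hp => (one_sub_inv_mem_unit (hP p (filter_subset _ _ hp))).1)
    (Nat.cast_nonneg b)

theorem sum_one_div_mul_pred_le (P : Finset ℕ) (hP : ∀ p ∈ P, 2 ≤ p) :
    ∑ p ∈ P, 1 / ((p : ℝ) * (p - 1)) ≤ 1 := by
  have key : ∀ M : ℕ, 2 ≤ M → ∑ n ∈ Ico 2 M, 1 / ((n : ℝ) * (n - 1)) ≤ 1 - 1 / ((M : ℝ) - 1) := by
    intro M hM
    induction M, hM using Nat.le_induction with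
    | base => norm_num
    | succ M hM ih =>
      rw [sum_Ico_succ_top hM]
      have h2 : (2 : ℝ) ≤ M := by exact_mod_cast hM
      have : (1 : ℝ) / ((M : ℝ) * (M - 1)) = 1 / ((M : ℝ) - 1) - 1 / M := by
        field_simp [show (M : ℝ) - 1 ≠ 0 by linarith]
        ring
      push_cast
      rw [add_sub_cancel_right]
      linarith
  rcases P.eq_empty_or_nonempty with rfl | hne
  · simp
  refine (sum_le_sum_of_subset_of_nonneg (t := Ico 2 (P.sup id + 2)) ?_ ?_).trans ((key _ (by omega)).trans ?_)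
  · intro p hp
    exact mem_Ico.2 ⟨hP p hp, by have := le_sup (f := id) hp; simp only [id_eq] at this; omega⟩
  · intro n hn _
    have : (2 : ℝ) ≤ n := by exact_mod_cast (mem_Ico.1 hn).1
    have h1 : (0 : ℝ) ≤ (n : ℝ) * (n - 1) := by nlinarith
    positivity
  · have : (2 : ℝ) ≤ ((P.sup id + 2 : ℕ) : ℝ) := by exact_mod_cast Nat.le_add_left 2 _
    have : (0 : ℝ) ≤ 1 / (((P.sup id + 2 : ℕ) : ℝ) - 1) := div_nonneg zero_le_one (by linarith)
    linarith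

/-- The weights of all divisors sum to an absolute constant. -/
theorem sum_divWeight_le {P : Finset ℕ} (hP : ∀ p ∈ P, p.Prime) (e : ℕ → ℕ) (B : Finset ℕ)
    (hB : ∀ b ∈ B, 0 < b ∧ b.primeFactors ⊆ P ∧ ∀ p ∈ P, b.factorization p ≤ e p) :
    ∑ b ∈ B, divWeight P b ≤ Real.exp 1 := by
  classical
  set f : {x // x ∈ P} → ℕ → ℝ := fun p k =>
    if k = 0 then 1 - ((p : ℕ) : ℝ)⁻¹ else (((p : ℕ) : ℝ) ^ k)⁻¹
  set σ : ℕ → ({x // x ∈ P} → ℕ) := fun b p => b.factorization p.1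
  have hf0 : ∀ p k, 0 ≤ f p k := fun p k => by
    simp only [f]; split
    · exact (one_sub_inv_mem_unit (hP p.1 p.2)).1
    · positivity
  have hw : ∀ b ∈ B, divWeight P b = ∏ p : {x // x ∈ P}, f p (σ b p) := by
    intro b hb
    obtain ⟨hb0, hbP, -⟩ := hB b hb
    rw [prod_coe_sort P (fun p => if b.factorization p = 0 then 1 - (p : ℝ)⁻¹
      else ((p : ℝ) ^ b.factorization p)⁻¹), prod_ite, divWeight, div_eq_mul_inv]
    congr 1
    rw [prod_inv_distrib]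
    congr 1
    have hbe : b = ∏ p ∈ P.filter (fun p => ¬ b.factorization p = 0), p ^ b.factorization p := by
      conv_lhs => rw [← Nat.prod_factorization_pow_eq_self hb0.ne']
      rw [Finsupp.prod, Nat.support_factorization]
      refine prod_congr ?_ fun _ _ => rfl
      ext p
      rw [← Nat.support_factorization, Finsupp.mem_support_iff, mem_filter]
      refine ⟨fun h => ⟨hbP ?_, h⟩, fun h => h.2⟩
      rw [← Nat.support_factorization]; exact Finsupp.mem_support_iff.2 h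
    exact_mod_cast congrArg (fun n : ℕ => (n : ℝ)) hbe
  have hinj : Set.InjOn σ B := by
    intro a ha b hb hab
    obtain ⟨ha0, haP, -⟩ := hB a ha
    obtain ⟨hb0, hbP, -⟩ := hB b hb
    refine Nat.eq_of_factorization_eq ha0.ne' hb0.ne' fun p => ?_
    by_cases hp : p ∈ P
    · exact congrFun hab ⟨p, hp⟩
    · have ea : a.factorization p = 0 := Finsupp.notMem_support_iff.1 (by
        rw [Nat.support_factorization]; exact fun h => hp (haP h))
      have eb : b.factorization p = 0 := Finsupp.notMem_support_iff.1 (by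
        rw [Nat.support_factorization]; exact fun h => hp (hbP h))
      rw [ea, eb]
  calc ∑ b ∈ B, divWeight P b = ∑ c ∈ B.image σ, ∏ p : {x // x ∈ P}, f p (c p) := by
        rw [sum_image hinj]; exact sum_congr rfl hw
    _ ≤ ∑ c ∈ Fintype.piFinset (fun p : {x // x ∈ P} => range (e p.1 + 1)), ∏ p, f p (c p) := by
        refine sum_le_sum_of_subset_of_nonneg (fun c hc => ?_) fun c _ _ => prod_nonneg fun p _ => hf0 _ _
        obtain ⟨b, hb, rfl⟩ := mem_image.1 hc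
        exact Fintype.mem_piFinset.2 fun p => mem_range.2 (Nat.lt_succ_of_le ((hB b hb).2.2 p.1 p.2))
    _ = ∏ p : {x // x ∈ P}, ∑ k ∈ range (e p.1 + 1), f p k := (prod_univ_sum _ _).symm
    _ ≤ ∏ p : {x // x ∈ P}, Real.exp (1 / (((p : ℕ) : ℝ) * (((p : ℕ) : ℝ) - 1))) := by
        refine prod_le_prod (fun p _ => sum_nonneg fun k _ => hf0 p k) fun p _ => ?_
        have h2 : (2 : ℝ) ≤ ((p : ℕ) : ℝ) := by exact_mod_cast (hP p.1 p.2).two_le
        rw [sum_range_succ']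
        simp only [f, if_pos, Nat.succ_ne_zero, if_false]
        have hgeo : ∑ k ∈ range (e p.1), (((p : ℕ) : ℝ) ^ (k + 1))⁻¹ ≤ 1 / (((p : ℕ) : ℝ) - 1) := by
          simp_rw [← inv_pow]
          rw [range_eq_Ico]
          rw [sum_Ico_add' (fun k => (((p : ℕ) : ℝ)⁻¹) ^ k) 0 (e p.1) 1]
          refine (geom_sum_Ico_le_of_lt_one (by positivity) (inv_lt_one_of_one_lt₀ (by linarith))).trans_eq ?_
          rw [pow_one, div_eq_div_iff (by
            have : ((p : ℕ) : ℝ)⁻¹ < 1 := inv_lt_one_of_one_lt₀ (by linarith)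
            linarith) (by linarith)]
          field_simp
        have hid : 1 / (((p : ℕ) : ℝ) - 1) + (1 - ((p : ℕ) : ℝ)⁻¹) =
            1 / (((p : ℕ) : ℝ) * (((p : ℕ) : ℝ) - 1)) + 1 := by
          field_simp [show ((p : ℕ) : ℝ) - 1 ≠ 0 by linarith]
          ring
        linarith [Real.add_one_le_exp (1 / (((p : ℕ) : ℝ) * (((p : ℕ) : ℝ) - 1)))]
    _ = Real.exp (∑ p : {x // x ∈ P}, 1 / (((p : ℕ) : ℝ) * (((p : ℕ) : ℝ) - 1))) := (Real.exp_sum _ _).symm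
    _ ≤ Real.exp 1 := by
        refine Real.exp_le_exp.2 ?_
        rw [sum_coe_sort P (fun p : ℕ => 1 / ((p : ℝ) * (p - 1)))]
        exact sum_one_div_mul_pred_le P fun p hp => (hP p hp).two_le

/-- Geometric decay below the largest admissible dyadic scale. -/
theorem sum_scale_le {Z θ : ℝ} (hZ : 0 < Z) (hθ1 : θ < 1) (J : Finset ℕ) (α : ℕ) :
    ∑ γ ∈ J, (if (2 : ℝ) ^ (α + γ) < Z then ((4 : ℝ) ^ (α + γ) / Z ^ 2) ^ (1 - θ) else 0) ≤
      1 / (1 - ((4 : ℝ)⁻¹) ^ (1 - θ)) := by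
  set ρ : ℝ := ((4 : ℝ)⁻¹) ^ (1 - θ)
  have hρ0 : 0 ≤ ρ := by positivity
  have hρ1 : ρ < 1 := rpow_lt_one (by norm_num) (by norm_num) (by linarith)
  rw [← sum_filter]
  set J' := J.filter (fun γ => (2 : ℝ) ^ (α + γ) < Z)
  rcases J'.eq_empty_or_nonempty with h | h
  · rw [h, sum_empty]
    exact div_nonneg zero_le_one (by linarith)
  set M := J'.max' h
  have hMZ : (2 : ℝ) ^ (α + M) < Z := (mem_filter.1 (J'.max'_mem h)).2
  have hterm : ∀ γ ∈ J', ((4 : ℝ) ^ (α + γ) / Z ^ 2) ^ (1 - θ) ≤ ρ ^ (M - γ) := by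
    intro γ hγ
    have hle : γ ≤ M := J'.le_max' γ hγ
    have h4 : (4 : ℝ) ^ (α + M) ≤ Z ^ 2 := by
      rw [show (4 : ℝ) = 2 ^ 2 by norm_num, ← pow_mul, mul_comm, pow_mul]
      exact pow_le_pow_left₀ (by positivity) hMZ.le 2
    rw [show ρ ^ (M - γ) = ((4 : ℝ)⁻¹ ^ (M - γ)) ^ (1 - θ) by
      rw [← rpow_natCast ρ, ← rpow_natCast ((4 : ℝ)⁻¹), ← rpow_mul (by norm_num),
        ← rpow_mul (by norm_num), mul_comm]]
    refine rpow_le_rpow (by positivity) ?_ (by linarith)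
    rw [div_le_iff₀ (by positivity), inv_pow, inv_mul_eq_div, le_div_iff₀ (by positivity), ← pow_add,
      show α + γ + (M - γ) = α + M by omega]
    exact h4
  refine (sum_le_sum hterm).trans ?_
  rw [← sum_image (f := fun d => ρ ^ d) (g := fun γ => M - γ) (fun a ha b hb hab => by
    have := J'.le_max' a ha; have := J'.le_max' b hb; simp only at hab; omega)]
  refine (sum_le_sum_of_subset_of_nonneg (t := Ico 0 (M + 1)) ?_ fun _ _ _ => by positivity).trans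
    ((geom_sum_Ico_le_of_lt_one hρ0 hρ1).trans_eq (by rw [pow_zero]))
  intro d hd
  obtain ⟨γ, -, rfl⟩ := mem_image.1 hd
  exact mem_Ico.2 ⟨Nat.zero_le _, by omega⟩

/-- The part of `v` away from `R`. -/
def freePart (R : Finset ℕ) (v₀ v : ℕ) : ℕ := v / ∏ p ∈ R, p ^ v₀.factorization p

theorem freePart_spec {R V : Finset ℕ} (hR : ∀ p ∈ R, p.Prime) (cV : ExpConst R V) {v₀ v : ℕ}
    (hv₀ : v₀ ∈ V) (hv : v ∈ V) (hv' : 0 < v) :
    (∏ p ∈ R, p ^ v₀.factorization p) * freePart R v₀ v = v ∧ 0 < freePart R v₀ v ∧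
      ∀ p, (freePart R v₀ v).factorization p = if p ∈ R then 0 else v.factorization p := by
  set e := ∏ p ∈ R, p ^ v₀.factorization p
  have he : 0 < e := prod_pos fun p hp => pow_pos (hR p hp).pos _
  have hef : ∀ p, e.factorization p = if p ∈ R then v.factorization p else 0 := by
    intro p
    rw [Nat.factorization_prod (fun q hq => (pow_pos (hR q hq).pos _).ne'), Finsupp.finsetSum_apply]
    rw [sum_congr rfl (fun q hq => by
      rw [Nat.factorization_pow, (hR q hq).factorization, Finsupp.smul_single, smul_eq_mul, mul_one,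
        Finsupp.single_apply])]
    simp only [sum_ite_eq']
    split
    · next h => exact cV p h v₀ hv₀ v hv
    · rfl
  have hdvd : e ∣ v := by
    rw [← Nat.factorization_le_iff_dvd he.ne' hv'.ne']
    intro p; rw [hef]; split
    · exact le_rfl
    · exact Nat.zero_le _
  refine ⟨Nat.mul_div_cancel' hdvd, Nat.div_pos (Nat.le_of_dvd hv' hdvd) he, fun p => ?_⟩
  rw [freePart, Nat.factorization_div hdvd, Finsupp.tsub_apply, hef]
  split <;> simp

/-- The real-number content of one pair. -/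
theorem scale_pair {X Y eV eW Nn a b c d v w pv pw fv fw μb μd S₁ S₂ D₁ D₂ Z : ℝ} (hX : 0 < X)
    (hY : 0 < Y) (heV : 0 < eV) (heW : 0 < eW) (hN : 0 < Nn) (ha : 0 < a) (hb : 0 < b) (hc : 0 < c)
    (hd : 0 < d) (hS₁ : 0 < S₁) (hS₂ : 0 < S₂) (_hD₁ : 0 < D₁) (_hD₂ : 0 < D₂) (hv : eV * (Nn * a) = v * b)
    (hw : eW * (Nn * c) = w * d) (sV1 : pv * S₁ ≤ v) (sV2 : v < 2 * S₁ * pv) (sW1 : pw * S₂ ≤ w)
    (sW2 : w < 2 * S₂ * pw) (pv0 : 0 < pv) (pw0 : 0 < pw) (hq : X * (a * d) * pw ≤ D₁)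
    (hr : Y * (c * b) * pv ≤ D₂) (fw0 : 0 ≤ fw) (hfv : fv ≤ μb * b)
    (hfw : fw ≤ μd * d) (μb0 : 0 ≤ μb) (μd0 : 0 ≤ μd) (hZ : 0 < Z)
    (hZ2 : Z ^ 2 * (X * Y * eV * eW * Nn ^ 2) = 4 * S₁ * S₂ * D₁ * D₂) :
    a * c < Z ∧ pv * fv * (pw * fw) ≤ 4 * (D₁ * D₂ / (X * Y)) / Z ^ 2 * (a * c) * (μb * μd) := by
  have i1 : X * eW * Nn * (a * c) < 2 * S₂ * D₁ := by
    calc X * eW * Nn * (a * c) = X * (a * d) * w := by linear_combination (X * a) * hw
      _ < X * (a * d) * (2 * S₂ * pw) := by gcongr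
      _ ≤ _ := by nlinarith
  have i2 : Y * eV * Nn * (a * c) < 2 * S₁ * D₂ := by
    calc Y * eV * Nn * (a * c) = Y * (c * b) * v := by linear_combination (Y * c) * hv
      _ < Y * (c * b) * (2 * S₁ * pv) := by gcongr
      _ ≤ _ := by nlinarith
  refine ⟨?_, ?_⟩
  · refine lt_of_pow_lt_pow_left₀ 2 hZ.le ?_
    refine lt_of_mul_lt_mul_right ?_ (show 0 ≤ X * Y * eV * eW * Nn ^ 2 by positivity)
    rw [hZ2]
    calc (a * c) ^ 2 * (X * Y * eV * eW * Nn ^ 2)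
        = (X * eW * Nn * (a * c)) * (Y * eV * Nn * (a * c)) := by ring
      _ < (2 * S₂ * D₁) * (2 * S₁ * D₂) := mul_lt_mul'' i1 i2 (by positivity) (by positivity)
      _ = _ := by ring
  · have eA : pv * (S₁ * b) ≤ eV * Nn * a := by nlinarith
    have eB : pw * (S₂ * d) ≤ eW * Nn * c := by nlinarith
    calc pv * fv * (pw * fw) ≤ pv * (μb * b) * (pw * (μd * d)) :=
          mul_le_mul (mul_le_mul_of_nonneg_left hfv pv0.le) (mul_le_mul_of_nonneg_left hfw pw0.le)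
            (by positivity) (by positivity)
      _ = (pv * (S₁ * b)) * (pw * (S₂ * d)) * (μb * μd) / (S₁ * S₂) := by field_simp
      _ ≤ (eV * Nn * a) * (eW * Nn * c) * (μb * μd) / (S₁ * S₂) := by gcongr
      _ = _ := by
          have hk : 4 * (D₁ * D₂ / (X * Y)) / Z ^ 2 = eV * eW * Nn ^ 2 / (S₁ * S₂) := by
            field_simp
            linear_combination -hZ2
          rw [hk]; ring

/-- Deficit and excess of one integer against the reference `Nn`. -/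
theorem scale_decomp {V R : Finset ℕ} (hR : ∀ p ∈ R, p.Prime) (cV : ExpConst R V) {v₀ v Nn : ℕ}
    (hv₀ : v₀ ∈ V) (hv : v ∈ V) (hv' : 0 < v) (hN : 0 < Nn) :
    (∏ p ∈ R, p ^ v₀.factorization p) * (Nn * red (freePart R v₀ v) Nn) =
        v * red Nn (freePart R v₀ v) ∧
      0 < red (freePart R v₀ v) Nn ∧ 0 < red Nn (freePart R v₀ v) := by
  obtain ⟨h1, h2, -⟩ := freePart_spec hR cV hv₀ hv hv'
  refine ⟨?_, red_pos h2, red_pos hN⟩
  have key : Nn * red (freePart R v₀ v) Nn = freePart R v₀ v * red Nn (freePart R v₀ v) := by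
    simp only [red]
    rw [Nat.gcd_comm Nn (freePart R v₀ v), ← Nat.mul_div_assoc _ (Nat.gcd_dvd_left _ _),
      ← Nat.mul_div_assoc _ (Nat.gcd_dvd_right _ _), mul_comm]
  rw [key, ← mul_assoc, h1]

/-- Reduced ratio of an apart pair through the reference. -/
theorem red_eq_of_apart {V W R : Finset ℕ} (hR : ∀ p ∈ R, p.Prime) (cV : ExpConst R V)
    (cW : ExpConst R W) {N : ℕ → ℕ} {Nn : ℕ} (hN : 0 < Nn)
    (hNf : ∀ p, Nn.factorization p = if p ∈ R then 0 else N p) {v₀ w₀ v w : ℕ} (hv₀ : v₀ ∈ V)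
    (hw₀ : w₀ ∈ W) (hv : v ∈ V) (hw : w ∈ W) (hv' : 0 < v) (hw' : 0 < w) (ha : Apart R N v w) :
    red v w = resolvedPart R v₀ w₀ * (red (freePart R v₀ v) Nn * red Nn (freePart R w₀ w)) := by
  obtain ⟨-, fp1, ff1⟩ := freePart_spec hR cV hv₀ hv hv'
  obtain ⟨-, fp2, ff2⟩ := freePart_spec hR cW hw₀ hw hw'
  have hX := resolvedPart_pos hR v₀ w₀
  have hA : 0 < red (freePart R v₀ v) Nn := red_pos fp1
  have hD : 0 < red Nn (freePart R w₀ w) := red_pos hN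
  refine Nat.eq_of_factorization_eq (red_pos hv').ne' (by positivity) fun p => ?_
  rw [factorization_red hv' hw', Nat.factorization_mul hX.ne' (by positivity),
    Nat.factorization_mul hA.ne' hD.ne', Finsupp.add_apply, Finsupp.add_apply,
    factorization_resolvedPart hR, factorization_red fp1 hN, factorization_red hN fp2,
    ff1, ff2, hNf]
  by_cases hp : p ∈ R
  · rw [if_pos hp, if_pos hp, if_pos hp, if_pos hp, cV p hp v₀ hv₀ v hv, cW p hp w₀ hw₀ w hw]; omega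
  · rw [if_neg hp, if_neg hp, if_neg hp, if_neg hp]
    have := ha p hp; omega

/-- The reference number of an apart pair. -/
theorem exists_reference {R : Finset ℕ} {N : ℕ → ℕ} {z₁ z₂ : ℕ} (hza : Apart R N z₁ z₂) :
    ∃ (Sup : Finset ℕ) (Nn : ℕ), (∀ p ∈ Sup, p.Prime ∧ p ∉ R ∧ N p ≠ 0) ∧
      (∀ p, p ∉ R → N p ≠ 0 → p ∈ Sup) ∧ 0 < Nn ∧
      ∀ p, Nn.factorization p = if p ∈ R then 0 else N p := by
  classical
  set Sup := ((z₁.primeFactors ∪ z₂.primeFactors) \ R).filter (fun p => N p ≠ 0) with hSup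
  have hSupP : ∀ p ∈ Sup, p.Prime := fun p hp => by
    rcases mem_union.1 (mem_sdiff.1 (filter_subset _ _ hp)).1 with h | h <;>
      exact Nat.prime_of_mem_primeFactors h
  have hSupR : ∀ p ∈ Sup, p ∉ R := fun p hp => (mem_sdiff.1 (filter_subset _ _ hp)).2
  have hSupmem : ∀ p, p ∉ R → N p ≠ 0 → p ∈ Sup := by
    intro p hp hN
    refine mem_filter.2 ⟨mem_sdiff.2 ⟨?_, hp⟩, hN⟩
    rw [mem_union, ← Nat.support_factorization, ← Nat.support_factorization,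
      Finsupp.mem_support_iff, Finsupp.mem_support_iff]
    rcases hza p hp with h | h
    · exact Or.inl (h ▸ hN)
    · exact Or.inr (h ▸ hN)
  refine ⟨Sup, ∏ p ∈ Sup, p ^ N p, fun p hp => ⟨hSupP p hp, hSupR p hp, (mem_filter.1 hp).2⟩,
    hSupmem, prod_pos fun p hp => pow_pos (hSupP p hp).pos _, fun p => ?_⟩
  rw [Nat.factorization_prod (fun q hq => (pow_pos (hSupP q hq).pos _).ne'), Finsupp.finsetSum_apply]
  rw [sum_congr rfl (fun q hq => by
    rw [Nat.factorization_pow, (hSupP q hq).factorization, Finsupp.smul_single, smul_eq_mul, mul_one,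
      Finsupp.single_apply])]
  simp only [sum_ite_eq']
  by_cases hp : p ∈ R
  · rw [if_pos hp, if_neg fun h => hSupR p h hp]
  · rw [if_neg hp]
    split
    · rfl
    · next h => by_contra hne; exact h (hSupmem p hp (Ne.symm hne))

/-- Sum over one dyadic cell of encoded pairs. -/
theorem cell_sum_le {Sup : Finset ℕ} (hSup : ∀ p ∈ Sup, p.Prime) (N : ℕ → ℕ) {Nn : ℕ} (_hNn : 0 < Nn)
    (hdiv : ∀ b ∈ Nn.divisors, b.primeFactors ⊆ Sup ∧ ∀ p ∈ Sup, b.factorization p ≤ N p)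
    (P : Finset (ℕ × ℕ)) (dat : ℕ × ℕ → (ℕ × ℕ) × (ℕ × ℕ)) (hdat : Set.InjOn dat P) (α γ : ℕ)
    (hmem : ∀ x ∈ P, (dat x).1.1 ∈ Ico (2 ^ α) (2 ^ (α + 1)) ∧ (dat x).1.2 ∈ Nn.divisors ∧
      (dat x).2.1 ∈ Ico (2 ^ γ) (2 ^ (γ + 1)) ∧ (dat x).2.2 ∈ Nn.divisors)
    (E : ℕ × ℕ → ℝ) {C : ℝ} (hC : 0 ≤ C)
    (hE : ∀ x ∈ P, E x ≤ C * (((dat x).1.1 : ℝ) * (dat x).2.1) *
      (divWeight Sup (dat x).1.2 * divWeight Sup (dat x).2.2)) :
    ∑ x ∈ P, E x ≤ 4 * C * (4 : ℝ) ^ (α + γ) * (Real.exp 1 * Real.exp 1) := by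
  classical
  set G : (ℕ × ℕ) × (ℕ × ℕ) → ℝ := fun c =>
    C * ((2 : ℝ) ^ (α + 1) * (2 : ℝ) ^ (γ + 1)) * (divWeight Sup c.1.2 * divWeight Sup c.2.2)
  have hw : ∀ b, 0 ≤ divWeight Sup b := divWeight_nonneg hSup
  have hW : ∑ b ∈ Nn.divisors, divWeight Sup b ≤ Real.exp 1 :=
    sum_divWeight_le hSup N _ fun b hb => ⟨Nat.pos_of_mem_divisors hb, hdiv b hb⟩
  calc ∑ x ∈ P, E x ≤ ∑ x ∈ P, G (dat x) := by
        refine sum_le_sum fun x hx => (hE x hx).trans (mul_le_mul_of_nonneg_right ?_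
          (mul_nonneg (hw _) (hw _)))
        obtain ⟨h1, -, h3, -⟩ := hmem x hx
        refine mul_le_mul_of_nonneg_left ?_ hC
        refine mul_le_mul ?_ ?_ (Nat.cast_nonneg _) (by positivity)
        · exact_mod_cast (mem_Ico.1 h1).2.le
        · exact_mod_cast (mem_Ico.1 h3).2.le
    _ = ∑ c ∈ P.image dat, G c := (sum_image hdat).symm
    _ ≤ ∑ c ∈ (Ico (2 ^ α) (2 ^ (α + 1)) ×ˢ Nn.divisors) ×ˢ
          (Ico (2 ^ γ) (2 ^ (γ + 1)) ×ˢ Nn.divisors), G c := by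
        refine sum_le_sum_of_subset_of_nonneg (fun c hc => ?_) fun c _ _ =>
          mul_nonneg (by positivity) (mul_nonneg (hw _) (hw _))
        obtain ⟨x, hx, rfl⟩ := mem_image.1 hc
        obtain ⟨h1, h2, h3, h4⟩ := hmem x hx
        exact mem_product.2 ⟨mem_product.2 ⟨h1, h2⟩, mem_product.2 ⟨h3, h4⟩⟩
    _ = C * ((2 : ℝ) ^ (α + 1) * (2 : ℝ) ^ (γ + 1)) * ((2 : ℝ) ^ α * (2 : ℝ) ^ γ) *
          ((∑ b ∈ Nn.divisors, divWeight Sup b) * ∑ b ∈ Nn.divisors, divWeight Sup b) := by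
        have hcard : ∀ a : ℕ, ((2 ^ (a + 1) - 2 ^ a : ℕ) : ℝ) = (2 : ℝ) ^ a := fun a => by
          rw [pow_succ, Nat.mul_two, Nat.add_sub_cancel]; push_cast; ring
        simp only [G, sum_product, ← mul_sum, ← sum_mul, sum_const, Nat.card_Ico, nsmul_eq_mul, hcard]
        ring
    _ ≤ C * ((2 : ℝ) ^ (α + 1) * (2 : ℝ) ^ (γ + 1)) * ((2 : ℝ) ^ α * (2 : ℝ) ^ γ) *
          (Real.exp 1 * Real.exp 1) := by
        have := sum_nonneg (s := Nn.divisors) fun b _ => hw b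
        gcongr
    _ = _ := by
        rw [pow_add (4 : ℝ), show (4 : ℝ) = 2 * 2 by norm_num, mul_pow, mul_pow, pow_succ, pow_succ]
        ring

/-- Interpolate a cell between its two bounds. -/
theorem le_rpow_interp {E A B θ : ℝ} (hE : 0 ≤ E) (hA : E ≤ A) (hB : E ≤ B) (hθ0 : 0 < θ)
    (hθ1 : θ < 1) : E ≤ A ^ θ * B ^ (1 - θ) := by
  rcases eq_or_lt_of_le hE with h | h
  · exact h ▸ mul_nonneg (rpow_nonneg (hE.trans hA) _) (rpow_nonneg (hE.trans hB) _)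
  calc E = E ^ θ * E ^ (1 - θ) := by rw [← rpow_add h]; norm_num
    _ ≤ _ := mul_le_mul (rpow_le_rpow hE hA hθ0.le) (rpow_le_rpow hE hB (by linarith))
        (rpow_nonneg hE _) (rpow_nonneg (hE.trans hA) _)

/-- Leaf bound for pairs whose arcs have prescribed scales. -/
theorem scale_leaf {V W R : Finset ℕ} (hR : ∀ p ∈ R, p.Prime) (hVpos : ∀ v ∈ V, 0 < v)
    (hWpos : ∀ w ∈ W, 0 < w) (cV : ExpConst R V) (cW : ExpConst R W) (N : ℕ → ℕ) (ψV ψW : ℕ → ℝ)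
    {S₁ S₂ D₁ D₂ θ : ℝ} (hS₁ : 0 < S₁) (hS₂ : 0 < S₂) (hD₁ : 0 < D₁) (hD₂ : 0 < D₂)
    (hsV : ∀ v ∈ V, ψV v * S₁ ≤ v ∧ (v : ℝ) < 2 * S₁ * ψV v)
    (hsW : ∀ w ∈ W, ψW w * S₂ ≤ w ∧ (w : ℝ) < 2 * S₂ * ψW w)
    (hθ : 1 / 2 < θ) (hθ1 : θ < 1) {v₀ w₀ : ℕ} (hv₀ : v₀ ∈ V) (hw₀ : w₀ ∈ W) :
    (∑ v ∈ V, ∑ w ∈ W, open Classical in
        if Apart R N v w ∧ (red v w : ℝ) * ψW w ≤ D₁ ∧ (red w v : ℝ) * ψV v ≤ D₂
        then ψV v * phiR v * (ψW w * phiR w) else 0) ≤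
      (16 * Real.exp 1 * Real.exp 1) ^ (1 - θ) * (1 / (1 - ((4 : ℝ)⁻¹) ^ (1 - θ))) *
        ((∑ v ∈ V, ψV v * phiR v) * ∑ w ∈ W, ψW w * phiR w) ^ θ *
        (D₁ * D₂ / ((resolvedPart R v₀ w₀ : ℝ) * resolvedPart R w₀ v₀)) ^ (1 - θ) := by
  classical
  have hψV : ∀ v ∈ V, 0 < ψV v := fun v hv => by
    have := (hsV v hv).2; nlinarith [(Nat.cast_nonneg v : (0 : ℝ) ≤ v)]
  have hψW : ∀ w ∈ W, 0 < ψW w := fun w hw => by
    have := (hsW w hw).2; nlinarith [(Nat.cast_nonneg w : (0 : ℝ) ≤ w)]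
  have hphi : ∀ v : ℕ, 0 ≤ phiR v := fun v => div_nonneg (Nat.cast_nonneg _) (Nat.cast_nonneg _)
  set mA : ℕ → ℝ := fun v => ψV v * phiR v
  set mB : ℕ → ℝ := fun w => ψW w * phiR w
  have hmA : ∀ v ∈ V, 0 ≤ mA v := fun v hv => mul_nonneg (hψV v hv).le (hphi v)
  have hmB : ∀ w ∈ W, 0 ≤ mB w := fun w hw => mul_nonneg (hψW w hw).le (hphi w)
  have hρ : ((4 : ℝ)⁻¹) ^ (1 - θ) < 1 := rpow_lt_one (by norm_num) (by norm_num) (by linarith)
  have hgeo0 : 0 ≤ 1 / (1 - ((4 : ℝ)⁻¹) ^ (1 - θ)) := div_nonneg zero_le_one (by linarith)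
  set X := resolvedPart R v₀ w₀
  set Y := resolvedPart R w₀ v₀
  have hX0 : (0 : ℝ) < X := by exact_mod_cast resolvedPart_pos hR v₀ w₀
  have hY0 : (0 : ℝ) < Y := by exact_mod_cast resolvedPart_pos hR w₀ v₀
  set P := (V ×ˢ W).filter (fun x => Apart R N x.1 x.2 ∧
    (red x.1 x.2 : ℝ) * ψW x.2 ≤ D₁ ∧ (red x.2 x.1 : ℝ) * ψV x.1 ≤ D₂) with hP
  rw [show (∑ v ∈ V, ∑ w ∈ W, if Apart R N v w ∧ (red v w : ℝ) * ψW w ≤ D₁ ∧ (red w v : ℝ) * ψV v ≤ D₂
      then ψV v * phiR v * (ψW w * phiR w) else 0) = ∑ x ∈ P, mA x.1 * mB x.2 by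
    rw [hP, sum_filter, sum_product]]
  have hPm : ∀ x ∈ P, x.1 ∈ V ∧ x.2 ∈ W ∧ Apart R N x.1 x.2 ∧
      (red x.1 x.2 : ℝ) * ψW x.2 ≤ D₁ ∧ (red x.2 x.1 : ℝ) * ψV x.1 ≤ D₂ := fun x hx =>
    ⟨(mem_product.1 (mem_filter.1 hx).1).1, (mem_product.1 (mem_filter.1 hx).1).2, (mem_filter.1 hx).2⟩
  rcases P.eq_empty_or_nonempty with hemp | ⟨z, hz⟩
  · rw [hemp, sum_empty]
    exact mul_nonneg (mul_nonneg (mul_nonneg (by positivity) hgeo0)
      (rpow_nonneg (mul_nonneg (sum_nonneg hmA) (sum_nonneg hmB)) _)) (rpow_nonneg (by positivity) _)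
  obtain ⟨Sup, Nn, hSup, hSupmem, hNn0, hNnf⟩ := exists_reference (hPm z hz).2.2.1
  set eV := ∏ p ∈ R, p ^ v₀.factorization p
  set eW := ∏ p ∈ R, p ^ w₀.factorization p
  have heV : (0 : ℝ) < eV := by exact_mod_cast prod_pos fun p hp => pow_pos (hR p hp).pos _
  have heW : (0 : ℝ) < eW := by exact_mod_cast prod_pos fun p hp => pow_pos (hR p hp).pos _
  have hNnR : (0 : ℝ) < Nn := by exact_mod_cast hNn0
  set cA : ℕ → ℕ := fun v => red (freePart R v₀ v) Nn with hcA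
  set cB : ℕ → ℕ := fun v => red Nn (freePart R v₀ v) with hcB
  set cC : ℕ → ℕ := fun w => red (freePart R w₀ w) Nn with hcC
  set cD : ℕ → ℕ := fun w => red Nn (freePart R w₀ w) with hcD
  have hdens : ∀ (U : Finset ℕ), ExpConst R U → ∀ u₀ ∈ U, ∀ v ∈ U, 0 < v →
      phiR v ≤ divWeight Sup (red Nn (freePart R u₀ v)) * red Nn (freePart R u₀ v) := by
    intro U cU u₀ hu₀ v hv hv'
    obtain ⟨-, fp, ff⟩ := freePart_spec hR cU hu₀ hv hv'
    have hb : 0 < red Nn (freePart R u₀ v) := red_pos hNn0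
    rw [divWeight, div_mul_cancel₀ _ (by exact_mod_cast hb.ne')]
    refine phiR_le_prod hv' fun p hp => ?_
    obtain ⟨h1, h2⟩ := mem_filter.1 hp
    rw [factorization_red hNn0 fp, ff, hNnf, if_neg (hSup p h1).2.1, if_neg (hSup p h1).2.1] at h2
    have := (hSup p h1).2.2
    rw [← Nat.support_factorization, Finsupp.mem_support_iff]
    omega
  set Z := √(4 * S₁ * S₂ * D₁ * D₂ / ((X : ℝ) * Y * eV * eW * Nn ^ 2)) with hZdef
  have hZ : 0 < Z := sqrt_pos.2 (by positivity)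
  have hZ2 : Z ^ 2 * ((X : ℝ) * Y * eV * eW * Nn ^ 2) = 4 * S₁ * S₂ * D₁ * D₂ := by
    rw [hZdef, sq_sqrt (by positivity)]; field_simp
  set C := 4 * (D₁ * D₂ / ((X : ℝ) * Y)) / Z ^ 2 with hC
  have hpair : ∀ x ∈ P, (cA x.1 : ℝ) * cC x.2 < Z ∧ mA x.1 * mB x.2 ≤
      C * ((cA x.1 : ℝ) * cC x.2) * (divWeight Sup (cB x.1) * divWeight Sup (cD x.2)) := by
    intro x hx
    obtain ⟨h1, h2, ha, hb1, hb2⟩ := hPm x hx
    obtain ⟨hrV, hA, hB⟩ := scale_decomp hR cV hv₀ h1 (hVpos _ h1) hNn0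
    obtain ⟨hrW, hC', hD⟩ := scale_decomp hR cW hw₀ h2 (hWpos _ h2) hNn0
    have ha' : Apart R N x.2 x.1 := fun p hp => (ha p hp).symm
    rw [red_eq_of_apart hR cV cW hNn0 hNnf hv₀ hw₀ h1 h2 (hVpos _ h1) (hWpos _ h2) ha] at hb1
    rw [red_eq_of_apart hR cW cV hNn0 hNnf hw₀ hv₀ h2 h1 (hWpos _ h2) (hVpos _ h1) ha'] at hb2
    push_cast at hb1 hb2
    refine scale_pair hX0 hY0 heV heW hNnR (Nat.cast_pos.2 hA) (Nat.cast_pos.2 hB) (Nat.cast_pos.2 hC')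
      (Nat.cast_pos.2 hD) hS₁ hS₂ hD₁ hD₂ ?_ ?_ (hsV _ h1).1 (hsV _ h1).2 (hsW _ h2).1 (hsW _ h2).2
      (hψV _ h1) (hψW _ h2) hb1 hb2 (hphi _) (hdens V cV v₀ hv₀ _ h1 (hVpos _ h1))
      (hdens W cW w₀ hw₀ _ h2 (hWpos _ h2)) (divWeight_nonneg (fun p hp => (hSup p hp).1) _)
      (divWeight_nonneg (fun p hp => (hSup p hp).1) _) hZ hZ2
    · exact_mod_cast hrV
    · exact_mod_cast hrW
  set lA : ℕ → ℕ := fun v => Nat.log 2 (cA v)
  set lC : ℕ → ℕ := fun w => Nat.log 2 (cC w)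
  set MA : ℕ → ℝ := fun α => ∑ v ∈ V.filter (fun v => lA v = α), mA v
  set MB : ℕ → ℝ := fun γ => ∑ w ∈ W.filter (fun w => lC w = γ), mB w
  set cell : ℕ → ℕ → Finset (ℕ × ℕ) := fun α γ => P.filter (fun x => lA x.1 = α ∧ lC x.2 = γ)
  set K : ℝ := 16 * Real.exp 1 * Real.exp 1 * (D₁ * D₂ / ((X : ℝ) * Y)) with hK
  set ker : ℕ → ℕ → ℝ := fun α γ =>
    if (2 : ℝ) ^ (α + γ) < Z then ((4 : ℝ) ^ (α + γ) / Z ^ 2) ^ (1 - θ) else 0
  have hcell : ∀ α γ, ∑ x ∈ cell α γ, mA x.1 * mB x.2 ≤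
      (MA α * MB γ) ^ θ * (ker α γ * K ^ (1 - θ)) := by
    intro α γ
    have hm : ∀ x ∈ cell α γ, x ∈ P ∧ lA x.1 = α ∧ lC x.2 = γ ∧ x.1 ∈ V ∧ x.2 ∈ W ∧
        0 < cA x.1 ∧ 0 < cC x.2 := fun x hx => by
      obtain ⟨h, h1, h2⟩ := mem_filter.1 hx
      obtain ⟨m1, m2, -⟩ := hPm x h
      exact ⟨h, h1, h2, m1, m2, (scale_decomp hR cV hv₀ m1 (hVpos _ m1) hNn0).2.1,
        (scale_decomp hR cW hw₀ m2 (hWpos _ m2) hNn0).2.1⟩
    by_cases hcut : (2 : ℝ) ^ (α + γ) < Z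
    · have hE0 : 0 ≤ ∑ x ∈ cell α γ, mA x.1 * mB x.2 := sum_nonneg fun x hx =>
        mul_nonneg (hmA _ (hm x hx).2.2.2.1) (hmB _ (hm x hx).2.2.2.2.1)
      have hE1 : ∑ x ∈ cell α γ, mA x.1 * mB x.2 ≤ MA α * MB γ := by
        rw [sum_mul_sum, ← sum_product']
        refine sum_le_sum_of_subset_of_nonneg (fun x hx => ?_) fun x hx _ => ?_
        · obtain ⟨-, h1, h2, h3, h4, -⟩ := hm x hx
          exact mem_product.2 ⟨mem_filter.2 ⟨h3, h1⟩, mem_filter.2 ⟨h4, h2⟩⟩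
        · obtain ⟨h1, h2⟩ := mem_product.1 hx
          exact mul_nonneg (hmA _ (filter_subset _ _ h1)) (hmB _ (filter_subset _ _ h2))
      have hE2 : ∑ x ∈ cell α γ, mA x.1 * mB x.2 ≤ ((4 : ℝ) ^ (α + γ) / Z ^ 2) * K := by
        refine (cell_sum_le (fun p hp => (hSup p hp).1) N hNn0 (fun b hb => ⟨fun p hp => ?_, fun p hp => ?_⟩)
          (cell α γ) (fun x => ((cA x.1, cB x.1), (cC x.2, cD x.2))) (fun x hx y hy hxy => ?_) α γ
          (fun x hx => ?_) _ (by positivity : (0 : ℝ) ≤ C) (fun x hx => (hpair x (hm x hx).1).2)).trans_eq ?_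
        · have := Nat.primeFactors_mono (Nat.mem_divisors.1 hb).1 hNn0.ne' hp
          rw [← Nat.support_factorization, Finsupp.mem_support_iff, hNnf] at this
          split at this
          · exact absurd rfl this
          · next h => exact hSupmem p h this
        · have := (Nat.factorization_le_iff_dvd (Nat.pos_of_mem_divisors hb).ne' hNn0.ne').2
            (Nat.mem_divisors.1 hb).1 p
          rwa [hNnf, if_neg (hSup p hp).2.1] at this
        · obtain ⟨-, -, -, hx1, hx2, -⟩ := hm x hx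
          obtain ⟨-, -, -, hy1, hy2, -⟩ := hm y hy
          simp only [Prod.mk.injEq, hcA, hcB, hcC, hcD] at hxy
          obtain ⟨⟨e1, e2⟩, e3, e4⟩ := hxy
          obtain ⟨a1, -, -⟩ := scale_decomp hR cV hv₀ hx1 (hVpos _ hx1) hNn0
          obtain ⟨b1, -, p1⟩ := scale_decomp hR cV hv₀ hy1 (hVpos _ hy1) hNn0
          obtain ⟨a2, -, -⟩ := scale_decomp hR cW hw₀ hx2 (hWpos _ hx2) hNn0
          obtain ⟨b2, -, p2⟩ := scale_decomp hR cW hw₀ hy2 (hWpos _ hy2) hNn0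
          rw [e1, e2, b1] at a1
          rw [e3, e4, b2] at a2
          exact Prod.ext (Nat.eq_of_mul_eq_mul_right p1 a1).symm (Nat.eq_of_mul_eq_mul_right p2 a2).symm
        · obtain ⟨-, h1, h2, -, -, hA, hC'⟩ := hm x hx
          simp only [mem_Ico, Nat.mem_divisors, lA, lC] at h1 h2 ⊢
          subst h1 h2
          exact ⟨⟨Nat.pow_log_le_self 2 hA.ne', Nat.lt_pow_succ_log_self (by norm_num) _⟩,
            ⟨Nat.div_dvd_of_dvd (Nat.gcd_dvd_left _ _), hNn0.ne'⟩,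
            ⟨Nat.pow_log_le_self 2 hC'.ne', Nat.lt_pow_succ_log_self (by norm_num) _⟩,
            ⟨Nat.div_dvd_of_dvd (Nat.gcd_dvd_left _ _), hNn0.ne'⟩⟩
        · rw [hK, hC]; ring
      have hker : ker α γ = ((4 : ℝ) ^ (α + γ) / Z ^ 2) ^ (1 - θ) := if_pos hcut
      rw [hker, ← mul_rpow (by positivity) (by positivity)]
      exact le_rpow_interp hE0 hE1 hE2 (by linarith) hθ1
    · have hempty : cell α γ = ∅ := by
        refine eq_empty_of_forall_notMem fun x hx => hcut ?_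
        obtain ⟨hxP, h1, h2, -, -, hA, hC'⟩ := hm x hx
        refine lt_of_le_of_lt ?_ (hpair x hxP).1
        rw [pow_add]
        refine mul_le_mul ?_ ?_ (by positivity) (Nat.cast_nonneg _)
        · rw [← h1]; exact_mod_cast Nat.pow_log_le_self 2 hA.ne'
        · rw [← h2]; exact_mod_cast Nat.pow_log_le_self 2 hC'.ne'
      simp [hempty, ker, hcut]
  set I := V.image lA
  set J := W.image lC
  calc ∑ x ∈ P, mA x.1 * mB x.2
      = ∑ α ∈ I, ∑ γ ∈ J, ∑ x ∈ cell α γ, mA x.1 * mB x.2 := by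
        rw [← sum_product (s := I) (t := J) (f := fun c => ∑ x ∈ cell c.1 c.2, mA x.1 * mB x.2)]
        rw [← sum_fiberwise_of_maps_to (g := fun x : ℕ × ℕ => (lA x.1, lC x.2)) (t := I ×ˢ J)]
        · refine sum_congr rfl fun c _ => sum_congr (filter_congr fun x _ => ?_) fun _ _ => rfl
          simp [Prod.ext_iff]
        · intro x hx
          exact mem_product.2 ⟨mem_image_of_mem _ (hPm x hx).1, mem_image_of_mem _ (hPm x hx).2.1⟩
    _ ≤ ∑ α ∈ I, ∑ γ ∈ J, (MA α * MB γ) ^ θ * (ker α γ * K ^ (1 - θ)) :=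
        sum_le_sum fun α _ => sum_le_sum fun γ _ => hcell α γ
    _ = K ^ (1 - θ) * ∑ α ∈ I, ∑ γ ∈ J, (MA α * MB γ) ^ θ * ker α γ := by
        simp_rw [mul_sum]
        exact sum_congr rfl fun α _ => sum_congr rfl fun γ _ => by ring
    _ ≤ K ^ (1 - θ) * (1 / (1 - ((4 : ℝ)⁻¹) ^ (1 - θ)) *
          ((∑ v ∈ V, mA v) * ∑ w ∈ W, mB w) ^ θ) := by
        refine mul_le_mul_of_nonneg_left ?_ (by positivity)
        refine sum_kernel_le I J MA MB ker hθ.le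
          (fun α _ => sum_nonneg fun v hv => hmA v (filter_subset _ _ hv))
          (fun γ _ => sum_nonneg fun w hw => hmB w (filter_subset _ _ hw))
          (sum_fiberwise_of_maps_to (fun v hv => mem_image_of_mem _ hv) _).le
          (sum_fiberwise_of_maps_to (fun v hv => mem_image_of_mem _ hv) _).le
          (fun α _ γ _ => ?_) hgeo0 (fun α _ => sum_scale_le hZ hθ1 J α) (fun γ _ => ?_)
        · simp only [ker]; split
          · exact rpow_nonneg (by positivity) _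
          · exact le_rfl
        · refine (sum_congr rfl fun α _ => ?_).trans_le (sum_scale_le hZ hθ1 I γ)
          simp only [ker, add_comm α γ]
    _ = _ := by
        rw [hK, mul_rpow (by positivity) (by positivity)]
        ring

end Vale.Agent.P028
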