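import Mathlib

/-! Counting integers in a window that avoid given classes modulo distinct primes. -/

namespace Vale.Agent.P028

open Finset

/-- The integers of `[s, s+n)` that are `e` modulo `m` and avoid every class `c ∈ cls p`, `p ∈ P`. -/
noncomputable def avoidSet (P : Finset ℕ) (cls : ℕ → Finset ℕ) (m : ℕ) (e s : ℤ) (n : ℕ) : Finset ℤ :=
  (Finset.Ico s (s + n)).filter
    (fun a => (m : ℤ) ∣ a - e ∧ ∀ p ∈ P, ∀ c ∈ cls p, ¬ (p : ℤ) ∣ a - c)

theorem card_modEq_le (m : ℕ) (hm : 0 < m) (e s : ℤ) (n : ℕ) :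
    |(((Finset.Ico s (s + n)).filter (fun a => (m : ℤ) ∣ a - e)).card : ℝ) - n / m| ≤ 1 ∧
      (m ∣ n → (((Finset.Ico s (s + n)).filter (fun a => (m : ℤ) ∣ a - e)).card : ℝ) = n / m) := by
  have hfil : (Finset.Ico s (s + n)).filter (fun a => (m : ℤ) ∣ a - e) =
      (Finset.Ico s (s + n)).filter (fun a => a ≡ e [ZMOD (m : ℤ)]) := by
    refine Finset.filter_congr fun a _ => ?_
    rw [Int.modEq_comm, Int.modEq_iff_dvd]
  have h := Int.Ico_filter_modEq_card (a := s) (b := s + n) (r := (m : ℤ)) (by exact_mod_cast hm) e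
  rw [← hfil] at h
  set k := ((Finset.Ico s (s + n)).filter (fun a => (m : ℤ) ∣ a - e)).card
  set x : ℚ := ((s : ℚ) - e) / m with hx
  have h1 : (((s + n : ℤ) : ℚ) - e) / ((m : ℤ) : ℚ) = x + (n : ℚ) / m := by
    rw [hx]; push_cast; ring
  have h2 : ((s : ℚ) - e) / ((m : ℤ) : ℚ) = x := by rw [hx]; push_cast; ring
  rw [h1, h2] at h
  have hnm : (0 : ℚ) ≤ (n : ℚ) / m := by positivity
  have hmono : ⌈x⌉ ≤ ⌈x + (n : ℚ) / m⌉ := Int.ceil_mono (by linarith)
  rw [max_eq_left (by linarith)] at h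
  refine ⟨?_, fun hdvd => ?_⟩
  · have hq : |(k : ℚ) - n / m| ≤ 1 := by
      have hk : (k : ℚ) = (⌈x + (n : ℚ) / m⌉ : ℚ) - ⌈x⌉ := by exact_mod_cast h
      rw [hk, abs_le]
      have := Int.le_ceil x
      have := Int.ceil_lt_add_one x
      have := Int.le_ceil (x + (n : ℚ) / m)
      have := Int.ceil_lt_add_one (x + (n : ℚ) / m)
      constructor <;> linarith
    calc |(k : ℝ) - n / m| = ((|(k : ℚ) - n / m| : ℚ) : ℝ) := by push_cast; rfl
      _ ≤ ((1 : ℚ) : ℝ) := Rat.cast_le.mpr hq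
      _ = 1 := Rat.cast_one
  · obtain ⟨j, rfl⟩ := hdvd
    have hj : (((m * j : ℕ) : ℚ)) / m = ((j : ℤ) : ℚ) := by push_cast; field_simp
    rw [hj, Int.ceil_add_intCast] at h
    have : k = j := by omega
    rw [this]; push_cast; field_simp

/-- Inclusion–exclusion one prime at a time. -/
theorem card_avoid (cls : ℕ → Finset ℕ) (n : ℕ) (s : ℤ) {δ : ℝ} (hδ : 0 ≤ δ) :
    ∀ (P : Finset ℕ), (∀ p ∈ P, p.Prime) → (∀ p ∈ P, ∀ c ∈ cls p, c < p) →
    ∀ (m : ℕ), 0 < m → (∀ p ∈ P, m.Coprime p) → (δ < 1 → (m * ∏ p ∈ P, p) ∣ n) →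
    ∀ e : ℤ,
      |((avoidSet P cls m e s n).card : ℝ) - n / m * ∏ p ∈ P, (1 - ((cls p).card : ℝ) / p)|
        ≤ (∏ p ∈ P, (1 + ((cls p).card : ℝ))) * δ := by
  intro P
  induction P using Finset.induction_on with
  | empty =>
    intro _ _ m hm _ hd e
    have h : avoidSet ∅ cls m e s n = (Finset.Ico s (s + n)).filter (fun a => (m : ℤ) ∣ a - e) := by
      simp [avoidSet]
    rw [h, Finset.prod_empty, Finset.prod_empty, mul_one, one_mul]
    rcases lt_or_ge δ 1 with h1 | h1
    · rw [(card_modEq_le m hm e s n).2 (by simpa using hd h1), sub_self, abs_zero]; exact hδ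
    · exact ((card_modEq_le m hm e s n).1).trans h1
  | insert p P hpP ih =>
    intro hP hcls m hm hco hd e
    have hp : p.Prime := hP p (Finset.mem_insert_self _ _)
    have hP' : ∀ q ∈ P, q.Prime := fun q hq => hP q (Finset.mem_insert_of_mem hq)
    have hcls' : ∀ q ∈ P, ∀ c ∈ cls q, c < q := fun q hq => hcls q (Finset.mem_insert_of_mem hq)
    have hmp : m.Coprime p := hco p (Finset.mem_insert_self _ _)
    -- the merged residue
    have hc : ∀ c : ℕ, ∃ e' : ℤ, ∀ a : ℤ,
        ((m * p : ℕ) : ℤ) ∣ a - e' ↔ (m : ℤ) ∣ a - e ∧ (p : ℤ) ∣ a - c := by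
      intro c
      obtain ⟨u, v, huv⟩ := Int.isCoprime_iff_nat_coprime.mpr
        (show (m : ℤ).natAbs.Coprime (p : ℤ).natAbs by simpa using hmp)
      refine ⟨e * (v * p) + c * (u * m), fun a => ?_⟩
      have e1 : a - (e * (v * p) + c * (u * m)) = (a - e) + (m : ℤ) * (u * (e - c)) := by
        linear_combination e * (-huv)
      have e2 : a - (e * (v * p) + c * (u * m)) = (a - c) + (p : ℤ) * (v * (c - e)) := by
        linear_combination (c : ℤ) * (-huv)
      constructor
      · intro h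
        push_cast at h
        refine ⟨?_, ?_⟩
        · have := (dvd_mul_right (m : ℤ) p).trans h
          rwa [e1, dvd_add_left (dvd_mul_right _ _)] at this
        · have := (dvd_mul_left (p : ℤ) m).trans h
          rwa [e2, dvd_add_left (dvd_mul_right _ _)] at this
      · rintro ⟨h1, h2⟩
        push_cast
        refine IsCoprime.mul_dvd ⟨u, v, huv⟩ ?_ ?_
        · rw [e1]; exact dvd_add h1 (dvd_mul_right _ _)
        · rw [e2]; exact dvd_add h2 (dvd_mul_right _ _)
    choose e' he' using hc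
    -- splitting
    set S := avoidSet P cls m e s n with hS
    have hnew : avoidSet (insert p P) cls m e s n =
        S \ (cls p).biUnion (fun c => avoidSet P cls (m * p) (e' c) s n) := by
      ext a
      simp only [hS, avoidSet, Finset.mem_sdiff, Finset.mem_filter, Finset.mem_biUnion,
        Finset.mem_insert, forall_eq_or_imp, he', not_exists, not_and]
      constructor
      · rintro ⟨h1, h2, h3, h4⟩
        exact ⟨⟨h1, h2, h4⟩, fun c hc _ h => absurd h.2 (h3 c hc)⟩
      · rintro ⟨⟨h1, h2, h4⟩, h5⟩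
        exact ⟨h1, h2, fun c hc h => h5 c hc h1 ⟨h2, h⟩ h4, h4⟩
    have hsub : (cls p).biUnion (fun c => avoidSet P cls (m * p) (e' c) s n) ⊆ S := by
      intro a ha
      simp only [hS, avoidSet, Finset.mem_biUnion, Finset.mem_filter, he'] at ha ⊢
      obtain ⟨c, _, h1, ⟨h2, _⟩, h4⟩ := ha
      exact ⟨h1, h2, h4⟩
    have hdisj : ((cls p : Finset ℕ) : Set ℕ).PairwiseDisjoint
        (fun c => avoidSet P cls (m * p) (e' c) s n) := by
      intro c hc c' hc' hne
      refine Finset.disjoint_left.mpr fun a ha ha' => hne ?_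
      simp only [avoidSet, Finset.mem_filter, he'] at ha ha'
      have hd2 : (p : ℤ) ∣ (c' : ℤ) - c := by
        have := dvd_sub ha.2.1.2 ha'.2.1.2
        simpa using this
      have h1 := hcls p (Finset.mem_insert_self _ _) c hc
      have h2 := hcls p (Finset.mem_insert_self _ _) c' hc'
      have h3 := Int.eq_zero_of_abs_lt_dvd hd2 (by rw [abs_lt]; omega)
      omega
    have hcard : ((avoidSet (insert p P) cls m e s n).card : ℝ) = (S.card : ℝ) -
        ∑ c ∈ cls p, ((avoidSet P cls (m * p) (e' c) s n).card : ℝ) := by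
      rw [hnew, Finset.cast_card_sdiff hsub, Finset.card_biUnion hdisj]
      push_cast; rfl
    have hprod : (p : ℕ) * ∏ q ∈ P, q = ∏ q ∈ insert p P, q := (Finset.prod_insert (f := fun q : ℕ => q) hpP).symm
    have h0 := ih hP' hcls' m hm (fun q hq => hco q (Finset.mem_insert_of_mem hq))
      (fun h => dvd_trans (mul_dvd_mul_left m ⟨p, by rw [← hprod]; ring⟩) (hd h)) e
    have h1 : ∀ c ∈ cls p, |((avoidSet P cls (m * p) (e' c) s n).card : ℝ) -
        n / ((m * p : ℕ) : ℝ) * ∏ q ∈ P, (1 - ((cls q).card : ℝ) / q)|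
          ≤ (∏ q ∈ P, (1 + ((cls q).card : ℝ))) * δ := fun c _ =>
      ih hP' hcls' (m * p) (Nat.mul_pos hm hp.pos)
        (fun q hq => Nat.Coprime.mul_left (hco q (Finset.mem_insert_of_mem hq))
          ((Nat.coprime_primes hp (hP' q hq)).mpr fun h => hpP (h ▸ hq)))
        (fun h => by rw [mul_assoc, hprod]; exact hd h) (e' c)
    rw [Finset.prod_insert hpP, Finset.prod_insert hpP, hcard]
    set Pi := ∏ q ∈ P, (1 - ((cls q).card : ℝ) / q)
    set Er := ∏ q ∈ P, (1 + ((cls q).card : ℝ))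
    have hm0 : (m : ℝ) ≠ 0 := by exact_mod_cast hm.ne'
    have hp0 : (p : ℝ) ≠ 0 := by exact_mod_cast hp.ne_zero
    have hdec : (S.card : ℝ) - ∑ c ∈ cls p, ((avoidSet P cls (m * p) (e' c) s n).card : ℝ) -
        n / m * ((1 - ((cls p).card : ℝ) / p) * Pi) =
        ((S.card : ℝ) - n / m * Pi) - ∑ c ∈ cls p,
          (((avoidSet P cls (m * p) (e' c) s n).card : ℝ) - n / ((m * p : ℕ) : ℝ) * Pi) := by
      rw [Finset.sum_sub_distrib, Finset.sum_const, nsmul_eq_mul]
      push_cast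
      field_simp
      ring
    rw [hdec]
    refine (abs_sub _ _).trans ?_
    refine (add_le_add h0 ((Finset.abs_sum_le_sum_abs _ _).trans (Finset.sum_le_sum h1))).trans ?_
    rw [Finset.sum_const, nsmul_eq_mul]
    exact le_of_eq (by ring)

end Vale.Agent.P028
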