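import Vale.Agent.P028.Defs
import Vale.Agent.P028.Count

/-! One family of arcs: periodicity, total weighted measure and share of an interval. -/

namespace Vale.Agent.P028

open MeasureTheory Finset
open scoped Classical

variable {γ : ℝ} {A : ℕ → ℤ} {B : ℕ → ℕ}

theorem prime_one_sub_nonneg {p : ℕ} (hp : p.Prime) : (0 : ℝ) ≤ 1 - (p : ℝ)⁻¹ := by
  have : (1 : ℝ) ≤ p := by exact_mod_cast hp.one_le
  rw [sub_nonneg]; exact inv_le_one_of_one_le₀ this

theorem phiR_eq_prod {q : ℕ} (hq : 0 < q) :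
    phiR q = ∏ p ∈ q.primeFactors, (1 - (p : ℝ)⁻¹) := by
  have h := Nat.totient_eq_mul_prod_factors q
  have h' : ((Nat.totient q : ℚ) : ℝ) = ((q * ∏ p ∈ q.primeFactors, (1 - (p : ℚ)⁻¹) : ℚ) : ℝ) := by
    rw [h]
  push_cast at h'
  rw [phiR, h', mul_div_assoc, mul_comm, div_mul_cancel₀]
  exact_mod_cast hq.ne'

/-- The share of admissible numerators. -/
noncomputable def dens (γ : ℝ) (A : ℕ → ℤ) (B : ℕ → ℕ) (l q : ℕ) : ℝ :=
  ∏ p ∈ q.primeFactors.filter (fun p => Det γ A B l p), (1 - (p : ℝ)⁻¹)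

theorem cwt_mul_dens {l q : ℕ} (hq : 0 < q) : cwt γ A B l q * dens γ A B l q = phiR q := by
  rw [phiR_eq_prod hq, cwt, dens, mul_comm]
  exact Finset.prod_filter_mul_prod_filter_not _ _ _

theorem cwt_nonneg (l q : ℕ) : 0 ≤ cwt γ A B l q := Finset.prod_nonneg fun p hp =>
  prime_one_sub_nonneg (Nat.prime_of_mem_primeFactors (Finset.mem_filter.mp hp).1)

theorem cwt_le_one (l q : ℕ) : cwt γ A B l q ≤ 1 :=
  Finset.prod_le_one (fun p hp =>
    prime_one_sub_nonneg (Nat.prime_of_mem_primeFactors (Finset.mem_filter.mp hp).1))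
    fun p _ => by simp

/-- A forbidden class is a single residue. -/
theorem exists_class (A : ℤ) {B p : ℕ} (hp : p.Prime) (hB : ¬ p ∣ B) :
    ∃ c : ℕ, c < p ∧ ∀ a : ℤ, (p : ℤ) ∣ (B : ℤ) * a + A ↔ (p : ℤ) ∣ a - c := by
  obtain ⟨u, v, huv⟩ := Int.isCoprime_iff_nat_coprime.mpr
    (show (B : ℤ).natAbs.Coprime (p : ℤ).natAbs by
      simpa using (hp.coprime_iff_not_dvd.mpr hB).symm)
  have hp0 : (p : ℤ) ≠ 0 := by exact_mod_cast hp.ne_zero
  have hpos : (0 : ℤ) < p := by exact_mod_cast hp.pos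
  refine ⟨((-(u * A)) % (p : ℤ)).toNat, ?_, fun a => ?_⟩
  · have h2 := Int.emod_lt_of_pos (-(u * A)) hpos
    have h3 := Int.emod_nonneg (-(u * A)) hp0
    omega
  · rw [Int.toNat_of_nonneg (Int.emod_nonneg _ hp0)]
    have hd : (p : ℤ) ∣ (-(u * A)) - (-(u * A)) % (p : ℤ) := Int.dvd_self_sub_emod
    have e : a - (-(u * A)) % (p : ℤ) = (a + u * A) + ((-(u * A)) - (-(u * A)) % (p : ℤ)) := by ring
    rw [e, dvd_add_left hd]
    constructor
    · intro h
      have : a + u * A = u * ((B : ℤ) * a + A) + p * (v * a) := by linear_combination a * (-huv)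
      rw [this]; exact dvd_add (h.mul_left u) (dvd_mul_right _ _)
    · intro h
      have : (B : ℤ) * a + A = B * (a + u * A) + p * (v * A) := by linear_combination A * (-huv)
      rw [this]; exact dvd_add (h.mul_left _) (dvd_mul_right _ _)

theorem good_add (l q : ℕ) (a : ℤ) (k : ℤ) :
    Good γ A B l q (a + q * k) ↔ Good γ A B l q a := by
  have h : ∀ p ∈ q.primeFactors, ∀ a k : ℤ,
      ((p : ℤ) ∣ (B l : ℤ) * (a + q * k) + A l ↔ (p : ℤ) ∣ (B l : ℤ) * a + A l) := by
    intro p hp a k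
    rw [show (B l : ℤ) * (a + q * k) + A l = ((B l : ℤ) * a + A l) + (q : ℤ) * ((B l : ℤ) * k) by ring,
      dvd_add_left (Dvd.dvd.mul_right (Int.natCast_dvd_natCast.mpr (Nat.dvd_of_mem_primeFactors hp)) _)]
  simp only [Good]
  constructor
  · intro hg p hp hd; rw [← h p hp a k]; exact hg p hp hd
  · intro hg p hp hd; rw [h p hp a k]; exact hg p hp hd

theorem goodSet_card {l q : ℕ} (s : ℤ) (n : ℕ) {δ : ℝ} (hδ : 0 ≤ δ)
    (hd : δ < 1 → q ∣ n) :
    |(((Finset.Ico s (s + n)).filter (Good γ A B l q)).card : ℝ) - n * dens γ A B l q|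
      ≤ (2 : ℝ) ^ q.primeFactors.card * δ := by
  set P := q.primeFactors.filter (fun p => Det γ A B l p) with hP
  have hc : ∀ p ∈ P, ∃ c : ℕ, c < p ∧ ∀ a : ℤ, (p : ℤ) ∣ (B l : ℤ) * a + A l ↔ (p : ℤ) ∣ a - c :=
    fun p hp => exists_class (A l) (Nat.prime_of_mem_primeFactors (Finset.mem_filter.mp hp).1)
      (Finset.mem_filter.mp hp).2.1
  choose! c hc1 hc2 using hc
  have hprime : ∀ p ∈ P, p.Prime := fun p hp =>
    Nat.prime_of_mem_primeFactors (Finset.mem_filter.mp hp).1
  have heq : (Finset.Ico s (s + n)).filter (Good γ A B l q) =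
      avoidSet P (fun p => {c p}) 1 0 s n := by
    refine Finset.filter_congr fun a _ => ?_
    simp only [Nat.cast_one, isUnit_one, IsUnit.dvd, true_and, Finset.mem_singleton, forall_eq, Good]
    constructor
    · intro hg p hp h
      exact hg p (Finset.mem_filter.mp hp).1 (Finset.mem_filter.mp hp).2 ((hc2 p hp a).mpr h)
    · intro hg p hp hD h
      have hm : p ∈ P := Finset.mem_filter.mpr ⟨hp, hD⟩
      exact hg p hm ((hc2 p hm a).mp h)
  have h := card_avoid (fun p => {c p}) n s hδ P hprime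
    (fun p hp x hx => by rw [Finset.mem_singleton.mp hx]; exact hc1 p hp)
    1 one_pos (fun p _ => Nat.coprime_one_left p)
    (fun h => by
      rw [one_mul]
      exact ((Finset.prod_dvd_prod_of_subset _ _ (fun p => p) (Finset.filter_subset _ _)).trans
        (Nat.prod_primeFactors_dvd q)).trans (hd h)) 0
  rw [← heq] at h
  simp only [Finset.card_singleton, Nat.cast_one, div_one, one_div] at h
  rw [show dens γ A B l q = ∏ p ∈ P, (1 - (p : ℝ)⁻¹) from rfl]
  refine h.trans (mul_le_mul_of_nonneg_right ?_ hδ)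
  rw [Finset.prod_const, show (1 : ℝ) + 1 = 2 by norm_num]
  exact pow_le_pow_right₀ one_le_two (Finset.card_filter_le _ _)

theorem arcs_eq_iUnion {l q : ℕ} (hq : 0 < q) :
    arcs γ A B l q = ⋃ (a : ℤ) (_ : Good γ A B l q a),
      Set.Ioo (((a : ℝ) + γ - rad l) / q) (((a : ℝ) + γ + rad l) / q) := by
  have hq' : (0 : ℝ) < q := by exact_mod_cast hq
  ext x
  simp only [arcs, Set.mem_ofPred_eq, Set.mem_iUnion, Set.mem_Ioo, exists_prop,
    div_lt_iff₀ hq', lt_div_iff₀ hq', abs_lt]
  refine exists_congr fun a => and_congr_right fun _ => ?_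
  constructor <;> intro h <;> constructor <;> linarith [h.1, h.2]

theorem measurableSet_arcs {l q : ℕ} (hq : 0 < q) : MeasurableSet (arcs γ A B l q) := by
  rw [arcs_eq_iUnion hq]
  exact MeasurableSet.iUnion fun a => MeasurableSet.iUnion fun _ => measurableSet_Ioo

theorem arcs_periodic (l q : ℕ) (x : ℝ) :
    x + 1 ∈ arcs γ A B l q ↔ x ∈ arcs γ A B l q := by
  simp only [arcs, Set.mem_ofPred_eq]
  constructor
  · rintro ⟨a, ha, h⟩
    refine ⟨a + q * (-1), (good_add l q a (-1)).mpr ha, ?_⟩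
    rw [show (q : ℝ) * x - ((a + q * (-1) : ℤ) : ℝ) - γ = (q : ℝ) * (x + 1) - a - γ by
      push_cast; ring]
    exact h
  · rintro ⟨a, ha, h⟩
    refine ⟨a + q * 1, (good_add l q a 1).mpr ha, ?_⟩
    rw [show (q : ℝ) * (x + 1) - ((a + q * 1 : ℤ) : ℝ) - γ = (q : ℝ) * x - a - γ by
      push_cast; ring]
    exact h

/-- A periodic set has the same measure on every period. -/
theorem periodic_measure {E : Set ℝ} (hE : MeasurableSet E) (hper : ∀ x, x + 1 ∈ E ↔ x ∈ E)
    (c : ℝ) : volume.real (E ∩ Set.Ioc c (c + 1)) = volume.real (E ∩ Set.Ioc 0 1) := by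
  have hf : Function.Periodic (E.indicator fun _ => (1 : ℝ)) 1 := fun x => by
    by_cases hx : x ∈ E
    · rw [Set.indicator_of_mem hx, Set.indicator_of_mem ((hper x).mpr hx)]
    · rw [Set.indicator_of_notMem hx, Set.indicator_of_notMem (fun h => hx ((hper x).mp h))]
  have h := hf.intervalIntegral_add_eq c 0
  rw [zero_add, intervalIntegral.integral_of_le (by linarith),
    intervalIntegral.integral_of_le (by linarith), setIntegral_indicator hE,
    setIntegral_indicator hE, setIntegral_const, setIntegral_const, smul_eq_mul, smul_eq_mul,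
    mul_one, mul_one, Set.inter_comm, Set.inter_comm (Set.Ioc (0 : ℝ) 1)] at h
  exact h

theorem rad_pos (l : ℕ) : 0 < rad l := by unfold rad; positivity

theorem rad_le (l : ℕ) (hl : 1 ≤ l) : rad l ≤ 1 / 4 := by
  unfold rad
  rw [one_div]
  exact inv_anti₀ (by norm_num) (le_self_pow₀ (by norm_num) (by omega))

theorem dens_le_one (l q : ℕ) : dens γ A B l q ≤ 1 :=
  Finset.prod_le_one (fun p hp =>
    prime_one_sub_nonneg (Nat.prime_of_mem_primeFactors (Finset.mem_filter.mp hp).1))
    fun p _ => by simp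

theorem dens_nonneg (l q : ℕ) : 0 ≤ dens γ A B l q := Finset.prod_nonneg fun p hp =>
  prime_one_sub_nonneg (Nat.prime_of_mem_primeFactors (Finset.mem_filter.mp hp).1)

theorem single : SingleStmt := by
  intro γ A B _ l q hl hq
  refine ⟨measurableSet_arcs hq, arcs_periodic l q, ?_, ?_⟩
  all_goals
    have hq' : (0 : ℝ) < q := by exact_mod_cast hq
    have hr := rad_pos l
    have hr4 := rad_le l hl
  · -- the total measure
    set c : ℝ := (γ - rad l) / q with hc
    rw [← periodic_measure (measurableSet_arcs hq) (arcs_periodic l q) c]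
    set G := (Finset.Ico (0 : ℤ) (0 + (q : ℕ))).filter (Good γ A B l q) with hG
    have hsub : arcs γ A B l q ∩ Set.Ioc c (c + 1) ⊆
        ⋃ a ∈ G, Set.Ioo (((a : ℝ) + γ - rad l) / q) (((a : ℝ) + γ + rad l) / q) := by
      rw [arcs_eq_iUnion hq]
      rintro x ⟨hx, hxc1, hxc2⟩
      simp only [Set.mem_iUnion, Set.mem_Ioo, exists_prop] at hx
      obtain ⟨a, ha, h1, h2⟩ := hx
      refine Set.mem_biUnion (Finset.mem_filter.mpr ⟨Finset.mem_Ico.mpr ⟨?_, ?_⟩, ha⟩) ⟨h1, h2⟩
      · rw [lt_div_iff₀ hq'] at h2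
        rw [hc, div_lt_iff₀ hq'] at hxc1
        have : (-1 : ℝ) < (a : ℝ) := by linarith
        have : (-1 : ℤ) < a := by exact_mod_cast this
        omega
      · rw [div_lt_iff₀ hq'] at h1
        have h5 : x * q ≤ γ - rad l + q := by
          have := mul_le_mul_of_nonneg_right hxc2 hq'.le
          rwa [hc, add_mul, one_mul, div_mul_cancel₀ _ hq'.ne'] at this
        have : (a : ℝ) < ((q : ℕ) : ℤ) := by push_cast; linarith
        have : a < ((q : ℕ) : ℤ) := by exact_mod_cast this
        omega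
    have hG' := goodSet_card (γ := γ) (A := A) (B := B) (l := l) (q := q) 0 q le_rfl
      (fun _ => dvd_rfl)
    rw [mul_zero, abs_nonpos_iff, sub_eq_zero] at hG'
    have hv : volume.real (arcs γ A B l q ∩ Set.Ioc c (c + 1)) ≤ (G.card : ℝ) * (2 * rad l / q) := by
      refine (measureReal_mono hsub ((measure_biUnion_lt_top G.finite_toSet
        fun a _ => measure_Ioo_lt_top).ne)).trans ?_
      refine (measureReal_biUnion_finset_le G _).trans (le_of_eq ?_)
      rw [Finset.sum_congr rfl fun (a : ℤ) (_ : a ∈ G) => show volume.real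
        (Set.Ioo (((a : ℝ) + γ - rad l) / q) (((a : ℝ) + γ + rad l) / q)) = 2 * rad l / q by
          rw [Real.volume_real_Ioo_of_le (div_le_div_of_nonneg_right (by linarith) hq'.le)]; ring]
      rw [Finset.sum_const, nsmul_eq_mul]
    calc cwt γ A B l q * volume.real (arcs γ A B l q ∩ Set.Ioc c (c + 1))
        ≤ cwt γ A B l q * ((q : ℝ) * dens γ A B l q * (2 * rad l / q)) :=
          mul_le_mul_of_nonneg_left (hG' ▸ hv) (cwt_nonneg l q)
      _ = 2 * mass l q := by
          rw [mass, ← cwt_mul_dens (γ := γ) (A := A) (B := B) (l := l) hq]; field_simp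
  · -- a share of an interval
    intro u v hu huv hv
    set s : ℤ := ⌈(q : ℝ) * u - γ + rad l⌉ with hs
    set n : ℕ := (⌊(q : ℝ) * v - γ - rad l⌋ + 1 - s).toNat with hn
    set G := (Finset.Ico s (s + n)).filter (Good γ A B l q) with hG
    have hsub : (⋃ a ∈ G, Set.Ioo (((a : ℝ) + γ - rad l) / q) (((a : ℝ) + γ + rad l) / q)) ⊆
        arcs γ A B l q ∩ Set.Ioc u v := by
      refine Set.iUnion₂_subset fun a ha x hx => ?_
      obtain ⟨ha1, hag⟩ := Finset.mem_filter.mp ha
      obtain ⟨has, han⟩ := Finset.mem_Ico.mp ha1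
      refine ⟨?_, ?_⟩
      · rw [arcs_eq_iUnion hq]
        exact Set.mem_biUnion (show a ∈ {a | Good γ A B l q a} from hag) hx
      · simp only [Set.mem_Ioo, div_lt_iff₀ hq', lt_div_iff₀ hq'] at hx
        have h1 : (q : ℝ) * u - γ + rad l ≤ a := (Int.le_ceil _).trans (by exact_mod_cast has)
        have h2 : (a : ℝ) ≤ (q : ℝ) * v - γ - rad l := by
          have : a ≤ ⌊(q : ℝ) * v - γ - rad l⌋ := by omega
          exact le_trans (by exact_mod_cast this) (Int.floor_le _)
        refine ⟨lt_of_mul_lt_mul_right ?_ hq'.le, le_of_mul_le_mul_right ?_ hq'⟩ <;>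
          linarith [hx.1, hx.2]
    have hdis : (G : Set ℤ).PairwiseDisjoint
        (fun a => Set.Ioo (((a : ℝ) + γ - rad l) / q) (((a : ℝ) + γ + rad l) / q)) := by
      intro a _ b _ hab
      refine Set.disjoint_left.mpr fun x ha hb => hab ?_
      simp only [Set.mem_Ioo, div_lt_iff₀ hq', lt_div_iff₀ hq'] at ha hb
      have h1 : (a : ℝ) < (b : ℝ) + 1 := by linarith
      have h2 : (b : ℝ) < (a : ℝ) + 1 := by linarith
      have h1' : a < b + 1 := by exact_mod_cast h1
      have h2' : b < a + 1 := by exact_mod_cast h2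
      omega
    have hlow : (G.card : ℝ) * (2 * rad l / q) ≤ volume.real (arcs γ A B l q ∩ Set.Ioc u v) := by
      refine le_trans (le_of_eq ?_) (measureReal_mono hsub
        (ne_top_of_le_ne_top measure_Ioc_lt_top.ne (measure_mono Set.inter_subset_right)))
      rw [measureReal_biUnion_finset hdis (fun a _ => measurableSet_Ioo)
        (fun a _ => measure_Ioo_lt_top.ne)]
      rw [Finset.sum_congr rfl fun (a : ℤ) (_ : a ∈ G) => show volume.real
        (Set.Ioo (((a : ℝ) + γ - rad l) / q) (((a : ℝ) + γ + rad l) / q)) = 2 * rad l / q by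
          rw [Real.volume_real_Ioo_of_le (div_le_div_of_nonneg_right (by linarith) hq'.le)]; ring]
      rw [Finset.sum_const, nsmul_eq_mul]
    have hG' := goodSet_card (γ := γ) (A := A) (B := B) (l := l) (q := q) s n
      (δ := 1) zero_le_one (fun h => absurd h (lt_irrefl _))
    rw [mul_one, abs_le] at hG'
    have hnlow : (q : ℝ) * (v - u) - 2 * rad l - 1 ≤ (n : ℝ) := by
      have h1 : ((⌊(q : ℝ) * v - γ - rad l⌋ + 1 - s : ℤ) : ℝ) ≤ (n : ℝ) := by
        rw [hn]
        exact_mod_cast Int.self_le_toNat _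
      push_cast at h1
      have h2 := Int.lt_floor_add_one ((q : ℝ) * v - γ - rad l)
      have h3 := Int.ceil_lt_add_one ((q : ℝ) * u - γ + rad l)
      rw [← hs] at h3
      linarith
    have hd0 := dens_nonneg (γ := γ) (A := A) (B := B) l q
    have hd1 := dens_le_one (γ := γ) (A := A) (B := B) l q
    have hc0 := cwt_nonneg (γ := γ) (A := A) (B := B) l q
    have hc1 := cwt_le_one (γ := γ) (A := A) (B := B) l q
    have hGl : (q : ℝ) * (v - u) * dens γ A B l q - ((2 : ℝ) ^ q.primeFactors.card + 2)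
        ≤ (G.card : ℝ) := by
      have h4 := mul_le_mul_of_nonneg_right hnlow hd0
      have h5 : (2 * rad l + 1) * dens γ A B l q ≤ 2 := by
        calc (2 * rad l + 1) * dens γ A B l q ≤ (2 * rad l + 1) * 1 :=
              mul_le_mul_of_nonneg_left hd1 (by linarith)
          _ ≤ 2 := by linarith
      linarith [hG'.1]
    calc 2 * mass l q * (v - u) - 2 * rad l * ((2 : ℝ) ^ q.primeFactors.card + 2) / q
        ≤ cwt γ A B l q * (((q : ℝ) * (v - u) * dens γ A B l q -
            ((2 : ℝ) ^ q.primeFactors.card + 2)) * (2 * rad l / q)) := by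
          rw [mass, ← cwt_mul_dens (γ := γ) (A := A) (B := B) (l := l) hq]
          have h6 : 0 ≤ (1 - cwt γ A B l q) *
              (2 * rad l * ((2 : ℝ) ^ q.primeFactors.card + 2) / q) :=
            mul_nonneg (by linarith) (by positivity)
          have e : cwt γ A B l q * (((q : ℝ) * (v - u) * dens γ A B l q -
              ((2 : ℝ) ^ q.primeFactors.card + 2)) * (2 * rad l / q)) =
              2 * (rad l * (cwt γ A B l q * dens γ A B l q)) * (v - u) -
              cwt γ A B l q * (2 * rad l * ((2 : ℝ) ^ q.primeFactors.card + 2) / q) := by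
            field_simp
          rw [e]; linarith
      _ ≤ cwt γ A B l q * ((G.card : ℝ) * (2 * rad l / q)) := by gcongr
      _ ≤ _ := mul_le_mul_of_nonneg_left hlow hc0

end Vale.Agent.P028
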