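import Vale.Agent.P028.Arith
import Vale.Agent.P028.Single
import Vale.Agent.P028.ScaleLeaf
import Vale.Agent.P028.Lattice

/-! Products of `p / (p - 1)` over prime divisors and their averages along windows of integers. -/

namespace Vale.Agent.P028

open Finset Real

theorem ratio_ge_one {p : ℕ} (hp : p.Prime) : (1 : ℝ) ≤ (p : ℝ) / (p - 1) := by
  have : (2 : ℝ) ≤ p := by exact_mod_cast hp.two_le
  rw [le_div_iff₀ (by linarith)]; linarith

theorem ratio_le_exp {p : ℕ} (hp : p.Prime) : (p : ℝ) / (p - 1) ≤ exp (2 * (p : ℝ)⁻¹) := by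
  have h2 : (2 : ℝ) ≤ p := by exact_mod_cast hp.two_le
  refine le_trans ?_ (add_one_le_exp _)
  rw [div_le_iff₀ (by linarith)]
  have h : (p : ℝ)⁻¹ * p = 1 := inv_mul_cancel₀ (by linarith)
  have h' : (p : ℝ)⁻¹ ≤ 1 / 2 := by rw [inv_le_comm₀ (by linarith) (by norm_num)]; norm_num; exact hp.two_le
  nlinarith

theorem prod_ratio_mono {U V : Finset ℕ} (h : U ⊆ V) (hV : ∀ p ∈ V, p.Prime) :
    ∏ p ∈ U, ((p : ℝ) / (p - 1)) ≤ ∏ p ∈ V, ((p : ℝ) / (p - 1)) :=
  Finset.prod_le_prod_of_subset_of_one_le h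
    (fun p hp => zero_le_one.trans (ratio_ge_one (hV p (h hp))))
    fun p hp _ => ratio_ge_one (hV p hp)

theorem prod_ratio_le_exp {U : Finset ℕ} (hU : ∀ p ∈ U, p.Prime) :
    ∏ p ∈ U, ((p : ℝ) / (p - 1)) ≤ exp (2 * ∑ p ∈ U, (p : ℝ)⁻¹) := by
  rw [Finset.mul_sum, exp_sum]
  exact Finset.prod_le_prod (fun p hp => zero_le_one.trans (ratio_ge_one (hU p hp)))
    fun p hp => ratio_le_exp (hU p hp)

/-- Mertens for any set of primes in a range. -/
theorem range_ratio_le : ∃ C : ℝ, 1 ≤ C ∧ ∀ (a b : ℕ) (U : Finset ℕ), a ≤ b →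
    (∀ p ∈ U, p.Prime ∧ a < p ∧ p ≤ b) →
    ∏ p ∈ U, ((p : ℝ) / (p - 1)) ≤
      C * ((1 + log b) / (1 + log ((a : ℝ) + 1))) ^ (8 : ℕ) := by
  obtain ⟨C, hC⟩ := mertens
  refine ⟨max C 1, le_max_right _ _, fun a b U hab hU => ?_⟩
  refine (prod_ratio_mono (V := (Finset.Ioc a b).filter Nat.Prime)
    (fun p hp => Finset.mem_filter.2 ⟨Finset.mem_Ioc.2 ⟨(hU p hp).2.1, (hU p hp).2.2⟩, (hU p hp).1⟩)
    fun p hp => (Finset.mem_filter.1 hp).2).trans ((hC a b hab).trans ?_)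
  have h1 : 0 ≤ log (b : ℝ) := log_natCast_nonneg b
  have h2 : 0 ≤ log ((a : ℝ) + 1) := log_nonneg (by linarith [(Nat.cast_nonneg a : (0 : ℝ) ≤ _)])
  exact mul_le_mul_of_nonneg_right (le_max_left _ _) (by positivity)

/-- Prime divisors beyond `a` of a number with `log M ≤ Z`. -/
theorem pf_tail_le : ∃ C : ℝ, 1 ≤ C ∧ ∀ (M a : ℕ) (Z : ℝ) (U : Finset ℕ), 1 ≤ M → 0 ≤ Z →
    log M ≤ Z → U ⊆ M.primeFactors → (∀ p ∈ U, a < p) →
    ∏ p ∈ U, ((p : ℝ) / (p - 1)) ≤
      C * (max 1 ((1 + log (1 + Z)) / (1 + log ((a : ℝ) + 1)))) ^ (8 : ℕ) := by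
  obtain ⟨C, hC1, hC⟩ := range_ratio_le
  refine ⟨C * 3 ^ 8 * exp 4, ?_, ?_⟩
  · have h3 : (1 : ℝ) ≤ 3 ^ 8 := by norm_num
    have h4 : (1 : ℝ) ≤ exp 4 := one_le_exp (by norm_num)
    exact one_le_mul_of_one_le_of_one_le (one_le_mul_of_one_le_of_one_le hC1 h3) h4
  intro M a Z U hM hZ hMZ hU haU
  set b := max a ⌈2 + Z⌉₊ with hb
  have hbZ : 2 + Z ≤ (b : ℝ) :=
    (Nat.le_ceil _).trans (by exact_mod_cast le_max_right a ⌈2 + Z⌉₊)
  have hU' : ∀ p ∈ U, p.Prime := fun p hp => Nat.prime_of_mem_primeFactors (hU hp)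
  set m := max 1 ((1 + log (1 + Z)) / (1 + log ((a : ℝ) + 1))) with hm
  have hm1 : 1 ≤ m := le_max_left _ _
  rw [← Finset.prod_filter_mul_prod_filter_not U (fun p => p ≤ b)]
  have hlow : ∏ p ∈ U.filter (fun p => p ≤ b), ((p : ℝ) / (p - 1)) ≤ C * (3 * m) ^ 8 := by
    refine (hC a b _ (le_max_left _ _) fun p hp => ?_).trans ?_
    · obtain ⟨h1, h2⟩ := Finset.mem_filter.1 hp
      exact ⟨hU' p h1, haU p h1, h2⟩
    have hla : 0 ≤ log ((a : ℝ) + 1) := log_nonneg (by linarith [(Nat.cast_nonneg a : (0 : ℝ) ≤ _)])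
    have hlb : 0 ≤ log (b : ℝ) := log_natCast_nonneg b
    refine mul_le_mul_of_nonneg_left (pow_le_pow_left₀ (by positivity) ?_ 8) (by linarith)
    rw [div_le_iff₀ (by linarith)]
    have hm2 : 1 + log (1 + Z) ≤ m * (1 + log ((a : ℝ) + 1)) := by
      rw [← div_le_iff₀ (by linarith)]; exact le_max_right _ _
    rcases le_total a ⌈2 + Z⌉₊ with h | h
    · have hbe : b = ⌈2 + Z⌉₊ := max_eq_right h
      have h3 : (b : ℝ) ≤ 3 * (1 + Z) := by
        rw [hbe]; linarith [Nat.ceil_lt_add_one (show (0 : ℝ) ≤ 2 + Z by linarith)]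
      have h4 : log (b : ℝ) ≤ log 3 + log (1 + Z) := by
        rw [← log_mul (by norm_num) (by linarith)]
        exact log_le_log (by linarith) h3
      have h5 : log (3 : ℝ) ≤ 2 := by
        have := log_le_sub_one_of_pos (show (0 : ℝ) < 3 by norm_num); linarith
      have h6 : 0 ≤ log (1 + Z) := log_nonneg (by linarith)
      nlinarith
    · have hbe : b = a := max_eq_left h
      have h3 : log (b : ℝ) ≤ log ((a : ℝ) + 1) := log_le_log (by linarith) (by rw [hbe]; linarith)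
      nlinarith
  have hhigh : ∏ p ∈ U.filter (fun p => ¬ p ≤ b), ((p : ℝ) / (p - 1)) ≤ exp 4 := by
    refine le_trans ?_ ((bigFactors M b hM (by linarith)).trans (exp_le_exp.2 ?_))
    · refine prod_ratio_mono (fun p hp => ?_) fun p hp =>
        Nat.prime_of_mem_primeFactors (Finset.mem_filter.1 hp).1
      obtain ⟨h1, h2⟩ := Finset.mem_filter.1 hp
      exact Finset.mem_filter.2 ⟨hU h1, by exact_mod_cast Nat.lt_of_not_le h2⟩
    · rw [div_le_iff₀ (by linarith)]; nlinarith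
  refine (mul_le_mul hlow hhigh (Finset.prod_nonneg fun p hp =>
    zero_le_one.trans (ratio_ge_one (hU' p (Finset.mem_filter.1 hp).1))) (by positivity)).trans_eq ?_
  rw [mul_pow]; ring

theorem one_add_log_pow_le (N : ℕ) : ∃ C : ℝ, 1 ≤ C ∧ ∀ x : ℝ, 1 ≤ x → (1 + log x) ^ N ≤ C * x := by
  refine ⟨((N : ℝ) + 1) ^ N, one_le_pow₀ (by linarith [(Nat.cast_nonneg N : (0 : ℝ) ≤ _)]), ?_⟩
  intro x hx
  rcases Nat.eq_zero_or_pos N with rfl | hN
  · simpa using hx
  have hN' : (0 : ℝ) < N := by exact_mod_cast hN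
  set y := x ^ ((N : ℝ)⁻¹) with hy
  have hy1 : 1 ≤ y := one_le_rpow hx (by positivity)
  have h1 : log x ≤ N * y := by
    refine (log_le_rpow_div (by linarith) (show (0 : ℝ) < (N : ℝ)⁻¹ by positivity)).trans_eq ?_
    rw [hy, div_inv_eq_mul, mul_comm]
  have h2 : y ^ N = x := by
    rw [hy, ← rpow_natCast, ← rpow_mul (by linarith), inv_mul_cancel₀ hN'.ne', rpow_one]
  calc (1 + log x) ^ N ≤ (((N : ℝ) + 1) * y) ^ N :=
        pow_le_pow_left₀ (by linarith [log_nonneg hx]) (by nlinarith) N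
    _ = _ := by rw [mul_pow, h2]

theorem sum_inv_sq_le {y : ℝ} (hy : 1 ≤ y) (U : Finset ℕ) (hU : ∀ p ∈ U, y < (p : ℝ)) :
    ∑ p ∈ U, ((p : ℝ)⁻¹) ^ 2 ≤ 2 / y := by
  set k := ⌊y⌋₊ + 1 with hk
  have hky : y < (k : ℝ) := by rw [hk]; push_cast; exact Nat.lt_floor_add_one y
  have key : ∀ j : ℕ, ∑ n ∈ Finset.Ico k (k + j), ((n : ℝ)⁻¹) ^ 2 ≤ 2 / k - 2 / ((k + j : ℕ) : ℝ) := by
    intro j
    induction j with
    | zero => simp
    | succ j ih =>
      rw [← add_assoc, Finset.sum_Ico_succ_top (Nat.le_add_right k j)]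
      have hn : (1 : ℝ) ≤ ((k + j : ℕ) : ℝ) := by exact_mod_cast (show 1 ≤ k + j by omega)
      have hstep : (((k + j : ℕ) : ℝ)⁻¹) ^ 2 ≤ 2 / ((k + j : ℕ) : ℝ) - 2 / (((k + j : ℕ) : ℝ) + 1) := by
        rw [div_sub_div _ _ (by linarith) (by linarith), inv_pow, inv_eq_one_div,
          div_le_div_iff₀ (by positivity) (by positivity)]
        nlinarith
      push_cast at ih hstep ⊢
      linarith
  refine (Finset.sum_le_sum_of_subset_of_nonneg (t := Finset.Ico k (k + (U.sup id + 1))) ?_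
    (fun n _ _ => by positivity)).trans ((key _).trans ?_)
  · intro p hp
    have h2 : p ≤ U.sup id := Finset.le_sup (f := id) hp
    have h3 : ⌊y⌋₊ < p := (Nat.floor_lt (by linarith)).2 (hU p hp)
    exact Finset.mem_Ico.2 ⟨by omega, by omega⟩
  · have h4 : 2 / (k : ℝ) ≤ 2 / y := div_le_div_of_nonneg_left (by norm_num) (by linarith) hky.le
    have h5 : (0 : ℝ) ≤ 2 / ((k + (U.sup id + 1) : ℕ) : ℝ) := by positivity
    linarith

theorem sum_range_split (F : ℕ → ℝ) (m p : ℕ) :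
    ∑ k ∈ Finset.range (m * p), F k = ∑ j ∈ Finset.range p, ∑ i ∈ Finset.range m, F (m * j + i) := by
  induction p with
  | zero => simp
  | succ p ih => rw [Nat.mul_succ, Finset.sum_range_add, ih, Finset.sum_range_succ]

/-- A product of factors each depending on whether one class mod `p` is hit. -/
noncomputable def classProd (P : Finset ℕ) (e : ℕ → ℤ) (u v : ℕ → ℝ) (n : ℤ) : ℝ :=
  ∏ p ∈ P, if (p : ℤ) ∣ n - e p then u p else v p

theorem classProd_congr {P : Finset ℕ} (e : ℕ → ℤ) (u v : ℕ → ℝ) {n n' : ℤ}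
    (h : ∀ p ∈ P, (p : ℤ) ∣ n - n') : classProd P e u v n = classProd P e u v n' := by
  refine Finset.prod_congr rfl fun p hp => ?_
  have : (p : ℤ) ∣ n - e p ↔ (p : ℤ) ∣ n' - e p := by
    have h1 : n - e p = (n - n') + (n' - e p) := by ring
    rw [h1, dvd_add_right (h p hp)]
  by_cases hd : (p : ℤ) ∣ n - e p
  · rw [if_pos hd, if_pos (this.1 hd)]
  · rw [if_neg hd, if_neg (mt this.2 hd)]

theorem classProd_nonneg {P : Finset ℕ} (e : ℕ → ℤ) {u v : ℕ → ℝ}
    (h : ∀ p ∈ P, 0 ≤ u p ∧ 0 ≤ v p) (n : ℤ) : 0 ≤ classProd P e u v n :=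
  Finset.prod_nonneg fun p hp => by split_ifs; exacts [(h p hp).1, (h p hp).2]

theorem classProd_period (e : ℕ → ℤ) (u v : ℕ → ℝ) (P : Finset ℕ) : (∀ p ∈ P, p.Prime) →
    ∑ i ∈ Finset.range (∏ p ∈ P, p), classProd P e u v (i : ℤ) =
      ∏ p ∈ P, (u p + ((p : ℝ) - 1) * v p) := by
  induction P using Finset.induction with
  | empty => intro _; simp [classProd]
  | insert p P hp ih =>
    intro hP
    have hP' : ∀ q ∈ P, q.Prime := fun q hq => hP q (Finset.mem_insert_of_mem hq)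
    have hpp : p.Prime := hP p (Finset.mem_insert_self p P)
    set m := ∏ q ∈ P, q with hm
    rw [Finset.prod_insert hp, Finset.prod_insert hp, ← ih hP', mul_comm p m, sum_range_split,
      Finset.sum_comm, Finset.mul_sum]
    refine Finset.sum_congr rfl fun i _ => ?_
    have hpm : ¬ p ∣ m := by
      intro h
      obtain ⟨q, hq, hpq⟩ := (Nat.Prime.prime hpp).exists_mem_finset_dvd h
      exact hp ((Nat.prime_dvd_prime_iff_eq hpp (hP' q hq)).1 hpq ▸ hq)
    obtain ⟨c, hcp, hc⟩ := exists_class ((i : ℤ) - e p) hpp hpm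
    have hfac : ∀ j : ℕ, classProd (insert p P) e u v ((m * j + i : ℕ) : ℤ) =
        (if (p : ℤ) ∣ (j : ℤ) - c then u p else v p) * classProd P e u v (i : ℤ) := by
      intro j
      rw [classProd, Finset.prod_insert hp]
      have h1 : (((m * j + i : ℕ) : ℤ) - e p) = (m : ℤ) * j + ((i : ℤ) - e p) := by push_cast; ring
      have h2 : classProd P e u v ((m * j + i : ℕ) : ℤ) = classProd P e u v (i : ℤ) := by
        refine classProd_congr e u v fun q hq => ?_
        have : ((m * j + i : ℕ) : ℤ) - (i : ℤ) = (m : ℤ) * j := by push_cast; ring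
        rw [this]
        exact Dvd.dvd.mul_right (Int.natCast_dvd_natCast.2 (Finset.dvd_prod_of_mem _ hq)) _
      unfold classProd at h2 ⊢
      rw [h2, h1]
      by_cases hd : (p : ℤ) ∣ (j : ℤ) - c
      · rw [if_pos hd, if_pos ((hc _).2 hd)]
      · rw [if_neg hd, if_neg (mt (hc _).1 hd)]
    rw [Finset.sum_congr rfl fun j _ => hfac j, ← Finset.sum_mul]
    refine congrArg (· * classProd P e u v (i : ℤ)) ?_
    have hiff : ∀ j ∈ Finset.range p, ((p : ℤ) ∣ (j : ℤ) - c ↔ j = c) := by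
      intro j hj
      refine ⟨fun h => ?_, fun h => by subst h; simp⟩
      have hj' := Finset.mem_range.1 hj
      have := Int.eq_zero_of_abs_lt_dvd h (abs_lt.2 ⟨by omega, by omega⟩)
      omega
    rw [← Finset.sum_erase_add _ _ (Finset.mem_range.2 hcp),
      if_pos ((hiff c (Finset.mem_range.2 hcp)).2 rfl),
      Finset.sum_congr rfl (fun j hj => if_neg fun h =>
        (Finset.mem_erase.1 hj).1 ((hiff j (Finset.mem_erase.1 hj).2).1 h)),
      Finset.sum_const, Finset.card_erase_of_mem (Finset.mem_range.2 hcp), Finset.card_range,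
      nsmul_eq_mul, Nat.cast_sub hpp.one_le]
    push_cast
    ring

/-- Average of a class product over a window. -/
theorem classProd_window_le {P : Finset ℕ} (hP : ∀ p ∈ P, p.Prime) (e : ℕ → ℤ) {u v : ℕ → ℝ}
    (huv : ∀ p ∈ P, 0 ≤ u p ∧ 0 ≤ v p)
    (hsum : ∀ p ∈ P, u p + ((p : ℝ) - 1) * v p ≤ (p : ℝ) * exp (1 / ((p : ℝ) * (p - 1))))
    (S : Finset ℤ) {W : ℝ} (hW : 0 ≤ W) (hS : ∀ x ∈ S, ∀ y ∈ S, (x : ℝ) - y ≤ W) :
    ∑ n ∈ S, classProd P e u v n ≤ (W + ((∏ p ∈ P, p : ℕ) : ℝ)) * exp 1 := by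
  set m := ∏ p ∈ P, p with hm
  have hm0 : 0 < m := Finset.prod_pos fun p hp => (hP p hp).pos
  have hmz : (0 : ℤ) < m := by exact_mod_cast hm0
  have hmR : (0 : ℝ) < m := by exact_mod_cast hm0
  have hmap : ∀ n ∈ S, (n % (m : ℤ)).toNat ∈ Finset.range m := fun n _ => by
    have h1 := Int.emod_nonneg n hmz.ne'
    have h2 := Int.emod_lt_of_pos n hmz
    exact Finset.mem_range.2 (by omega)
  have hdvd : ∀ i : ℕ, ∀ n : ℤ, (n % (m : ℤ)).toNat = i → (m : ℤ) ∣ n - i := by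
    intro i n hi
    have h1 := Int.emod_nonneg n hmz.ne'
    have h2 : (i : ℤ) = n % (m : ℤ) := by omega
    rw [h2]; exact Int.dvd_self_sub_emod
  rw [← Finset.sum_fiberwise_of_maps_to hmap]
  calc ∑ i ∈ Finset.range m, ∑ n ∈ S.filter (fun n => (n % (m : ℤ)).toNat = i), classProd P e u v n
      ≤ ∑ i ∈ Finset.range m, (W / m + 1) * classProd P e u v (i : ℤ) := by
        refine Finset.sum_le_sum fun i _ => ?_
        rw [Finset.sum_congr rfl (g := fun _ => classProd P e u v (i : ℤ)) (fun n hn =>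
          classProd_congr e u v fun p hp =>
            (Int.natCast_dvd_natCast.2 (Finset.dvd_prod_of_mem _ hp)).trans
              (hdvd i n (Finset.mem_filter.1 hn).2)), Finset.sum_const, nsmul_eq_mul]
        refine mul_le_mul_of_nonneg_right ?_ (classProd_nonneg e huv _)
        refine card_le_of_dvd_sub _ hm0 hW ?_ fun x hx y hy =>
          hS x (Finset.mem_filter.1 hx).1 y (Finset.mem_filter.1 hy).1
        intro x hx y hy
        have h := dvd_sub (hdvd i x (Finset.mem_filter.1 hx).2) (hdvd i y (Finset.mem_filter.1 hy).2)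
        simpa using h
    _ = (W / m + 1) * ∏ p ∈ P, (u p + ((p : ℝ) - 1) * v p) := by
        rw [← Finset.mul_sum, classProd_period e u v P hP]
    _ ≤ (W / m + 1) * ((m : ℝ) * exp 1) := by
        refine mul_le_mul_of_nonneg_left ?_ (by positivity)
        calc ∏ p ∈ P, (u p + ((p : ℝ) - 1) * v p)
            ≤ ∏ p ∈ P, (p : ℝ) * exp (1 / ((p : ℝ) * (p - 1))) := by
              refine Finset.prod_le_prod (fun p hp => ?_) hsum
              have : (1 : ℝ) ≤ p := by exact_mod_cast (hP p hp).one_le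
              exact add_nonneg (huv p hp).1 (mul_nonneg (by linarith) (huv p hp).2)
          _ ≤ (m : ℝ) * exp 1 := by
              rw [Finset.prod_mul_distrib, ← exp_sum, hm, Nat.cast_prod]
              exact mul_le_mul_of_nonneg_left
                (exp_le_exp.2 (sum_one_div_mul_pred_le P fun p hp => (hP p hp).two_le))
                (Finset.prod_nonneg fun p _ => Nat.cast_nonneg p)
    _ = (W + (m : ℝ)) * exp 1 := by field_simp

end Vale.Agent.P028
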