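import Vale.Agent.P028.Single

/-! Two families of arcs: periodic geometry and CRT counting of admissible pairs of numerators. -/

namespace Vale.Agent.P028

open MeasureTheory Finset
open scoped Classical

variable {γ : ℝ} {A : ℕ → ℤ} {B : ℕ → ℕ}

theorem dens_eq_union_inter (P₁ P₂ : Finset ℕ) (f : ℕ → ℝ) :
    (∏ p ∈ P₁, f p) * ∏ p ∈ P₂, f p = (∏ p ∈ P₁ ∪ P₂, f p) * ∏ p ∈ P₁ ∩ P₂, f p :=
  (Finset.prod_union_inter).symm

theorem red_pos {q r : ℕ} (hq : 0 < q) : 0 < red q r :=
  Nat.div_pos (Nat.gcd_le_left r hq) (Nat.gcd_pos_of_pos_left r hq)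

theorem mul_red (q r : ℕ) : Nat.gcd q r * red q r = q :=
  Nat.mul_div_cancel' (Nat.gcd_dvd_left q r)

theorem red_coprime {q r : ℕ} (hq : 0 < q) : (red q r).Coprime (red r q) := by
  unfold red
  rw [Nat.gcd_comm r q]
  exact Nat.coprime_div_gcd_div_gcd (Nat.gcd_pos_of_pos_left r hq)

theorem not_both {q r p : ℕ} (hq : 0 < q) (hp : p.Prime) (h : p ∣ red q r) : ¬ p ∣ red r q := by
  intro h'
  have h1 := Nat.dvd_gcd h h'
  rw [red_coprime hq] at h1
  exact hp.ne_one (Nat.dvd_one.mp h1)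

theorem rhoLeft_nonneg (l q r : ℕ) (n : ℤ) : 0 ≤ rhoLeft γ A B l q r n := by
  refine Finset.prod_nonneg fun p hp => ?_
  have h1 : (1 : ℝ) ≤ p := by
    exact_mod_cast (Nat.prime_of_mem_primeFactors (Finset.mem_filter.mp hp).1).one_le
  split_ifs
  · exact le_rfl
  · exact div_nonneg (by linarith) (by linarith)

theorem rhoBoth_nonneg (l L q r : ℕ) (n : ℤ) : 0 ≤ rhoBoth γ A B l L q r n := by
  refine Finset.prod_nonneg fun p hp => ?_
  have h1 : (1 : ℝ) ≤ p := by
    exact_mod_cast (Nat.prime_of_mem_primeFactors (Finset.mem_filter.mp hp).1).one_le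
  split_ifs
  · exact div_nonneg (by linarith) (by linarith)
  · exact zero_le_one

/-- The primes of `q` that cut the parameter of the solutions. -/
noncomputable def cutPrimes (γ : ℝ) (A : ℕ → ℤ) (B : ℕ → ℕ) (l q r : ℕ) : Finset ℕ :=
  (q.primeFactors.filter (fun p => Det γ A B l p)).filter (fun p => ¬ p ∣ red q r)

theorem cutPrimes_dvd {l q r p : ℕ} (hp : p ∈ cutPrimes γ A B l q r) :
    p.Prime ∧ p ∣ Nat.gcd q r ∧ ¬ p ∣ red q r := by
  simp only [cutPrimes, Finset.mem_filter] at hp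
  have hpr := Nat.prime_of_mem_primeFactors hp.1.1
  refine ⟨hpr, ?_, hp.2⟩
  have := Nat.dvd_of_mem_primeFactors hp.1.1
  rw [← mul_red q r] at this
  exact (hpr.dvd_mul.mp this).resolve_right hp.2

/-- The class cut by one side, along the progression `a₀ + t * red q r`. -/
theorem exists_cut_class {l q r p : ℕ} (hp : p ∈ cutPrimes γ A B l q r) (a₀ : ℤ) :
    ∃ c : ℕ, c < p ∧ ∀ t : ℤ,
      (p : ℤ) ∣ (B l : ℤ) * (a₀ + t * red q r) + A l ↔ (p : ℤ) ∣ t - c := by
  obtain ⟨hpr, -, hnr⟩ := cutPrimes_dvd hp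
  have hD : Det γ A B l p := (Finset.mem_filter.mp (Finset.mem_filter.mp hp).1).2
  obtain ⟨c, hc1, hc2⟩ := exists_class ((B l : ℤ) * a₀ + A l) hpr
    (show ¬ p ∣ B l * red q r from fun h => (hpr.dvd_mul.mp h).elim hD.1 hnr)
  refine ⟨c, hc1, fun t => ?_⟩
  rw [← hc2 t, show (B l : ℤ) * (a₀ + t * red q r) + A l =
    ((B l * red q r : ℕ) : ℤ) * t + ((B l : ℤ) * a₀ + A l) by push_cast; ring]

/-- A good numerator forces the one-sided factor to be positive. -/
theorem good_rhoLeft {l q r : ℕ} (hq : 0 < q) {a b : ℤ} (ha : Good γ A B l q a) :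
    ∀ p ∈ (red q r).primeFactors.filter (fun p => Det γ A B l p),
      ¬ (p : ℤ) ∣ (B l : ℤ) * (a * red r q - b * red q r) + A l * red r q := by
  intro p hp h
  obtain ⟨hp1, hD⟩ := Finset.mem_filter.mp hp
  have hpr := Nat.prime_of_mem_primeFactors hp1
  have hpq := Nat.dvd_of_mem_primeFactors hp1
  refine ha p (Nat.mem_primeFactors.mpr
    ⟨hpr, hpq.trans ⟨Nat.gcd q r, by rw [mul_comm, mul_red]⟩, hq.ne'⟩) hD ?_
  have h' : (p : ℤ) ∣ (red r q : ℤ) * ((B l : ℤ) * a + A l) := by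
    have e : (red r q : ℤ) * ((B l : ℤ) * a + A l) =
        ((B l : ℤ) * (a * red r q - b * red q r) + A l * red r q) + (red q r : ℤ) * ((B l : ℤ) * b) := by
      ring
    rw [e]
    exact dvd_add h (Dvd.dvd.mul_right (Int.natCast_dvd_natCast.mpr hpq) _)
  exact ((Nat.prime_iff_prime_int.mp hpr).dvd_mul.mp h').resolve_left
    (fun h1 => not_both hq hpr hpq (Int.natCast_dvd_natCast.mp h1))

theorem dens_mul_rhoLeft {l q r : ℕ} (hq : 0 < q) {n : ℤ}
    (h : ∀ p ∈ (red q r).primeFactors.filter (fun p => Det γ A B l p),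
      ¬ (p : ℤ) ∣ (B l : ℤ) * n + A l * red r q) :
    dens γ A B l q * rhoLeft γ A B l q r n =
      ∏ p ∈ cutPrimes γ A B l q r, (1 - (p : ℝ)⁻¹) := by
  have hset : (q.primeFactors.filter (fun p => Det γ A B l p)).filter (fun p => p ∣ red q r) =
      (red q r).primeFactors.filter (fun p => Det γ A B l p) := by
    ext p
    simp only [Finset.mem_filter, Nat.mem_primeFactors]
    have hr0 := (red_pos (r := r) hq).ne'
    constructor
    · rintro ⟨⟨⟨h1, -, -⟩, h3⟩, h4⟩; exact ⟨⟨h1, h4, hr0⟩, h3⟩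
    · rintro ⟨⟨h1, h4, -⟩, h3⟩
      exact ⟨⟨⟨h1, h4.trans ⟨Nat.gcd q r, by rw [mul_comm, mul_red]⟩, hq.ne'⟩, h3⟩, h4⟩
  have h1 : rhoLeft γ A B l q r n =
      ∏ p ∈ (red q r).primeFactors.filter (fun p => Det γ A B l p), (p : ℝ) / (p - 1) := by
    unfold rhoLeft
    exact Finset.prod_congr rfl fun p hp => if_neg (h p hp)
  rw [h1, dens, ← Finset.prod_filter_mul_prod_filter_not _ (fun p => p ∣ red q r), hset, cutPrimes,
    mul_right_comm, ← Finset.prod_mul_distrib, Finset.prod_eq_one, one_mul]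
  intro p hp
  have h2 : (2 : ℝ) ≤ p := by
    exact_mod_cast (Nat.prime_of_mem_primeFactors (Finset.mem_filter.mp hp).1).two_le
  have : (p : ℝ) - 1 ≠ 0 := by linarith
  field_simp

/-- The admissible pairs with a given value of `n`. -/
theorem count_fibre {l L q r : ℕ} (hq : 0 < q) (hr : 0 < r) (n : ℤ) (S : Finset (ℤ × ℤ))
    (hS : ∀ z ∈ S, 0 ≤ z.1 ∧ z.1 < (q : ℤ) ∧ Good γ A B l q z.1 ∧ Good γ A B L r z.2 ∧
      z.1 * red r q - z.2 * red q r = n) :
    (S.card : ℝ) ≤
      (Nat.gcd q r : ℝ) * dens γ A B l q * dens γ A B L r * rho γ A B l L q r n := by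
  rcases S.eq_empty_or_nonempty with rfl | ⟨⟨a₀, b₀⟩, hz₀⟩
  · rw [Finset.card_empty, Nat.cast_zero]
    exact mul_nonneg (mul_nonneg (mul_nonneg (Nat.cast_nonneg _) (dens_nonneg _ _))
      (dens_nonneg _ _)) (mul_nonneg (mul_nonneg (rhoLeft_nonneg _ _ _ _) (rhoLeft_nonneg _ _ _ _))
        (rhoBoth_nonneg _ _ _ _ _))
  obtain ⟨h01, h02, hga, hgb, hn⟩ := hS _ hz₀
  simp only at h01 h02 hga hgb hn
  set q' := red q r with hq'
  set r' := red r q with hr'
  set g := Nat.gcd q r with hg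
  have hq'0 : (0 : ℤ) < q' := by exact_mod_cast red_pos hq
  have hgq : (g : ℤ) * q' = q := by exact_mod_cast mul_red q r
  set P₁ := cutPrimes γ A B l q r with hP₁
  set P₂ := cutPrimes γ A B L r q with hP₂
  choose! c₁ hc₁ hc₁' using fun p (hp : p ∈ P₁) => exists_cut_class hp a₀
  choose! c₂ hc₂ hc₂' using fun p (hp : p ∈ P₂) => exists_cut_class hp b₀
  set cls : ℕ → Finset ℕ :=
    fun p => (if p ∈ P₁ then {c₁ p} else ∅) ∪ (if p ∈ P₂ then {c₂ p} else ∅) with hcls
  set s : ℤ := -(a₀ / q') with hs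
  set T := avoidSet (P₁ ∪ P₂) cls 1 0 s g with hT
  have hsub : S ⊆ T.image (fun t : ℤ => (a₀ + t * q', b₀ + t * r')) := by
    rintro ⟨a, b⟩ hab
    obtain ⟨ha1, ha2, hGa, hGb, hn'⟩ := hS _ hab
    simp only at ha1 ha2 hGa hGb hn'
    have hcop : IsCoprime (q' : ℤ) (r' : ℤ) := Int.isCoprime_iff_nat_coprime.mpr
      (by simpa using red_coprime (r := r) hq)
    obtain ⟨t, ht⟩ : (q' : ℤ) ∣ a - a₀ :=
      hcop.dvd_of_dvd_mul_right ⟨b - b₀, by linear_combination hn' - hn⟩
    have hb : b = b₀ + t * r' := by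
      have h : (q' : ℤ) * (b - b₀) = q' * (t * r') := by
        linear_combination (r' : ℤ) * ht - hn' + hn
      have := mul_left_cancel₀ hq'0.ne' h
      linarith
    have ha : a = a₀ + t * q' := by linear_combination ht
    subst ha hb
    refine Finset.mem_image.mpr ⟨t, ?_, rfl⟩
    simp only [hT, avoidSet, Finset.mem_filter, Finset.mem_Ico, Nat.cast_one, isUnit_one,
      IsUnit.dvd, true_and]
    have e1 := Int.ediv_mul_add_emod a₀ (q' : ℤ)
    have e2 := Int.emod_nonneg a₀ hq'0.ne'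
    have e3 := Int.emod_lt_of_pos a₀ hq'0
    refine ⟨⟨?_, ?_⟩, ?_⟩
    · by_contra hlt
      have h1 := mul_le_mul_of_nonneg_right
        (show a₀ / (q' : ℤ) + t + 1 ≤ 0 by omega) hq'0.le
      linarith
    · by_contra hge
      have h1 := mul_le_mul_of_nonneg_right
        (show (g : ℤ) ≤ a₀ / (q' : ℤ) + t by omega) hq'0.le
      linarith
    · intro p hp c hc hdvd
      simp only [hcls, Finset.mem_union] at hc
      rcases hc with hc | hc
      · by_cases h1 : p ∈ P₁
        · rw [if_pos h1, Finset.mem_singleton] at hc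
          subst hc
          have hm := Finset.mem_filter.mp (Finset.mem_filter.mp h1).1
          exact hGa p hm.1 hm.2 ((hc₁' p h1 t).mpr hdvd)
        · rw [if_neg h1] at hc; simp at hc
      · by_cases h1 : p ∈ P₂
        · rw [if_pos h1, Finset.mem_singleton] at hc
          subst hc
          have hm := Finset.mem_filter.mp (Finset.mem_filter.mp h1).1
          exact hGb p hm.1 hm.2 ((hc₂' p h1 t).mpr hdvd)
        · rw [if_neg h1] at hc; simp at hc
  have hpr : ∀ p ∈ P₁ ∪ P₂, p.Prime ∧ p ∣ g := by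
    intro p hp
    rcases Finset.mem_union.mp hp with h | h
    · exact ⟨(cutPrimes_dvd h).1, (cutPrimes_dvd h).2.1⟩
    · refine ⟨(cutPrimes_dvd h).1, ?_⟩
      rw [hg, Nat.gcd_comm]; exact (cutPrimes_dvd h).2.1
  have hcl : ∀ p ∈ P₁ ∪ P₂, ∀ c ∈ cls p, c < p := by
    intro p _ c hc
    simp only [hcls, Finset.mem_union] at hc
    rcases hc with hc | hc
    · by_cases h1 : p ∈ P₁
      · rw [if_pos h1, Finset.mem_singleton] at hc
        rw [hc]; exact hc₁ p h1
      · rw [if_neg h1] at hc; simp at hc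
    · by_cases h1 : p ∈ P₂
      · rw [if_pos h1, Finset.mem_singleton] at hc
        rw [hc]; exact hc₂ p h1
      · rw [if_neg h1] at hc; simp at hc
  have hcount := card_avoid cls g s (le_refl (0 : ℝ)) (P₁ ∪ P₂) (fun p hp => (hpr p hp).1) hcl 1
    one_pos (fun p _ => Nat.coprime_one_left p)
    (fun _ => by
      rw [one_mul]
      refine dvd_trans (Finset.prod_dvd_prod_of_subset _ g.primeFactors (fun p => p) fun p hp => ?_)
        (Nat.prod_primeFactors_dvd g)
      exact Nat.mem_primeFactors.mpr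
        ⟨(hpr p hp).1, (hpr p hp).2, (Nat.gcd_pos_of_pos_left r hq).ne'⟩) 0
  rw [mul_zero, abs_nonpos_iff, sub_eq_zero, Nat.cast_one, div_one, ← hT] at hcount
  have hle : (S.card : ℝ) ≤ (g : ℝ) * ∏ p ∈ P₁ ∪ P₂, (1 - ((cls p).card : ℝ) / p) := by
    rw [← hcount]
    exact_mod_cast (Finset.card_le_card hsub).trans Finset.card_image_le
  refine hle.trans ?_
  -- comparison of the local factors
  have hnn : n = a₀ * red r q - b₀ * red q r := hn.symm
  have hL1 := dens_mul_rhoLeft (γ := γ) (A := A) (B := B) (l := l) (r := r) (n := n) hq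
    (fun p hp => hnn ▸ good_rhoLeft hq hga p hp)
  have hL2 := dens_mul_rhoLeft (γ := γ) (A := A) (B := B) (l := L) (q := r) (r := q) (n := -n) hr
    (fun p hp => by
      rw [show -n = b₀ * red q r - a₀ * red r q by rw [hnn]; ring]
      exact good_rhoLeft hr hgb p hp)
  have hboth : (g.primeFactors.filter (fun p => Det γ A B l p ∧ Det γ A B L p ∧
      ¬ p ∣ red q r ∧ ¬ p ∣ red r q)) = P₁ ∩ P₂ := by
    ext p
    simp only [hP₁, hP₂, cutPrimes, Finset.mem_inter, Finset.mem_filter, Nat.mem_primeFactors, hg]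
    constructor
    · rintro ⟨⟨h1, h2, -⟩, h3, h4, h5, h6⟩
      exact ⟨⟨⟨⟨h1, h2.trans (Nat.gcd_dvd_left q r), hq.ne'⟩, h3⟩, h5⟩,
        ⟨⟨⟨h1, h2.trans (Nat.gcd_dvd_right q r), hr.ne'⟩, h4⟩, h6⟩⟩
    · rintro ⟨⟨⟨⟨h1, h2, -⟩, h3⟩, h5⟩, ⟨⟨⟨-, h7, -⟩, h4⟩, h6⟩⟩
      exact ⟨⟨h1, Nat.dvd_gcd h2 h7, (Nat.gcd_pos_of_pos_left r hq).ne'⟩, h3, h4, h5, h6⟩
  have e : (g : ℝ) * dens γ A B l q * dens γ A B L r * rho γ A B l L q r n =
      (g : ℝ) * (((∏ p ∈ P₁, (1 - (p : ℝ)⁻¹)) * ∏ p ∈ P₂, (1 - (p : ℝ)⁻¹)) *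
        rhoBoth γ A B l L q r n) := by
    rw [hP₁, hP₂, ← hL1, ← hL2, rho]; ring
  rw [e]
  refine mul_le_mul_of_nonneg_left ?_ (Nat.cast_nonneg _)
  have hext : ∀ f : ℕ → ℝ, ∏ p ∈ P₁ ∩ P₂, f p =
      ∏ p ∈ P₁ ∪ P₂, (if p ∈ P₁ ∩ P₂ then f p else 1) := by
    intro f
    rw [← Finset.prod_subset (Finset.inter_subset_left.trans Finset.subset_union_left)
      (fun p _ hp => if_neg hp)]
    exact Finset.prod_congr rfl fun p hp => (if_pos hp).symm
  rw [dens_eq_union_inter, rhoBoth, hboth, hext, hext, ← Finset.prod_mul_distrib,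
    ← Finset.prod_mul_distrib]
  refine Finset.prod_le_prod (fun p hp => ?_) fun p hp => ?_
  · have h1 : (cls p).card ≤ p :=
      (Finset.card_le_card fun c hc => Finset.mem_range.mpr (hcl p hp c hc)).trans
        (Finset.card_range p).le
    have h2 : (0 : ℝ) < p := by exact_mod_cast (hpr p hp).1.pos
    rw [sub_nonneg, div_le_one h2]
    exact_mod_cast h1
  · have h2 : (2 : ℝ) ≤ p := by exact_mod_cast (hpr p hp).1.two_le
    by_cases hI : p ∈ P₁ ∩ P₂
    · obtain ⟨i1, i2⟩ := Finset.mem_inter.mp hI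
      rw [if_pos hI, if_pos hI]
      simp only [hcls, if_pos i1, if_pos i2]
      by_cases heq : c₁ p = c₂ p
      · -- coinciding classes
        have hco : (p : ℤ) ∣ coinForm A B l L q r n := by
          have h1 := (hc₁' p i1 (c₁ p)).mpr (by simp)
          have h3 := (hc₂' p i2 (c₁ p)).mpr (by rw [heq]; simp)
          have e : coinForm A B l L q r n =
              ((B L : ℤ) * r') * ((B l : ℤ) * (a₀ + (c₁ p : ℤ) * q') + A l) -
              ((B l : ℤ) * q') * ((B L : ℤ) * (b₀ + (c₁ p : ℤ) * r') + A L) := by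
            rw [coinForm, hnn]; ring
          rw [e]
          exact dvd_sub (h1.mul_left _) (h3.mul_left _)
        rw [if_pos hco, heq, Finset.union_self, Finset.card_singleton]
        refine le_of_eq ?_
        have : (p : ℝ) - 1 ≠ 0 := by linarith
        push_cast
        field_simp
      · rw [show ({c₁ p} ∪ {c₂ p} : Finset ℕ).card = 2 by
          rw [← Finset.insert_eq, Finset.card_pair heq]]
        have hfac : (1 : ℝ) ≤
            if (p : ℤ) ∣ coinForm A B l L q r n then (p : ℝ) / (p - 1) else 1 := by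
          split_ifs
          · rw [le_div_iff₀ (by linarith)]; linarith
          · exact le_rfl
        refine le_trans ?_ (le_mul_of_one_le_right (by
          have := prime_one_sub_nonneg (hpr p hp).1; positivity) hfac)
        push_cast
        rw [show (2 : ℝ) / p = 2 * (p : ℝ)⁻¹ by ring]
        linarith [mul_self_nonneg ((p : ℝ)⁻¹)]
    · rw [if_neg hI, if_neg hI, mul_one, mul_one]
      have hc1 : (cls p).card = 1 := by
        rw [Finset.mem_inter, not_and] at hI
        rcases Finset.mem_union.mp hp with h | h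
        · simp [hcls, h, hI h]
        · simp [hcls, h, show p ∉ P₁ from fun h' => hI h' h]
      rw [hc1, Nat.cast_one, one_div]

theorem overlap : OverlapStmt := by
  intro γ A B _ l L q r hl hL hq hr _
  have hq' : (0 : ℝ) < q := by exact_mod_cast hq
  have hr' : (0 : ℝ) < r := by exact_mod_cast hr
  have hρ := rad_pos l
  have hσ := rad_pos L
  set ρ := rad l with hρdef
  set σ := rad L with hσdef
  set g := Nat.gcd q r with hg
  have hg0 : (0 : ℝ) < g := by exact_mod_cast Nat.gcd_pos_of_pos_left r hq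
  have hgq : (q : ℝ) = g * red q r := by exact_mod_cast (mul_red q r).symm
  have hgr : (r : ℝ) = g * red r q := by
    rw [hg, Nat.gcd_comm]; exact_mod_cast (mul_red r q).symm
  have hqp : (0 : ℝ) < red q r := by exact_mod_cast red_pos hq
  have hrp : (0 : ℝ) < red r q := by exact_mod_cast red_pos hr
  set D := dgap l L q r with hD
  have hDeq : D = max ((red r q : ℝ) * ρ) ((red q r : ℝ) * σ) := rfl
  have hD1 : (red r q : ℝ) * ρ ≤ D := le_max_left _ _
  have hD2 : (red q r : ℝ) * σ ≤ D := le_max_right _ _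
  have hD0 : 0 < D := lt_of_lt_of_le (by positivity) hD1
  set c : ℝ := (γ - ρ) / q with hc
  rw [← periodic_measure (E := arcs γ A B l q ∩ arcs γ A B L r)
    ((measurableSet_arcs hq).inter (measurableSet_arcs hr))
    (fun x => and_congr (arcs_periodic l q x) (arcs_periodic L r x)) c]
  -- the admissible pairs
  set nR := nRange γ l L q r with hnR
  set fib : ℤ → Finset (ℤ × ℤ) := fun n =>
    ((Finset.Ico (0 : ℤ) q).filter (fun a => Good γ A B l q a ∧
        (red q r : ℤ) ∣ a * red r q - n ∧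
        Good γ A B L r ((a * red r q - n) / red q r))).image
      (fun a => (a, (a * red r q - n) / red q r)) with hfib
  set piece : ℤ × ℤ → Set ℝ := fun z =>
    Set.Ioo (((z.1 : ℝ) + γ - ρ) / q) (((z.1 : ℝ) + γ + ρ) / q) ∩
      Set.Ioo (((z.2 : ℝ) + γ - σ) / r) (((z.2 : ℝ) + γ + σ) / r) with hpiece
  have hsub : arcs γ A B l q ∩ arcs γ A B L r ∩ Set.Ioc c (c + 1) ⊆
      ⋃ z ∈ nR.biUnion fib, piece z := by
    rw [arcs_eq_iUnion hq, arcs_eq_iUnion hr]
    rintro x ⟨⟨hx1, hx2⟩, hxc1, hxc2⟩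
    simp only [Set.mem_iUnion, Set.mem_Ioo, exists_prop] at hx1 hx2
    obtain ⟨a, ha, ha1, ha2⟩ := hx1
    obtain ⟨b, hb, hb1, hb2⟩ := hx2
    refine Set.mem_biUnion (x := (a, b)) ?_ ⟨⟨ha1, ha2⟩, ⟨hb1, hb2⟩⟩
    rw [lt_div_iff₀ hq'] at ha2
    rw [div_lt_iff₀ hq'] at ha1
    rw [lt_div_iff₀ hr'] at hb2
    rw [div_lt_iff₀ hr'] at hb1
    have ha0 : 0 ≤ a := by
      rw [hc, div_lt_iff₀ hq'] at hxc1
      have := rad_le l hl
      have h : (-1 : ℝ) < (a : ℝ) := by linarith
      have : (-1 : ℤ) < a := by exact_mod_cast h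
      omega
    have haq : a < (q : ℤ) := by
      have h5 : x * q ≤ γ - ρ + q := by
        have := mul_le_mul_of_nonneg_right hxc2 hq'.le
        rwa [hc, add_mul, one_mul, div_mul_cancel₀ _ hq'.ne'] at this
      have h : (a : ℝ) < ((q : ℕ) : ℤ) := by push_cast; linarith
      exact_mod_cast h
    set n : ℤ := a * red r q - b * red q r with hn
    have hbq : (a * red r q - n) / (red q r : ℤ) = b := by
      rw [hn, sub_sub_cancel]
      exact Int.mul_ediv_cancel _ (by exact_mod_cast (red_pos hq).ne')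
    have hrange : n ∈ nR := by
      have h1 : |(red r q : ℝ) * (x * q - a - γ) - (red q r : ℝ) * (x * r - b - γ)| ≤ 2 * D := by
        refine (abs_sub _ _).trans ?_
        rw [abs_mul, abs_mul, abs_of_pos hrp, abs_of_pos hqp]
        have e1 : |x * q - a - γ| ≤ ρ := abs_le.mpr ⟨by linarith, by linarith⟩
        have e2 : |x * r - b - γ| ≤ σ := abs_le.mpr ⟨by linarith, by linarith⟩
        have := mul_le_mul_of_nonneg_left e1 hrp.le
        have := mul_le_mul_of_nonneg_left e2 hqp.le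
        linarith
      have e3 : (red r q : ℝ) * (x * q - a - γ) - (red q r : ℝ) * (x * r - b - γ) =
          -((n : ℝ) + γ * ((red r q : ℝ) - red q r)) := by
        rw [hn, hgq, hgr]; push_cast; ring
      rw [e3, abs_neg, abs_le] at h1
      simp only [hnR, nRange, Finset.mem_Icc, ← hD]
      exact ⟨Int.ceil_le.mpr (by linarith [h1.1]), Int.le_floor.mpr (by linarith [h1.2])⟩
    simp only [Finset.coe_biUnion, Set.mem_iUnion, Finset.mem_coe]
    refine ⟨n, hrange, ?_⟩
    simp only [hfib, Finset.mem_image, Finset.mem_filter, Finset.mem_Ico]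
    refine ⟨a, ⟨⟨ha0, haq⟩, ha, ⟨b, by rw [hn]; ring⟩, ?_⟩, ?_⟩
    · rw [hbq]; exact hb
    · rw [hbq]
  have hpv : ∀ z : ℤ × ℤ, volume.real (piece z) ≤ 2 * ρ * σ / (g * D) := by
    intro z
    have h1 : volume.real (piece z) ≤ 2 * ρ / q := by
      refine (measureReal_mono Set.inter_subset_left measure_Ioo_lt_top.ne).trans (le_of_eq ?_)
      rw [Real.volume_real_Ioo_of_le (div_le_div_of_nonneg_right (by linarith) hq'.le)]; ring
    have h2 : volume.real (piece z) ≤ 2 * σ / r := by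
      refine (measureReal_mono Set.inter_subset_right measure_Ioo_lt_top.ne).trans (le_of_eq ?_)
      rw [Real.volume_real_Ioo_of_le (div_le_div_of_nonneg_right (by linarith) hr'.le)]; ring
    rcases max_choice ((red r q : ℝ) * ρ) ((red q r : ℝ) * σ) with hm | hm <;>
      rw [← hDeq] at hm
    · refine h2.trans (le_of_eq ?_)
      rw [hm, hgr]; field_simp
    · refine h1.trans (le_of_eq ?_)
      rw [hm, hgq]; field_simp
  have hfibS : ∀ n, ∀ z ∈ fib n, 0 ≤ z.1 ∧ z.1 < (q : ℤ) ∧ Good γ A B l q z.1 ∧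
      Good γ A B L r z.2 ∧ z.1 * red r q - z.2 * red q r = n := by
    intro n z hz
    simp only [hfib, Finset.mem_image, Finset.mem_filter, Finset.mem_Ico] at hz
    obtain ⟨a, ⟨⟨h1, h2⟩, h3, h4, h5⟩, rfl⟩ := hz
    refine ⟨h1, h2, h3, h5, ?_⟩
    rw [Int.ediv_mul_cancel h4]; ring
  have hvol : volume.real (arcs γ A B l q ∩ arcs γ A B L r ∩ Set.Ioc c (c + 1)) ≤
      (∑ n ∈ nR, (g : ℝ) * dens γ A B l q * dens γ A B L r * rho γ A B l L q r n) *
        (2 * ρ * σ / (g * D)) := by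
    refine (measureReal_mono hsub ((measure_biUnion_lt_top (Finset.finite_toSet _)
      fun z _ => lt_of_le_of_lt (measure_mono Set.inter_subset_left) measure_Ioo_lt_top).ne)).trans ?_
    refine (measureReal_biUnion_finset_le _ _).trans ?_
    refine (Finset.sum_le_card_nsmul _ _ _ fun z _ => hpv z).trans ?_
    rw [nsmul_eq_mul]
    refine mul_le_mul_of_nonneg_right ?_ (by positivity)
    refine le_trans ?_ (Finset.sum_le_sum fun n _ => count_fibre hq hr n (fib n) (hfibS n))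
    exact_mod_cast Finset.card_biUnion_le
  refine (mul_le_mul_of_nonneg_left hvol (mul_nonneg (cwt_nonneg l q) (cwt_nonneg L r))).trans
    (le_of_eq ?_)
  rw [mass, mass, ← cwt_mul_dens (γ := γ) (A := A) (B := B) (l := l) hq,
    ← cwt_mul_dens (γ := γ) (A := A) (B := B) (l := L) hr, ← hρdef, ← hσdef,
    Finset.sum_mul, Finset.mul_sum, Finset.mul_sum]
  refine Finset.sum_congr rfl fun n _ => ?_
  field_simp

end Vale.Agent.P028
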