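import Vale.Agent.P028.Stmts
import Vale.Agent.P028.AnatomyTools
import Vale.Agent.P028.Overlap

/-! Pointwise bounds for the coincidence weights of one pair of arcs. -/

namespace Vale.Agent.P028

open Finset Real
open scoped Classical

variable {γ : ℝ} {A : ℕ → ℤ} {B : ℕ → ℕ} {l L q r : ℕ}

/-- The small logarithm of the bounds. -/
noncomputable def lgD (L : ℕ) (D : ℝ) : ℝ := 1 + log ((L : ℝ) + 1) + log (2 + D)

/-- The large logarithm of the bounds. -/
noncomputable def bigD (L : ℕ) (D : ℝ) : ℝ := (L : ℝ) + log (2 + D)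

theorem dgap_facts (hq : 0 < q) (l L : ℕ) :
    (red r q : ℝ) ≤ dgap l L q r * (4 : ℝ) ^ l ∧ (red q r : ℝ) ≤ dgap l L q r * (4 : ℝ) ^ L ∧
      0 < dgap l L q r := by
  have h1 : (red r q : ℝ) * rad l ≤ dgap l L q r := le_max_left _ _
  have h2 : (red q r : ℝ) * rad L ≤ dgap l L q r := le_max_right _ _
  have hq' : (0 : ℝ) < red q r := by exact_mod_cast red_pos (r := r) hq
  refine ⟨?_, ?_, lt_of_lt_of_le (mul_pos hq' (rad_pos L)) h2⟩
  · rw [rad, ← div_eq_mul_inv, div_le_iff₀ (by positivity)] at h1; exact h1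
  · rw [rad, ← div_eq_mul_inv, div_le_iff₀ (by positivity)] at h2; exact h2

theorem nRange_bound {n : ℤ} (hn : n ∈ nRange γ l L q r) :
    |(n : ℝ) + γ * ((red r q : ℝ) - red q r)| ≤ 2 * dgap l L q r := by
  obtain ⟨h1, h2⟩ := Finset.mem_Icc.1 hn
  have h1' := (Int.le_ceil _).trans (Int.cast_le.2 h1 : (_ : ℝ) ≤ n)
  have h2' := (Int.cast_le.2 h2 : (n : ℝ) ≤ _).trans (Int.floor_le _)
  rw [abs_le]; constructor <;> linarith

theorem nRange_width {x y : ℤ} (hx : x ∈ nRange γ l L q r) (hy : y ∈ nRange γ l L q r) :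
    (x : ℝ) - y ≤ 4 * dgap l L q r := by
  have h1 := abs_le.1 (nRange_bound hx)
  have h2 := abs_le.1 (nRange_bound hy)
  linarith [h1.1, h1.2, h2.1, h2.2]

theorem coin_eq (n : ℤ) :
    ((coinForm A B l L q r n : ℤ) : ℝ) =
      (B l : ℝ) * B L * (n + γ * ((red r q : ℝ) - red q r)) -
        eps γ A B l * B L * red r q + eps γ A B L * B l * red q r := by
  simp only [coinForm, eps]; push_cast; ring

theorem cls_real (h : IsCls γ A B) (l : ℕ) :
    (1 : ℝ) ≤ B l ∧ (B l : ℝ) ≤ (2 : ℝ) ^ l ∧ |eps γ A B l| < ((2 : ℝ) ^ l)⁻¹ := by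
  obtain ⟨h1, h2, -, h4⟩ := h l
  exact ⟨by exact_mod_cast h1, by exact_mod_cast h2, h4⟩

theorem four_pow_eq (l : ℕ) : (4 : ℝ) ^ l = (2 : ℝ) ^ l * (2 : ℝ) ^ l := by
  rw [← mul_pow]; norm_num

theorem abs_coin_le (h : IsCls γ A B) (hq : 0 < q) {n : ℤ} (hn : n ∈ nRange γ l L q r) :
    |((coinForm A B l L q r n : ℤ) : ℝ)| ≤ 4 * dgap l L q r * ((2 : ℝ) ^ l * (2 : ℝ) ^ L) := by
  obtain ⟨hrl, hqL, hD⟩ := dgap_facts (r := r) hq l L
  obtain ⟨hB1, hB2, he⟩ := cls_real h l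
  obtain ⟨hB1', hB2', he'⟩ := cls_real h L
  set D := dgap l L q r
  rw [coin_eq (γ := γ)]
  have t1 : |(B l : ℝ) * B L * (n + γ * ((red r q : ℝ) - red q r))| ≤
      2 * D * ((2 : ℝ) ^ l * 2 ^ L) := by
    rw [abs_mul, abs_of_nonneg (by positivity : (0 : ℝ) ≤ (B l : ℝ) * B L), mul_comm (2 * D)]
    exact mul_le_mul (mul_le_mul hB2 hB2' (by linarith) (by positivity)) (nRange_bound hn)
      (abs_nonneg _) (by positivity)
  have t2 : |eps γ A B l * B L * red r q| ≤ D * ((2 : ℝ) ^ l * 2 ^ L) := by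
    rw [abs_mul, abs_mul, Nat.abs_cast, Nat.abs_cast]
    calc |eps γ A B l| * (B L : ℝ) * red r q ≤ ((2 : ℝ) ^ l)⁻¹ * 2 ^ L * (D * 4 ^ l) :=
          mul_le_mul (mul_le_mul he.le hB2' (by linarith) (by positivity)) hrl (Nat.cast_nonneg _)
            (by positivity)
      _ = D * ((2 : ℝ) ^ l * 2 ^ L) := by rw [four_pow_eq]; field_simp
  have t3 : |eps γ A B L * B l * red q r| ≤ D * ((2 : ℝ) ^ l * 2 ^ L) := by
    rw [abs_mul, abs_mul, Nat.abs_cast, Nat.abs_cast]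
    calc |eps γ A B L| * (B l : ℝ) * red q r ≤ ((2 : ℝ) ^ L)⁻¹ * 2 ^ l * (D * 4 ^ L) :=
          mul_le_mul (mul_le_mul he'.le hB2 (by linarith) (by positivity)) hqL (Nat.cast_nonneg _)
            (by positivity)
      _ = D * ((2 : ℝ) ^ l * 2 ^ L) := by rw [four_pow_eq]; field_simp
  refine (abs_add_le _ _).trans ?_
  have := abs_sub ((B l : ℝ) * B L * (n + γ * ((red r q : ℝ) - red q r))) (eps γ A B l * B L * red r q)
  linarith

theorem lgD_ge_one {L : ℕ} {D : ℝ} (hD : 0 ≤ D) : 1 ≤ lgD L D := by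
  have h1 : 0 ≤ log ((L : ℝ) + 1) := log_nonneg (by linarith [(Nat.cast_nonneg L : (0 : ℝ) ≤ _)])
  have h2 : 0 ≤ log (2 + D) := log_nonneg (by linarith)
  unfold lgD; linarith

theorem bigD_ge_one {L : ℕ} {D : ℝ} (hL : 1 ≤ L) (hD : 0 ≤ D) : 1 ≤ bigD L D := by
  have h1 : (1 : ℝ) ≤ L := by exact_mod_cast hL
  have h2 : 0 ≤ log (2 + D) := log_nonneg (by linarith)
  unfold bigD; linarith

theorem log_bigD_le {L : ℕ} {D : ℝ} (hL : 1 ≤ L) (hD : 0 ≤ D) :
    1 + log (1 + 4 * bigD L D) ≤ 3 * lgD L D := by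
  have hY := bigD_ge_one hL hD
  have h1 : log (1 + 4 * bigD L D) ≤ log (5 * (((L : ℝ) + 1) * (2 + D))) := by
    refine log_le_log (by linarith) ?_
    have h2 : log (2 + D) ≤ 1 + D := by
      have := log_le_sub_one_of_pos (show (0 : ℝ) < 2 + D by linarith); linarith
    have h3 : bigD L D ≤ ((L : ℝ) + 1) * (2 + D) := by
      unfold bigD; nlinarith [(Nat.cast_nonneg L : (0 : ℝ) ≤ _)]
    linarith
  rw [log_mul (by norm_num) (by positivity), log_mul (by positivity) (by linarith)] at h1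
  have h4 : log (5 : ℝ) ≤ 2 := by
    rw [log_le_iff_le_exp (by norm_num)]
    have h : exp (2 : ℝ) = exp 1 * exp 1 := by rw [← exp_add]; norm_num
    rw [h]; nlinarith [exp_one_gt_d9]
  have h5 : 0 ≤ log ((L : ℝ) + 1) := log_nonneg (by linarith [(Nat.cast_nonneg L : (0 : ℝ) ≤ _)])
  have h6 : 0 ≤ log (2 + D) := log_nonneg (by linarith)
  unfold lgD; linarith

/-- Logarithms of the three numbers whose prime divisors enter the weight. -/
theorem log_sizes (h : IsCls γ A B) (hlL : l ≤ L) (hL : 1 ≤ L) (hq : 0 < q) (hr : 0 < r) :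
    log (red q r : ℝ) ≤ 4 * bigD L (dgap l L q r) ∧ log (red r q : ℝ) ≤ 4 * bigD L (dgap l L q r) ∧
    ∀ n ∈ nRange γ l L q r, coinForm A B l L q r n ≠ 0 →
      log ((coinForm A B l L q r n).natAbs : ℝ) ≤ 4 * bigD L (dgap l L q r) := by
  obtain ⟨hrl, hqL, hD⟩ := dgap_facts (r := r) hq l L
  set D := dgap l L q r
  have hL' : (1 : ℝ) ≤ L := by exact_mod_cast hL
  have h2D : 0 ≤ log (2 + D) := log_nonneg (by linarith)
  have key : ∀ x : ℝ, 0 < x → x ≤ (2 + D) * (4 : ℝ) ^ (L + 1) → log x ≤ 4 * bigD L D := by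
    intro x hx hxb
    have h := log_le_log hx hxb
    rw [log_mul (by linarith) (by positivity), log_pow] at h
    have h4 : log (4 : ℝ) ≤ 2 := by
      rw [log_le_iff_le_exp (by norm_num)]
      have h : exp (2 : ℝ) = exp 1 * exp 1 := by rw [← exp_add]; norm_num
      rw [h]; nlinarith [exp_one_gt_d9]
    have h5 : 0 ≤ log (4 : ℝ) := log_nonneg (by norm_num)
    push_cast at h
    unfold bigD; nlinarith
  have h4L : (4 : ℝ) ^ l ≤ (4 : ℝ) ^ L := pow_le_pow_right₀ (by norm_num) hlL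
  have h4p : (0 : ℝ) < (4 : ℝ) ^ L := by positivity
  refine ⟨key _ (by exact_mod_cast red_pos hq) ?_, key _ (by exact_mod_cast red_pos hr) ?_, ?_⟩
  · rw [pow_succ]; nlinarith
  · rw [pow_succ]; nlinarith
  · intro n hn hc
    refine key _ (by exact_mod_cast Int.natAbs_pos.2 hc) ?_
    rw [Nat.cast_natAbs, Int.cast_abs]
    refine (abs_coin_le h hq hn).trans ?_
    have h2l : (2 : ℝ) ^ l ≤ (2 : ℝ) ^ L := pow_le_pow_right₀ (by norm_num) hlL
    have h2p : (0 : ℝ) < (2 : ℝ) ^ L := by positivity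
    rw [pow_succ, four_pow_eq L]
    nlinarith [mul_le_mul_of_nonneg_right h2l h2p.le, mul_pos h2p h2p]

theorem rhoLeft_le (l q r : ℕ) (n : ℤ) :
    rhoLeft γ A B l q r n ≤
      ∏ p ∈ (red q r).primeFactors.filter (fun p => Det γ A B l p), ((p : ℝ) / (p - 1)) :=
  Finset.prod_le_prod (fun p hp => by
      split_ifs
      · exact le_rfl
      · exact zero_le_one.trans (ratio_ge_one (Nat.prime_of_mem_primeFactors (Finset.mem_filter.1 hp).1)))
    fun p hp => by
      split_ifs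
      · exact zero_le_one.trans (ratio_ge_one (Nat.prime_of_mem_primeFactors (Finset.mem_filter.1 hp).1))
      · exact le_rfl

/-- The primes at which both sides can coincide. -/
noncomputable def bothSet (γ : ℝ) (A : ℕ → ℤ) (B : ℕ → ℕ) (l L q r : ℕ) : Finset ℕ :=
  (Nat.gcd q r).primeFactors.filter (fun p => Det γ A B l p ∧ Det γ A B L p ∧
    ¬ p ∣ red q r ∧ ¬ p ∣ red r q)

theorem rhoBoth_eq (l L q r : ℕ) (n : ℤ) :
    rhoBoth γ A B l L q r n =
      ∏ p ∈ (bothSet γ A B l L q r).filter (fun p : ℕ => (p : ℤ) ∣ coinForm A B l L q r n),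
        ((p : ℝ) / (p - 1)) := by
  unfold rhoBoth bothSet
  exact (Finset.prod_filter _ _).symm

theorem rho_nonneg (l L q r : ℕ) (n : ℤ) : 0 ≤ rho γ A B l L q r n :=
  mul_nonneg (mul_nonneg (rhoLeft_nonneg _ _ _ _) (rhoLeft_nonneg _ _ _ _)) (rhoBoth_nonneg _ _ _ _ _)

theorem rho_le_of_bounds {n : ℤ} {X Y Z : ℝ} (h1 : rhoLeft γ A B l q r n ≤ X)
    (h2 : rhoLeft γ A B L r q (-n) ≤ Y) (h3 : rhoBoth γ A B l L q r n ≤ Z) :
    rho γ A B l L q r n ≤ X * Y * Z :=
  mul_le_mul (mul_le_mul h1 h2 (rhoLeft_nonneg _ _ _ _) ((rhoLeft_nonneg _ _ _ _).trans h1)) h3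
    (rhoBoth_nonneg _ _ _ _ _)
    (mul_nonneg ((rhoLeft_nonneg _ _ _ _).trans h1) ((rhoLeft_nonneg _ _ _ _).trans h2))

/-- A prime of `q'` that carries a forbidden class survives only off the line. -/
theorem kill_left {n : ℤ} (hrho : rhoLeft γ A B l q r n ≠ 0) {p : ℕ}
    (hp : p ∈ (red q r).primeFactors) (hD : Det γ A B l p) :
    ¬ (p : ℤ) ∣ (B l : ℤ) * n + A l * red r q := by
  intro h
  exact hrho (Finset.prod_eq_zero (Finset.mem_filter.2 ⟨hp, hD⟩) (if_pos h))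

/-- Different classes are far apart. -/
theorem cls_diff (h : IsCls γ A B) (hlL : l ≤ L) (hd : ¬ SameCls A B l L) :
    l < L ∧ 2 ^ l ≤ 4 * kdiv B l L ∧ 2 ^ l ≤ 2 * B L ∧
      ((B L : ℝ))⁻¹ / 2 ≤ |eps γ A B l| := by
  have hlt : l < L := by
    rcases eq_or_lt_of_le hlL with rfl | h'
    · exact absurd ⟨rfl, rfl⟩ hd
    · exact h'
  obtain ⟨hb1, -, hc, -⟩ := h l
  obtain ⟨hb1', -, hc', -⟩ := h L
  have hne : A l * B L - A L * B l ≠ 0 := by
    intro he
    have he' : A l * (B L : ℤ) = A L * B l := by linarith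
    have h1 : (B l : ℤ) ∣ B L := hc.symm.dvd_of_dvd_mul_left ⟨A L, by rw [he']; ring⟩
    have h2 : (B L : ℤ) ∣ B l := hc'.symm.dvd_of_dvd_mul_left ⟨A l, by rw [← he']; ring⟩
    have hB : B l = B L :=
      Nat.dvd_antisymm (Int.natCast_dvd_natCast.1 h1) (Int.natCast_dvd_natCast.1 h2)
    refine hd ⟨?_, hB⟩
    rw [hB] at he'
    exact mul_right_cancel₀ (by exact_mod_cast (show B L ≠ 0 by omega)) he'
  obtain ⟨hB1, hB2, he⟩ := cls_real h l
  obtain ⟨hB1', hB2', he'⟩ := cls_real h L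
  have hid : ((A l * B L - A L * B l : ℤ) : ℝ) = -eps γ A B l * B L + eps γ A B L * B l := by
    simp only [eps]; push_cast; ring
  have hsmall : |eps γ A B L * (B l : ℝ)| ≤ 1 / 2 := by
    rw [abs_mul, Nat.abs_cast]
    calc |eps γ A B L| * (B l : ℝ) ≤ ((2 : ℝ) ^ L)⁻¹ * 2 ^ l :=
          mul_le_mul he'.le hB2 (Nat.cast_nonneg _) (by positivity)
      _ ≤ 1 / 2 := by
        rw [inv_mul_le_iff₀ (by positivity)]
        have h1 : (2 : ℝ) ^ (l + 1) ≤ 2 ^ L := pow_le_pow_right₀ (by norm_num) hlt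
        rw [pow_succ] at h1; linarith
  have hX : |((A l * B L - A L * B l : ℤ) : ℝ)| ≤ |eps γ A B l| * B L + 1 / 2 := by
    rw [hid]
    refine (abs_add_le _ _).trans ?_
    rw [abs_mul, abs_neg, Nat.abs_cast]
    linarith
  have h1X : (1 : ℝ) ≤ |((A l * B L - A L * B l : ℤ) : ℝ)| := by
    rw [← Int.cast_abs]; exact Int.cast_one_le_of_pos (abs_pos.2 hne)
  have hgX : (Nat.gcd (B l) (B L) : ℝ) ≤ |((A l * B L - A L * B l : ℤ) : ℝ)| := by
    have hdvd : (Nat.gcd (B l) (B L) : ℤ) ∣ |A l * B L - A L * B l| :=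
      (dvd_abs _ _).2 (dvd_sub (Dvd.dvd.mul_left (Int.natCast_dvd_natCast.2 (Nat.gcd_dvd_right _ _)) _)
        (Dvd.dvd.mul_left (Int.natCast_dvd_natCast.2 (Nat.gcd_dvd_left _ _)) _))
    have hle := Int.le_of_dvd (abs_pos.2 hne) hdvd
    have hle' : ((Nat.gcd (B l) (B L) : ℤ) : ℝ) ≤ ((|A l * B L - A L * B l| : ℤ) : ℝ) := Int.cast_le.2 hle
    rw [Int.cast_abs, Int.cast_natCast] at hle'
    exact hle'
  have hinv : |eps γ A B l| * (B L : ℝ) ≤ (B L : ℝ) / 2 ^ l := by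
    rw [div_eq_inv_mul]; exact mul_le_mul_of_nonneg_right he.le (by linarith)
  have hpos : (0 : ℝ) < (2 : ℝ) ^ l := by positivity
  have hhalf : (1 : ℝ) / 2 ≤ (B L : ℝ) / 2 ^ l := by linarith
  refine ⟨hlt, ?_, ?_, ?_⟩
  · have hk : (kdiv B l L : ℝ) * Nat.gcd (B l) (B L) = B L := by
      rw [kdiv]; exact_mod_cast Nat.div_mul_cancel (Nat.gcd_dvd_right (B l) (B L))
    have hg : (Nat.gcd (B l) (B L) : ℝ) ≤ 2 * ((B L : ℝ) / 2 ^ l) := by linarith
    have hk0 : (0 : ℝ) ≤ kdiv B l L := Nat.cast_nonneg _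
    have hreal : (2 : ℝ) ^ l ≤ 4 * kdiv B l L := by
      have h2 := mul_le_mul_of_nonneg_left hg hk0
      rw [hk, mul_div_assoc', mul_div_assoc', le_div_iff₀ hpos] at h2
      nlinarith
    exact_mod_cast hreal
  · have hreal : (2 : ℝ) ^ l ≤ 2 * B L := by
      rw [le_div_iff₀ hpos] at hhalf; linarith
    exact_mod_cast hreal
  · rw [div_le_iff₀ (by norm_num : (0 : ℝ) < 2), inv_le_iff_one_le_mul₀ (by linarith)]
    linarith

/-- On the exact line of a common class only pairs with a large gap survive. -/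
theorem coin_zero_same (h : IsCls γ A B) (hlL : l ≤ L) (hq : 0 < q) (hr : 0 < r) (hne : q ≠ r)
    (hs : SameCls A B l L) {n : ℤ} (hc : coinForm A B l L q r n = 0)
    (hrho : rho γ A B l L q r n ≠ 0) :
    4 * (4 : ℝ) ^ l < |eps γ A B l| * (dgap l L q r * (4 : ℝ) ^ L) := by
  obtain ⟨hA, hB⟩ := hs
  obtain ⟨hb1, -, hcop, -⟩ := h l
  obtain ⟨hrl, hqL, hD⟩ := dgap_facts (r := r) hq l L
  have hB0 : (B l : ℤ) ≠ 0 := by exact_mod_cast (show B l ≠ 0 by omega)
  have hline : (B l : ℤ) * n + A l * ((red r q : ℤ) - red q r) = 0 := by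
    have h1 : (B l : ℤ) * ((B l : ℤ) * n + A l * ((red r q : ℤ) - red q r)) = 0 := by
      rw [← hc, coinForm, ← hA, ← hB]; ring
    exact (mul_eq_zero.1 h1).resolve_left hB0
  have hcopB : ∀ p : ℕ, p.Prime → p ∣ red q r ∨ p ∣ red r q → ¬ p ∣ B l := by
    intro p hp hor hpB
    have hpA : ¬ (p : ℤ) ∣ A l := fun hA' =>
      (Nat.prime_iff_prime_int.1 hp).not_isUnit (hcop.isUnit_of_dvd' hA' (Int.natCast_dvd_natCast.2 hpB))
    have hd : (p : ℤ) ∣ (red r q : ℤ) - red q r := by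
      have h2 : (p : ℤ) ∣ A l * ((red r q : ℤ) - red q r) := by
        have h3 : A l * ((red r q : ℤ) - red q r) = -((B l : ℤ) * n) := by linarith
        rw [h3]; exact (Dvd.dvd.mul_right (Int.natCast_dvd_natCast.2 hpB) _).neg_right
      exact ((Nat.prime_iff_prime_int.1 hp).dvd_mul.1 h2).resolve_left hpA
    rcases hor with h' | h'
    · refine not_both hq hp h' (Int.natCast_dvd_natCast.1 ?_)
      simpa using dvd_add hd (Int.natCast_dvd_natCast.2 h')
    · refine not_both hq hp (Int.natCast_dvd_natCast.1 ?_) h'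
      simpa using dvd_sub (Int.natCast_dvd_natCast.2 h') hd
  have hL1 : rhoLeft γ A B l q r n ≠ 0 := fun h0 => hrho (by simp [rho, h0])
  have hL2 : rhoLeft γ A B L r q (-n) ≠ 0 := fun h0 => hrho (by simp [rho, h0])
  have hside : red q r ≠ 1 ∨ red r q ≠ 1 := by
    by_contra hcon
    push Not at hcon
    apply hne
    have e1 := mul_red q r
    have e2 := mul_red r q
    rw [hcon.1, mul_one] at e1
    rw [hcon.2, mul_one, Nat.gcd_comm] at e2
    omega
  rcases hside with h1 | h1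
  · obtain ⟨p, hp, hpd⟩ := Nat.exists_prime_and_dvd h1
    have hmem : p ∈ (red q r).primeFactors := Nat.mem_primeFactors.2 ⟨hp, hpd, (red_pos hq).ne'⟩
    have hnd : ¬ Det γ A B l p := by
      intro hD'
      refine kill_left hL1 hmem hD' ?_
      have : (B l : ℤ) * n + A l * red r q = A l * red q r := by linear_combination hline
      rw [this]; exact (Int.natCast_dvd_natCast.2 hpd).mul_left _
    simp only [Det, not_and, not_le] at hnd
    refine (hnd (hcopB p hp (Or.inl hpd))).trans_le (mul_le_mul_of_nonneg_left ?_ (abs_nonneg _))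
    exact le_trans (by exact_mod_cast Nat.le_of_dvd (red_pos hq) hpd) hqL
  · obtain ⟨p, hp, hpd⟩ := Nat.exists_prime_and_dvd h1
    have hmem : p ∈ (red r q).primeFactors := Nat.mem_primeFactors.2 ⟨hp, hpd, (red_pos hr).ne'⟩
    have hnd : ¬ Det γ A B L p := by
      intro hD'
      refine kill_left hL2 hmem hD' ?_
      have : (B L : ℤ) * -n + A L * red q r = A L * red r q := by
        rw [← hA, ← hB]; linear_combination -hline
      rw [this]; exact (Int.natCast_dvd_natCast.2 hpd).mul_left _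
    simp only [Det, not_and, not_le] at hnd
    have hlt : 4 * (4 : ℝ) ^ L < |eps γ A B L| * p := hnd (hB ▸ hcopB p hp (Or.inr hpd))
    have he : eps γ A B L = eps γ A B l := by simp only [eps, hA, hB]
    rw [he] at hlt
    have h4 : (4 : ℝ) ^ l ≤ (4 : ℝ) ^ L := pow_le_pow_right₀ (by norm_num) hlL
    have hple : (p : ℝ) ≤ dgap l L q r * (4 : ℝ) ^ L :=
      le_trans (le_trans (by exact_mod_cast Nat.le_of_dvd (red_pos hr) hpd) hrl)
        (mul_le_mul_of_nonneg_left h4 hD.le)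
    linarith [mul_le_mul_of_nonneg_left hple (abs_nonneg (eps γ A B l))]

theorem kdiv_dvd_red (h : IsCls γ A B) {n : ℤ} (hc : coinForm A B l L q r n = 0) :
    kdiv B l L ∣ red q r := by
  obtain ⟨hb1, -, -, -⟩ := h l
  obtain ⟨-, -, hc', -⟩ := h L
  have h1 : (B L : ℤ) ∣ A L * ((B l : ℤ) * red q r) :=
    ⟨(B l : ℤ) * n + A l * red r q, by unfold coinForm at hc; linear_combination -hc⟩
  have h2 : B L ∣ B l * red q r := by
    have h3 := hc'.symm.dvd_of_dvd_mul_left h1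
    exact_mod_cast h3
  set g := Nat.gcd (B l) (B L) with hg
  have hg0 : 0 < g := Nat.gcd_pos_of_pos_left _ hb1
  have hk : B L / g * g = B L := Nat.div_mul_cancel (Nat.gcd_dvd_right _ _)
  have hb : B l / g * g = B l := Nat.div_mul_cancel (Nat.gcd_dvd_left _ _)
  have h4 : g * (B L / g) ∣ g * (B l / g * red q r) := by
    rw [← mul_assoc, mul_comm g (B l / g), hb, mul_comm g, hk]; exact h2
  exact (Nat.coprime_div_gcd_div_gcd hg0).symm.dvd_of_dvd_mul_left (Nat.dvd_of_mul_dvd_mul_left hg0 h4)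

/-- Pointwise bound for one value of `n`. -/
theorem rho_le : ∃ C : ℝ, 1 ≤ C ∧ ∀ (γ : ℝ) (A : ℕ → ℤ) (B : ℕ → ℕ), IsCls γ A B →
    ∀ l L q r : ℕ, 1 ≤ l → l ≤ L → 4 * L ≤ 5 * l → 0 < q → 0 < r → q ≠ r →
    ∀ n ∈ nRange γ l L q r, rho γ A B l L q r n ≤ C * lgD L (dgap l L q r) ^ (24 : ℕ) +
      (if coinForm A B l L q r n = 0 then
        C * bigD L (dgap l L q r) ^ (24 : ℕ) * (if KEv A B l L (red q r) then 1 else 0) else 0) := by
  obtain ⟨C₁, hC₁, htail⟩ := pf_tail_le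
  obtain ⟨C₂, hC₂, hrange⟩ := range_ratio_le
  set K := max (C₁ * 6 ^ 8) (C₂ * 9 ^ 8) with hK
  have hK1 : 1 ≤ K := le_trans (one_le_mul_of_one_le_of_one_le hC₁ (by norm_num)) (le_max_left _ _)
  refine ⟨K ^ 3, one_le_pow₀ hK1, fun γ A B hcls l L q r hl hlL h45 hq hr hne n hn => ?_⟩
  have hL : 1 ≤ L := hl.trans hlL
  obtain ⟨hrl, hqL, hD⟩ := dgap_facts (r := r) hq l L
  set D := dgap l L q r with hDdef
  have hlg := lgD_ge_one (L := L) hD.le
  have hY := bigD_ge_one hL hD.le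
  obtain ⟨hs1, hs2, hs3⟩ := log_sizes hcls hlL hL hq hr
  have hpf : ∀ (M : ℕ) (U : Finset ℕ), 1 ≤ M → log (M : ℝ) ≤ 4 * bigD L D → U ⊆ M.primeFactors →
      ∏ p ∈ U, ((p : ℝ) / (p - 1)) ≤ C₁ * (1 + log (1 + 4 * bigD L D)) ^ (8 : ℕ) := by
    intro M U hM hlog hU
    refine (htail M 0 (4 * bigD L D) U hM (by linarith) hlog hU
      (fun p hp => (Nat.prime_of_mem_primeFactors (hU hp)).pos)).trans ?_
    have : 0 ≤ log (1 + 4 * bigD L D) := log_nonneg (by linarith)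
    simp only [Nat.cast_zero, zero_add, log_one, add_zero, div_one]
    rw [max_eq_right (by linarith)]
  have hsmallY : 1 + log (1 + 4 * bigD L D) ≤ 6 * bigD L D := by
    have := log_le_sub_one_of_pos (show (0 : ℝ) < 1 + 4 * bigD L D by linarith); linarith
  have hsmallg : 1 + log (1 + 4 * bigD L D) ≤ 6 * lgD L D := by
    linarith [log_bigD_le hL hD.le]
  have hlog0 : 0 ≤ 1 + log (1 + 4 * bigD L D) := by
    linarith [log_nonneg (show (1 : ℝ) ≤ 1 + 4 * bigD L D by linarith)]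
  have hKto : ∀ z : ℝ, 1 + log (1 + 4 * bigD L D) ≤ 6 * z →
      ∀ (M : ℕ) (U : Finset ℕ), 1 ≤ M → log (M : ℝ) ≤ 4 * bigD L D → U ⊆ M.primeFactors →
      ∏ p ∈ U, ((p : ℝ) / (p - 1)) ≤ K * z ^ (8 : ℕ) := by
    intro z hz M U hM hlog hU
    refine (hpf M U hM hlog hU).trans ?_
    refine (mul_le_mul_of_nonneg_left (pow_le_pow_left₀ hlog0 hz 8) (by linarith)).trans ?_
    rw [mul_pow, ← mul_assoc]
    exact mul_le_mul_of_nonneg_right (le_max_left _ _)
      ((pow_nonneg (by linarith : (0 : ℝ) ≤ z) 8))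
  have hboth : ∀ b : ℕ, ∀ z : ℝ, (∀ p ∈ bothSet γ A B l L q r, p ≤ b) → 1 + log (b : ℝ) ≤ 9 * z →
      rhoBoth γ A B l L q r n ≤ K * z ^ (8 : ℕ) := by
    intro b z hb hz
    rw [rhoBoth_eq]
    refine (hrange 0 b _ (Nat.zero_le _) fun p hp => ?_).trans ?_
    · have hp' := (Finset.mem_filter.1 hp).1
      have hpr := Nat.prime_of_mem_primeFactors (Finset.mem_filter.1 hp').1
      exact ⟨hpr, hpr.pos, hb p hp'⟩
    have h0 : 0 ≤ log (b : ℝ) := log_natCast_nonneg b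
    simp only [Nat.cast_zero, zero_add, log_one, add_zero, div_one]
    refine (mul_le_mul_of_nonneg_left (pow_le_pow_left₀ (by linarith) hz 8) (by linarith)).trans ?_
    rw [mul_pow, ← mul_assoc]
    exact mul_le_mul_of_nonneg_right (le_max_right _ _) ((pow_nonneg (by linarith : (0 : ℝ) ≤ z) 8))
  have hnn : (0 : ℝ) ≤ if coinForm A B l L q r n = 0 then
      K ^ 3 * bigD L D ^ (24 : ℕ) * (if KEv A B l L (red q r) then 1 else 0) else 0 := by
    split_ifs <;> positivity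
  have hneg : ∀ z : ℝ, rhoLeft γ A B l q r n ≤ K * z ^ (8 : ℕ) →
      rhoLeft γ A B L r q (-n) ≤ K * z ^ (8 : ℕ) → rhoBoth γ A B l L q r n ≤ K * z ^ (8 : ℕ) →
      rho γ A B l L q r n ≤ K ^ 3 * z ^ (24 : ℕ) := by
    intro z h1 h2 h3
    refine (rho_le_of_bounds h1 h2 h3).trans_eq ?_
    ring
  have hleft : ∀ z : ℝ, 1 + log (1 + 4 * bigD L D) ≤ 6 * z →
      rhoLeft γ A B l q r n ≤ K * z ^ (8 : ℕ) ∧ rhoLeft γ A B L r q (-n) ≤ K * z ^ (8 : ℕ) :=
    fun z hz => ⟨(rhoLeft_le _ _ _ _).trans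
        (hKto z hz _ _ (red_pos hq) hs1 (Finset.filter_subset _ _)),
      (rhoLeft_le _ _ _ _).trans (hKto z hz _ _ (red_pos hr) hs2 (Finset.filter_subset _ _))⟩
  by_cases hc : coinForm A B l L q r n = 0
  swap
  · refine (hneg _ (hleft _ hsmallg).1 (hleft _ hsmallg).2 ?_).trans (by linarith)
    rw [rhoBoth_eq]
    refine hKto _ hsmallg _ _ (Int.natAbs_pos.2 hc) (hs3 n hn hc) fun p hp => ?_
    obtain ⟨hp1, hp2⟩ := Finset.mem_filter.1 hp
    exact Nat.mem_primeFactors.2 ⟨Nat.prime_of_mem_primeFactors (Finset.mem_filter.1 hp1).1,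
      Int.natCast_dvd.1 hp2, Int.natAbs_ne_zero.2 hc⟩
  obtain ⟨hB1, hB2, he⟩ := cls_real hcls l
  obtain ⟨hB1', hB2', he'⟩ := cls_real hcls L
  have hl4 : log (4 : ℝ) ≤ 3 / 2 := by
    rw [show (4 : ℝ) = 2 ^ (2 : ℕ) by norm_num, log_pow]; push_cast
    linarith [log_two_lt_d9]
  by_cases hs : SameCls A B l L
  · by_cases h0 : rho γ A B l L q r n = 0
    · rw [h0]; positivity
    have hsurv := coin_zero_same hcls hlL hq hr hne hs hc h0
    rw [← hDdef] at hsurv
    refine (hneg _ (hleft _ hsmallg).1 (hleft _ hsmallg).2 ?_).trans (by linarith)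
    have heL : |eps γ A B l| < ((2 : ℝ) ^ L)⁻¹ := by
      have : eps γ A B l = eps γ A B L := by simp only [eps, hs.1, hs.2]
      rw [this]; exact he'
    have h2L : (0 : ℝ) < (2 : ℝ) ^ L := by positivity
    have hD2 : 4 * (4 : ℝ) ^ l < D * (2 : ℝ) ^ L := by
      refine hsurv.trans_le ((mul_le_mul_of_nonneg_right heL.le (by positivity)).trans_eq ?_)
      rw [four_pow_eq L]; field_simp
    have hLlog : (L : ℝ) ≤ 3 * log (2 + D) := by
      have h1 : log (4 * (4 : ℝ) ^ l) ≤ log ((2 + D) * (2 : ℝ) ^ L) :=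
        log_le_log (by positivity) (hD2.le.trans (mul_le_mul_of_nonneg_right (by linarith) h2L.le))
      rw [log_mul (by norm_num) (by positivity), log_mul (by linarith) h2L.ne', log_pow, log_pow,
        show log (4 : ℝ) = 2 * log 2 by
          rw [show (4 : ℝ) = 2 ^ (2 : ℕ) by norm_num, log_pow]; norm_num] at h1
      have h45' : 4 * (L : ℝ) ≤ 5 * l := by exact_mod_cast h45
      nlinarith [log_two_gt_d9]
    refine hboth ⌊D * (4 : ℝ) ^ L⌋₊ (lgD L D) (fun p hp => ?_) ?_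
    · obtain ⟨hp1, hdet, -, -, -⟩ := Finset.mem_filter.1 hp
      refine Nat.le_floor ?_
      have hepos : 0 < |eps γ A B l| := by
        by_contra hh
        have : |eps γ A B l| = 0 := le_antisymm (not_lt.1 hh) (abs_nonneg _)
        rw [this, zero_mul] at hsurv
        linarith [show (0 : ℝ) < 4 * (4 : ℝ) ^ l by positivity]
      refine le_of_mul_le_mul_left ?_ hepos
      exact hdet.2.trans hsurv.le
    · have hfl := Nat.floor_le (show 0 ≤ D * (4 : ℝ) ^ L by positivity)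
      have h0L : 0 ≤ log ((L : ℝ) + 1) := log_nonneg (by linarith [(Nat.cast_nonneg L : (0 : ℝ) ≤ _)])
      have h2D : 0 ≤ log (2 + D) := log_nonneg (by linarith)
      rcases Nat.eq_zero_or_pos ⌊D * (4 : ℝ) ^ L⌋₊ with hz | hz
      · rw [hz, Nat.cast_zero, log_zero]; unfold lgD; linarith
      have h1 : log (⌊D * (4 : ℝ) ^ L⌋₊ : ℝ) ≤ log ((2 + D) * (4 : ℝ) ^ L) :=
        log_le_log (by exact_mod_cast hz)
          (hfl.trans (mul_le_mul_of_nonneg_right (by linarith) (by positivity)))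
      rw [log_mul (by linarith) (by positivity), log_pow] at h1
      have h4 : 0 ≤ log (4 : ℝ) := log_nonneg (by norm_num)
      unfold lgD; nlinarith
  · obtain ⟨-, -, -, heps⟩ := cls_diff hcls hlL hs
    have hkev : KEv A B l L (red q r) := ⟨hs, kdiv_dvd_red hcls hc⟩
    rw [if_pos hc, if_pos hkev, mul_one]
    refine (hneg _ (hleft _ hsmallY).1 (hleft _ hsmallY).2 ?_).trans
      (le_add_of_nonneg_left (by positivity))
    refine hboth (8 ^ (L + 1)) (bigD L D) (fun p hp => ?_) ?_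
    · obtain ⟨hp1, hdet, -, -, -⟩ := Finset.mem_filter.1 hp
      have hB0 : (0 : ℝ) < B L := by linarith
      have h3 : (B L : ℝ)⁻¹ / 2 * p ≤ 4 * (4 : ℝ) ^ l :=
        (mul_le_mul_of_nonneg_right heps (Nat.cast_nonneg p)).trans hdet.2
      have h4 : (p : ℝ) ≤ 8 * (4 : ℝ) ^ L * (2 : ℝ) ^ L := by
        have h5 : (p : ℝ) = (B L : ℝ)⁻¹ / 2 * p * (2 * B L) := by field_simp
        rw [h5]
        refine (mul_le_mul h3 (mul_le_mul_of_nonneg_left hB2' zero_le_two) (by positivity)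
          (by positivity)).trans ?_
        have h6 : (4 : ℝ) ^ l ≤ (4 : ℝ) ^ L := pow_le_pow_right₀ (by norm_num) hlL
        nlinarith [show (0 : ℝ) < (2 : ℝ) ^ L by positivity]
      have h7 : (8 : ℝ) * (4 : ℝ) ^ L * (2 : ℝ) ^ L = ((8 ^ (L + 1) : ℕ) : ℝ) := by
        push_cast; rw [pow_succ, mul_assoc, ← mul_pow]; norm_num; ring
      rw [h7] at h4; exact_mod_cast h4
    · push_cast
      rw [log_pow]
      have h8 : log (8 : ℝ) = 3 * log 2 := by
        rw [show (8 : ℝ) = 2 ^ (3 : ℕ) by norm_num, log_pow]; norm_num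
      have h2D : 0 ≤ log (2 + D) := log_nonneg (by linarith)
      have hL1 : (1 : ℝ) ≤ L := by exact_mod_cast hL
      rw [h8]; push_cast; unfold bigD; nlinarith [log_two_lt_d9]

theorem card_coin_zero (h : IsCls γ A B) (S : Finset ℤ) :
    (S.filter (fun n => coinForm A B l L q r n = 0)).card ≤ 1 := by
  refine Finset.card_le_one.2 fun x hx y hy => ?_
  have h1 := (Finset.mem_filter.1 hx).2
  have h2 := (Finset.mem_filter.1 hy).2
  simp only [coinForm] at h1 h2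
  have hb : (B l : ℤ) * B L ≠ 0 := by
    have := (h l).1; have := (h L).1
    exact mul_ne_zero (by exact_mod_cast (show B l ≠ 0 by omega))
      (by exact_mod_cast (show B L ≠ 0 by omega))
  exact mul_left_cancel₀ hb (by linarith)

/-- Sum over a window, with the exceptional value separated. -/
theorem sum_rho_le (h : IsCls γ A B) (S : Finset ℤ) {E : ℝ} (hE : 0 ≤ E) :
    ∑ n ∈ S, (if coinForm A B l L q r n = 0 then E else 0) ≤ E := by
  rw [← Finset.sum_filter, Finset.sum_const, nsmul_eq_mul]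
  refine (mul_le_mul_of_nonneg_right ?_ hE).trans_eq (one_mul E)
  exact_mod_cast card_coin_zero h S

theorem rhoSum_le : ∃ C : ℝ, 1 ≤ C ∧ ∀ (γ : ℝ) (A : ℕ → ℤ) (B : ℕ → ℕ), IsCls γ A B →
    ∀ l L q r : ℕ, 1 ≤ l → l ≤ L → 4 * L ≤ 5 * l → 0 < q → 0 < r → q ≠ r →
    rhoSum γ A B l L q r ≤ C * (1 + dgap l L q r) * lgD L (dgap l L q r) ^ (24 : ℕ) +
      C * bigD L (dgap l L q r) ^ (24 : ℕ) * (if KEv A B l L (red q r) then 1 else 0) := by
  obtain ⟨C, hC, hrho⟩ := rho_le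
  refine ⟨4 * C, by linarith, fun γ A B h l L q r hl hlL h45 hq hr hne => ?_⟩
  have hD := (dgap_facts (r := r) hq l L).2.2
  have hlg := lgD_ge_one (L := L) hD.le
  have hY := bigD_ge_one (hl.trans hlL) hD.le
  refine (Finset.sum_le_sum (hrho γ A B h l L q r hl hlL h45 hq hr hne)).trans ?_
  rw [Finset.sum_add_distrib, Finset.sum_const, nsmul_eq_mul]
  refine add_le_add ?_ ((sum_rho_le h _ (by positivity)).trans ?_)
  · have hcard : ((nRange γ l L q r).card : ℝ) ≤ 4 * dgap l L q r / ((1 : ℕ) : ℝ) + 1 :=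
      card_le_of_dvd_sub _ le_rfl (by positivity) (fun x _ y _ => by simp)
        fun x hx y hy => nRange_width hx hy
    rw [Nat.cast_one, div_one] at hcard
    refine (mul_le_mul_of_nonneg_right hcard (by positivity)).trans ?_
    have h0 : 0 ≤ C * lgD L (dgap l L q r) ^ (24 : ℕ) := by positivity
    nlinarith
  · refine mul_le_mul_of_nonneg_right (mul_le_mul_of_nonneg_right ?_ (by positivity)) ?_
    · linarith
    · split <;> norm_num

theorem anat : AnatStmt := by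
  obtain ⟨C, hC, hsum⟩ := rhoSum_le
  refine ⟨24, C, fun γ A B h l L q r hl hlL h45 hq hr hne => ⟨fun hs => ?_, ?_, fun hD8 hnz => ?_⟩⟩
  · obtain ⟨h1, h2, h3, -⟩ := cls_diff h hlL hs
    exact ⟨h1, h2, h3⟩
  · exact hsum γ A B h l L q r hl hlL h45 hq hr hne
  obtain ⟨n, hn, hrho⟩ := Finset.exists_ne_zero_of_sum_ne_zero hnz
  obtain ⟨hrl, hqL, hD⟩ := dgap_facts (r := r) hq l L
  set D := dgap l L q r with hDdef
  obtain ⟨hB1', hB2', he'⟩ := cls_real h L
  have hnb := nRange_bound hn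
  rw [← hDdef] at hnb
  have h2L : (0 : ℝ) < (2 : ℝ) ^ L := by positivity
  by_cases hm : (B L : ℤ) * n + A L * ((red r q : ℤ) - red q r) = 0
  · refine Or.inr ?_
    have hL2 : rhoLeft γ A B L r q (-n) ≠ 0 := fun h0 => hrho (by simp [rho, h0])
    obtain ⟨hb1', -, hc', -⟩ := h L
    have hcopB : ∀ p : ℕ, p.Prime → p ∣ red r q ∨ p ∣ red q r → ¬ p ∣ B L := by
      intro p hp hor hpB
      have hpA : ¬ (p : ℤ) ∣ A L := fun hA' =>
        (Nat.prime_iff_prime_int.1 hp).not_isUnit (hc'.isUnit_of_dvd' hA' (Int.natCast_dvd_natCast.2 hpB))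
      have hd : (p : ℤ) ∣ (red r q : ℤ) - red q r := by
        have h2 : (p : ℤ) ∣ A L * ((red r q : ℤ) - red q r) := by
          have h3 : A L * ((red r q : ℤ) - red q r) = -((B L : ℤ) * n) := by linarith
          rw [h3]; exact (Dvd.dvd.mul_right (Int.natCast_dvd_natCast.2 hpB) _).neg_right
        exact ((Nat.prime_iff_prime_int.1 hp).dvd_mul.1 h2).resolve_left hpA
      rcases hor with h' | h'
      · refine not_both hq hp (Int.natCast_dvd_natCast.1 ?_) h'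
        simpa using dvd_sub (Int.natCast_dvd_natCast.2 h') hd
      · refine not_both hq hp h' (Int.natCast_dvd_natCast.1 ?_)
        simpa using dvd_add hd (Int.natCast_dvd_natCast.2 h')
    have hr1 : red r q = 1 := by
      by_contra h1
      obtain ⟨p, hp, hpd⟩ := Nat.exists_prime_and_dvd h1
      have hmem : p ∈ (red r q).primeFactors := Nat.mem_primeFactors.2 ⟨hp, hpd, (red_pos hr).ne'⟩
      refine kill_left hL2 hmem ⟨hcopB p hp (Or.inl hpd), ?_⟩ ?_
      · have hple : (p : ℝ) ≤ D * (4 : ℝ) ^ l :=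
          le_trans (by exact_mod_cast Nat.le_of_dvd (red_pos hr) hpd) hrl
        refine (mul_le_mul he'.le hple (Nat.cast_nonneg _) (by positivity)).trans ?_
        have h4 : (4 : ℝ) ^ l ≤ (4 : ℝ) ^ L := pow_le_pow_right₀ (by norm_num) hlL
        have h5 : ((2 : ℝ) ^ L)⁻¹ ≤ 1 := inv_le_one_of_one_le₀ (one_le_pow₀ (by norm_num))
        have h6 : (0 : ℝ) < (4 : ℝ) ^ l := by positivity
        nlinarith [mul_le_mul_of_nonneg_right h5 (mul_nonneg hD.le h6.le)]
      · have : (B L : ℤ) * -n + A L * red q r = A L * red r q := by linear_combination -hm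
        rw [this]; exact (Int.natCast_dvd_natCast.2 hpd).mul_left _
    have hq1 : red q r ≠ 1 := by
      intro h1
      apply hne
      have e1 := mul_red q r
      have e2 := mul_red r q
      rw [h1, mul_one] at e1
      rw [hr1, mul_one, Nat.gcd_comm] at e2
      omega
    refine ⟨?_, hr1, hq1, ?_⟩
    · intro hs
      have hc0 : coinForm A B l L q r n = 0 := by
        rw [coinForm, hs.1, hs.2]; linear_combination (B L : ℤ) * hm
      have hsurv := coin_zero_same h hlL hq hr hne hs hc0 hrho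
      rw [← hDdef] at hsurv
      have he : eps γ A B l = eps γ A B L := by simp only [eps, hs.1, hs.2]
      rw [he] at hsurv
      have h1 : |eps γ A B L| * (D * (4 : ℝ) ^ L) ≤ D * (2 : ℝ) ^ L := by
        refine (mul_le_mul_of_nonneg_right he'.le (by positivity)).trans_eq ?_
        rw [four_pow_eq L]; field_simp
      have h2 : (2 : ℝ) ^ L ≤ (4 : ℝ) ^ l := by
        rw [show (4 : ℝ) = 2 ^ 2 by norm_num, ← pow_mul]
        exact pow_le_pow_right₀ (by norm_num) (by omega)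
      nlinarith
    · have h1 : (B L : ℤ) ∣ A L * ((red q r : ℤ) - 1) :=
        ⟨n, by rw [hr1] at hm; push_cast at hm; linarith⟩
      exact hc'.symm.dvd_of_dvd_mul_left h1
  · refine Or.inl ⟨n, hnb, hm, ?_⟩
    have h1 : (1 : ℝ) ≤ |(((B L : ℤ) * n + A L * ((red r q : ℤ) - red q r) : ℤ) : ℝ)| := by
      rw [← Int.cast_abs]; exact Int.cast_one_le_of_pos (abs_pos.2 hm)
    have hid : (((B L : ℤ) * n + A L * ((red r q : ℤ) - red q r) : ℤ) : ℝ) =
        (B L : ℝ) * (n + γ * ((red r q : ℝ) - red q r)) - eps γ A B L * ((red r q : ℝ) - red q r) := by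
      simp only [eps]; push_cast; ring
    rw [hid] at h1
    have hd : |(red r q : ℝ) - red q r| ≤ D * (4 : ℝ) ^ L := by
      have h4 : D * (4 : ℝ) ^ l ≤ D * (4 : ℝ) ^ L :=
        mul_le_mul_of_nonneg_left (pow_le_pow_right₀ (by norm_num) hlL) hD.le
      rw [abs_le]
      constructor <;> linarith [(Nat.cast_nonneg (red r q) : (0 : ℝ) ≤ _),
        (Nat.cast_nonneg (red q r) : (0 : ℝ) ≤ _)]
    have h5 := h1.trans (abs_sub _ _)
    rw [abs_mul, abs_mul, Nat.abs_cast] at h5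
    have h6 : (B L : ℝ) * |(n : ℝ) + γ * ((red r q : ℝ) - red q r)| ≤ (2 : ℝ) ^ L * (2 * D) :=
      mul_le_mul hB2' hnb (abs_nonneg _) h2L.le
    have h7 : |eps γ A B L| * |(red r q : ℝ) - red q r| ≤ D * (2 : ℝ) ^ L := by
      refine (mul_le_mul he'.le hd (abs_nonneg _) (by positivity)).trans_eq ?_
      rw [four_pow_eq L]; field_simp
    rw [inv_le_iff_one_le_mul₀ h2L]
    linarith

/-- The range of the primes averaged over `n`. -/
noncomputable def ycut (D₀ : ℝ) : ℕ := ⌊log D₀ / 4⌋₊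

theorem lgD_le_log {L : ℕ} {η D₀ : ℝ} (hL : 1 ≤ L) (hη : 0 < η) (hD₀ : 1 ≤ D₀)
    (hLD : (L : ℝ) ^ η ≤ D₀) : lgD L D₀ ≤ (4 + η⁻¹) * (1 + log D₀) := by
  have hL1 : (1 : ℝ) ≤ L := by exact_mod_cast hL
  have hlD : 0 ≤ log D₀ := log_nonneg hD₀
  have h1 := log_le_log (by positivity) hLD
  rw [log_rpow (by linarith), mul_comm, ← le_div_iff₀ hη, div_eq_inv_mul] at h1
  have h2 : log ((L : ℝ) + 1) ≤ log 2 + log L := by
    rw [← log_mul (by norm_num) (by linarith)]; exact log_le_log (by linarith) (by linarith)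
  have h3 : log (2 + D₀) ≤ log 3 + log D₀ := by
    rw [← log_mul (by norm_num) (by linarith)]; exact log_le_log (by linarith) (by linarith)
  have h4 : log (3 : ℝ) ≤ 2 := by
    have := log_le_sub_one_of_pos (show (0 : ℝ) < 3 by norm_num); linarith
  have h5 : 0 < η⁻¹ := by positivity
  unfold lgD; nlinarith [log_two_lt_d9]

/-- Primes beyond `ycut` of a number without an exceptional number of large prime divisors. -/
theorem tail_le (η : ℝ) (hη : 0 < η) : ∃ C : ℝ, 1 ≤ C ∧ ∀ (D₀ : ℝ) (L M : ℕ) (U : Finset ℕ),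
    1 ≤ D₀ → 1 ≤ L → (L : ℝ) ^ η ≤ D₀ → 1 ≤ M → log (M : ℝ) ≤ 4 * bigD L D₀ → U ⊆ M.primeFactors →
    (∀ p ∈ U, ycut D₀ < p) → ¬ Ev D₀ M → ∏ p ∈ U, ((p : ℝ) / (p - 1)) ≤ C := by
  obtain ⟨C₁, hC₁, htail⟩ := pf_tail_le
  obtain ⟨C₂, hC₂, hrange⟩ := range_ratio_le
  set K := 4 + η⁻¹ with hK
  have hK4 : 4 ≤ K := by have : 0 < η⁻¹ := (by positivity); linarith
  refine ⟨C₂ * 161 ^ 8 * exp 1 * (C₁ * (3 * K) ^ 8), ?_, ?_⟩
  · exact one_le_mul_of_one_le_of_one_le (one_le_mul_of_one_le_of_one_le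
      (one_le_mul_of_one_le_of_one_le hC₂ (by norm_num)) (one_le_exp zero_le_one))
      (one_le_mul_of_one_le_of_one_le hC₁ (one_le_pow₀ (by linarith)))
  intro D₀ L M U hD₀ hL hLD hM hlog hU hyU hev
  have hlD : 0 ≤ log D₀ := log_nonneg hD₀
  have hyt : 1 ≤ ytail D₀ := one_le_pow₀ (by linarith)
  have hU' : ∀ p ∈ U, p.Prime := fun p hp => Nat.prime_of_mem_primeFactors (hU hp)
  set y := ycut D₀ with hy
  set Y₁ := max y ⌊ytail D₀⌋₊ with hY₁
  have hpos : ∀ V ⊆ U, (0 : ℝ) ≤ ∏ p ∈ V, ((p : ℝ) / (p - 1)) := fun V hV =>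
    Finset.prod_nonneg fun p hp => zero_le_one.trans (ratio_ge_one (hU' p (hV hp)))
  rw [← Finset.prod_filter_mul_prod_filter_not U (fun p => p ≤ Y₁),
    ← Finset.prod_filter_mul_prod_filter_not (U.filter fun p => ¬ p ≤ Y₁) (fun p => p ≤ ⌊D₀⌋₊)]
  have hlow : ∏ p ∈ U.filter (fun p => p ≤ Y₁), ((p : ℝ) / (p - 1)) ≤ C₂ * 161 ^ 8 := by
    refine (hrange y Y₁ _ (le_max_left _ _) fun p hp => ?_).trans ?_
    · obtain ⟨h1, h2⟩ := Finset.mem_filter.1 hp
      exact ⟨hU' p h1, hyU p h1, h2⟩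
    have hy1 : log D₀ < 4 * ((y : ℝ) + 1) := by
      have := Nat.lt_floor_add_one (log D₀ / 4)
      rw [hy, ycut]; linarith
    have hly : 0 ≤ log ((y : ℝ) + 1) := log_nonneg (by linarith [(Nat.cast_nonneg y : (0 : ℝ) ≤ _)])
    have hlY : 0 ≤ log (Y₁ : ℝ) := log_natCast_nonneg _
    refine mul_le_mul_of_nonneg_left (pow_le_pow_left₀ (by positivity) ?_ 8) (by linarith)
    rw [div_le_iff₀ (by linarith)]
    rcases le_total y ⌊ytail D₀⌋₊ with h | h
    · have hfl : (Y₁ : ℝ) ≤ ytail D₀ := by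
        rw [hY₁, max_eq_right h]; exact Nat.floor_le (by linarith)
      have h1 : log (Y₁ : ℝ) ≤ log (ytail D₀) := by
        rcases Nat.eq_zero_or_pos Y₁ with hz | hz
        · rw [hz, Nat.cast_zero, log_zero]; exact log_nonneg hyt
        · exact log_le_log (by exact_mod_cast hz) hfl
      rw [ytail, log_pow] at h1
      have h2 : log (1 + log D₀) ≤ log 5 + log ((y : ℝ) + 1) := by
        rw [← log_mul (by norm_num) (by positivity)]
        exact log_le_log (by linarith) (by linarith [(Nat.cast_nonneg y : (0 : ℝ) ≤ _)])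
      have h3 : log (5 : ℝ) ≤ 2 := by
        rw [log_le_iff_le_exp (by norm_num)]
        have h : exp (2 : ℝ) = exp 1 * exp 1 := by rw [← exp_add]; norm_num
        rw [h]; nlinarith [exp_one_gt_d9]
      push_cast at h1
      linarith
    · have h1 : log (Y₁ : ℝ) ≤ log ((y : ℝ) + 1) := by
        rcases Nat.eq_zero_or_pos Y₁ with hz | hz
        · rw [hz, Nat.cast_zero, log_zero]; exact hly
        · refine log_le_log (by exact_mod_cast hz) ?_
          rw [hY₁, max_eq_left h]; linarith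
      linarith
  have hmid : ∏ p ∈ (U.filter fun p => ¬ p ≤ Y₁).filter (fun p => p ≤ ⌊D₀⌋₊),
      ((p : ℝ) / (p - 1)) ≤ exp 1 := by
    refine (prod_ratio_le_exp fun p hp =>
      hU' p (Finset.mem_filter.1 (Finset.mem_filter.1 hp).1).1).trans (exp_le_exp.2 ?_)
    have hs : ∑ p ∈ (U.filter fun p => ¬ p ≤ Y₁).filter (fun p => p ≤ ⌊D₀⌋₊), (p : ℝ)⁻¹ ≤
        ∑ p ∈ (evPrimes D₀).filter (fun p => p ∣ M), (p : ℝ)⁻¹ := by
      refine Finset.sum_le_sum_of_subset_of_nonneg (fun p hp => ?_) (fun p _ _ => by positivity)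
      simp only [Finset.mem_filter, not_le] at hp
      obtain ⟨⟨h1, h2⟩, h3⟩ := hp
      refine Finset.mem_filter.2 ⟨?_, Nat.dvd_of_mem_primeFactors (hU h1)⟩
      rw [evPrimes, Finset.mem_filter, Finset.mem_range]
      exact ⟨by omega, hU' p h1, Nat.lt_of_floor_lt (lt_of_le_of_lt (le_max_right _ _) h2)⟩
    have hev' := not_lt.1 hev
    linarith
  have hhigh : ∏ p ∈ (U.filter fun p => ¬ p ≤ Y₁).filter (fun p => ¬ p ≤ ⌊D₀⌋₊),
      ((p : ℝ) / (p - 1)) ≤ C₁ * (3 * K) ^ 8 := by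
    have hY := bigD_ge_one hL (zero_le_one.trans hD₀)
    refine (htail M ⌊D₀⌋₊ (4 * bigD L D₀) _ hM (by linarith) hlog
      (((Finset.filter_subset _ _).trans (Finset.filter_subset _ _)).trans hU)
      (fun p hp => not_le.1 (Finset.mem_filter.1 hp).2)).trans ?_
    refine mul_le_mul_of_nonneg_left
      (pow_le_pow_left₀ (zero_le_one.trans (le_max_left _ _)) (max_le (by linarith) ?_) 8)
      (by linarith)
    have hfl : log D₀ ≤ log ((⌊D₀⌋₊ : ℝ) + 1) :=
      log_le_log (by linarith) (Nat.lt_floor_add_one D₀).le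
    rw [div_le_iff₀ (by linarith)]
    have := log_bigD_le hL (zero_le_one.trans hD₀)
    have := lgD_le_log hL hη hD₀ hLD
    have h0 := mul_le_mul_of_nonneg_left (add_le_add_left hfl 1) (show 0 ≤ 3 * K by linarith)
    rw [hK] at h0 ⊢
    linarith
  refine (mul_le_mul hlow (mul_le_mul hmid hhigh ?_ (exp_pos 1).le) ?_ (by positivity)).trans_eq ?_
  · exact hpos _ ((Finset.filter_subset _ _).trans (Finset.filter_subset _ _))
  · exact mul_nonneg (hpos _ ((Finset.filter_subset _ _).trans (Finset.filter_subset _ _)))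
      (hpos _ ((Finset.filter_subset _ _).trans (Finset.filter_subset _ _)))
  · ring

/-- The product of the small factors is a class product with bounded period and average. -/
theorem small_part (γ : ℝ) (A : ℕ → ℤ) (B : ℕ → ℕ) (l L : ℕ) {q : ℕ} (hq : 0 < q) (r y : ℕ) :
    ∃ (e : ℕ → ℤ) (u v : ℕ → ℝ),
      (∀ p ∈ (Finset.range (y + 1)).filter Nat.Prime, 0 ≤ u p ∧ 0 ≤ v p) ∧
      (∀ p ∈ (Finset.range (y + 1)).filter Nat.Prime,
        u p + ((p : ℝ) - 1) * v p ≤ (p : ℝ) * exp (1 / ((p : ℝ) * (p - 1)))) ∧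
      ∀ n : ℤ, classProd ((Finset.range (y + 1)).filter Nat.Prime) e u v n =
        (∏ p ∈ ((red q r).primeFactors.filter (fun p => Det γ A B l p)).filter (fun p => p ≤ y),
          if (p : ℤ) ∣ (B l : ℤ) * n + A l * red r q then 0 else (p : ℝ) / (p - 1)) *
        (∏ p ∈ ((red r q).primeFactors.filter (fun p => Det γ A B L p)).filter (fun p => p ≤ y),
          if (p : ℤ) ∣ (B L : ℤ) * -n + A L * red q r then 0 else (p : ℝ) / (p - 1)) *
        ∏ p ∈ (bothSet γ A B l L q r).filter (fun p => p ≤ y),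
          if (p : ℤ) ∣ coinForm A B l L q r n then (p : ℝ) / (p - 1) else 1 := by
  set S₁ := (red q r).primeFactors.filter (fun p => Det γ A B l p) with hS₁
  set S₂ := (red r q).primeFactors.filter (fun p => Det γ A B L p) with hS₂
  set S₃ := bothSet γ A B l L q r with hS₃
  have hm₁ : ∀ p ∈ S₁, p.Prime ∧ p ∣ red q r ∧ ¬ p ∣ B l := fun p hp => by
    obtain ⟨h1, h2⟩ := Finset.mem_filter.1 hp
    exact ⟨Nat.prime_of_mem_primeFactors h1, Nat.dvd_of_mem_primeFactors h1, h2.1⟩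
  have hm₂ : ∀ p ∈ S₂, p.Prime ∧ p ∣ red r q ∧ ¬ p ∣ B L := fun p hp => by
    obtain ⟨h1, h2⟩ := Finset.mem_filter.1 hp
    exact ⟨Nat.prime_of_mem_primeFactors h1, Nat.dvd_of_mem_primeFactors h1, h2.1⟩
  have hm₃ : ∀ p ∈ S₃, p.Prime ∧ ¬ p ∣ red q r ∧ ¬ p ∣ red r q ∧ ¬ p ∣ B l * B L := fun p hp => by
    obtain ⟨h1, h2, h3, h4, h5⟩ := Finset.mem_filter.1 hp
    have hpr := Nat.prime_of_mem_primeFactors h1
    exact ⟨hpr, h4, h5, fun hh => (hpr.dvd_mul.1 hh).elim h2.1 h3.1⟩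
  have h12 : ∀ p ∈ S₁, p ∉ S₂ := fun p hp hp' => not_both hq (hm₁ p hp).1 (hm₁ p hp).2.1 (hm₂ p hp').2.1
  have h13 : ∀ p ∈ S₁, p ∉ S₃ := fun p hp hp' => (hm₃ p hp').2.1 (hm₁ p hp).2.1
  have h23 : ∀ p ∈ S₂, p ∉ S₃ := fun p hp hp' => (hm₃ p hp').2.2.1 (hm₂ p hp).2.1
  have hex : ∀ p : ℕ, ∃ c : ℤ,
      (p ∈ S₁ → ∀ n : ℤ, (p : ℤ) ∣ (B l : ℤ) * n + A l * red r q ↔ (p : ℤ) ∣ n - c) ∧
      (p ∈ S₂ → ∀ n : ℤ, (p : ℤ) ∣ (B L : ℤ) * -n + A L * red q r ↔ (p : ℤ) ∣ n - c) ∧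
      (p ∈ S₃ → ∀ n : ℤ, (p : ℤ) ∣ coinForm A B l L q r n ↔ (p : ℤ) ∣ n - c) := by
    intro p
    by_cases h1 : p ∈ S₁
    · obtain ⟨c, -, hc⟩ := exists_class (A l * red r q) (hm₁ p h1).1 (hm₁ p h1).2.2
      exact ⟨c, fun _ => hc, fun h' => absurd h' (h12 p h1), fun h' => absurd h' (h13 p h1)⟩
    by_cases h2 : p ∈ S₂
    · obtain ⟨c, -, hc⟩ := exists_class (-(A L * red q r)) (hm₂ p h2).1 (hm₂ p h2).2.2
      refine ⟨c, fun h' => absurd h' h1, fun _ n => ?_, fun h' => absurd h' (h23 p h2)⟩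
      rw [← hc n, ← dvd_neg]
      ring_nf
    by_cases h3 : p ∈ S₃
    · obtain ⟨c, -, hc⟩ := exists_class (A l * B L * red r q - A L * B l * red q r) (hm₃ p h3).1
        (hm₃ p h3).2.2.2
      refine ⟨c, fun h' => absurd h' h1, fun h' => absurd h' h2, fun _ n => ?_⟩
      rw [← hc n, coinForm]
      push_cast
      ring_nf
    exact ⟨0, fun h' => absurd h' h1, fun h' => absurd h' h2, fun h' => absurd h' h3⟩
  choose e he₁ he₂ he₃ using hex
  set u : ℕ → ℝ := fun p => if p ∈ S₁ ∨ p ∈ S₂ then 0 else if p ∈ S₃ then (p : ℝ) / (p - 1) else 1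
    with hu
  set v : ℕ → ℝ := fun p => if p ∈ S₁ ∨ p ∈ S₂ then (p : ℝ) / (p - 1) else 1 with hv
  refine ⟨e, u, v, fun p hp => ?_, fun p hp => ?_, fun n => ?_⟩
  · have hr1 := ratio_ge_one (Finset.mem_filter.1 hp).2
    simp only [u, v]
    constructor <;> split_ifs <;> linarith
  · have h2 : (2 : ℝ) ≤ p := by exact_mod_cast (Finset.mem_filter.1 hp).2.two_le
    have hexp := add_one_le_exp (1 / ((p : ℝ) * (p - 1)))
    have hnn : 0 ≤ 1 / ((p : ℝ) * (p - 1)) := div_nonneg zero_le_one (by nlinarith)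
    have hmul := mul_le_mul_of_nonneg_left hexp (show (0 : ℝ) ≤ p by linarith)
    have hp1 : (p : ℝ) ≤ (p : ℝ) * exp (1 / ((p : ℝ) * (p - 1))) :=
      le_mul_of_one_le_right (by linarith) (by linarith)
    simp only [u, v]
    split_ifs
    · rw [zero_add, mul_div_assoc', mul_div_cancel_left₀ _ (by linarith : (p : ℝ) - 1 ≠ 0)]
      exact hp1
    · refine le_trans (le_of_eq ?_) hmul
      field_simp [show (p : ℝ) - 1 ≠ 0 by linarith, show (p : ℝ) ≠ 0 by linarith]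
      ring
    · linarith
  have hset : ∀ S : Finset ℕ, (∀ p ∈ S, p.Prime) → ∀ g : ℕ → ℝ,
      ∏ p ∈ S.filter (fun p => p ≤ y), g p =
        ∏ p ∈ (Finset.range (y + 1)).filter Nat.Prime, if p ∈ S then g p else 1 := by
    intro S hS g
    rw [← Finset.prod_filter]
    refine Finset.prod_congr (Finset.ext fun p => ?_) fun _ _ => rfl
    simp only [Finset.mem_filter, Finset.mem_range, Nat.lt_succ_iff]
    exact ⟨fun hp => ⟨⟨hp.2, hS p hp.1⟩, hp.1⟩, fun hp => ⟨hp.2, hp.1.1⟩⟩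
  rw [hset S₁ (fun p hp => (hm₁ p hp).1), hset S₂ (fun p hp => (hm₂ p hp).1),
    hset S₃ (fun p hp => (hm₃ p hp).1), ← Finset.prod_mul_distrib, ← Finset.prod_mul_distrib,
    classProd]
  refine Finset.prod_congr rfl fun p _ => ?_
  by_cases h1 : p ∈ S₁
  · simp only [u, v, h1, h12 p h1, h13 p h1, true_or, if_true, if_false, mul_one, he₁ p h1 n]
  by_cases h2 : p ∈ S₂
  · simp only [u, v, h1, h2, h23 p h2, or_true, if_true, if_false, mul_one, one_mul, he₂ p h2 n]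
  by_cases h3 : p ∈ S₃
  · simp only [u, v, h1, h2, h3, or_self, if_true, if_false, one_mul, he₃ p h3 n]
  simp only [u, v, h1, h2, h3, or_self, if_false, mul_one, ite_self]

/-- The large factors on one side. -/
theorem side_tail_le {D₀ C : ℝ} {y : ℕ} {l₁ q₁ r₁ : ℕ} {n : ℤ}
    (htail : ∀ U : Finset ℕ, U ⊆ (red q₁ r₁).primeFactors → (∀ p ∈ U, y < p) →
      ¬ Ev D₀ (red q₁ r₁) → ∏ p ∈ U, ((p : ℝ) / (p - 1)) ≤ C)
    (hev : ¬ Ev D₀ (red q₁ r₁)) :
    ∏ p ∈ ((red q₁ r₁).primeFactors.filter (fun p => Det γ A B l₁ p)).filter (fun p => ¬ p ≤ y),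
      (if (p : ℤ) ∣ (B l₁ : ℤ) * n + A l₁ * red r₁ q₁ then 0 else (p : ℝ) / (p - 1)) ≤ C := by
  refine (Finset.prod_le_prod (fun p hp => ?_) (fun p hp => ?_)).trans
    (htail _ ((Finset.filter_subset _ _).trans (Finset.filter_subset _ _))
      (fun p hp => not_le.1 (Finset.mem_filter.1 hp).2) hev) <;>
    have := ratio_ge_one
      (Nat.prime_of_mem_primeFactors (Finset.mem_filter.1 (Finset.mem_filter.1 hp).1).1) <;>
    split_ifs <;> linarith

/-- The large coinciding factors, outside the exceptional event. -/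
theorem both_tail_le {D₀ C : ℝ} {y : ℕ} {n : ℤ}
    (htail : ∀ (M : ℕ) (U : Finset ℕ), 1 ≤ M →
      log (M : ℝ) ≤ log ((coinForm A B l L q r n).natAbs : ℝ) →
      U ⊆ M.primeFactors → (∀ p ∈ U, y < p) → ¬ Ev D₀ M → ∏ p ∈ U, ((p : ℝ) / (p - 1)) ≤ C)
    (hc : coinForm A B l L q r n ≠ 0)
    (hev : ¬ 1 / 2 < ∑ p ∈ (evPrimes D₀).filter (fun p : ℕ =>
      p ∈ bothSet γ A B l L q r ∧ (p : ℤ) ∣ coinForm A B l L q r n), (p : ℝ)⁻¹) :
    ∏ p ∈ (bothSet γ A B l L q r).filter (fun p => ¬ p ≤ y),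
      (if (p : ℤ) ∣ coinForm A B l L q r n then (p : ℝ) / (p - 1) else 1) ≤ C := by
  set S₃ := bothSet γ A B l L q r with hS₃
  rw [← Finset.prod_filter]
  set V := S₃.filter (fun p : ℕ => (p : ℤ) ∣ coinForm A B l L q r n) with hV
  have hVp : ∀ p ∈ V, p.Prime := fun p hp =>
    Nat.prime_of_mem_primeFactors (Finset.mem_filter.1 (Finset.mem_filter.1 hp).1).1
  have hMpf : (∏ p ∈ V, p).primeFactors = V := Nat.primeFactors_prod hVp
  have hMd : (∏ p ∈ V, p) ∣ (coinForm A B l L q r n).natAbs := by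
    refine (Finset.prod_dvd_prod_of_subset V _ _ fun p hp => ?_).trans
      (Nat.prod_primeFactors_dvd _)
    exact Nat.mem_primeFactors.2 ⟨hVp p hp, Int.natCast_dvd.1 (Finset.mem_filter.1 hp).2,
      Int.natAbs_ne_zero.2 hc⟩
  have hM1 : 1 ≤ ∏ p ∈ V, p := Finset.prod_pos fun p hp => (hVp p hp).pos
  refine htail (∏ p ∈ V, p) _ hM1 ?_ ?_
    (fun p hp => not_le.1 (Finset.mem_filter.1 (Finset.mem_filter.1 hp).1).2) ?_
  · refine log_le_log (by exact_mod_cast hM1) ?_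
    exact_mod_cast Nat.le_of_dvd (Int.natAbs_pos.2 hc) hMd
  · rw [hMpf]
    intro p hp
    obtain ⟨hp1, hp2⟩ := Finset.mem_filter.1 hp
    exact Finset.mem_filter.2 ⟨(Finset.mem_filter.1 hp1).1, hp2⟩
  · intro hE
    apply hev
    refine lt_of_lt_of_le hE (le_of_eq (Finset.sum_congr ?_ fun _ _ => rfl))
    refine Finset.filter_congr fun p hp => ?_
    have hpp : p.Prime := by
      rw [evPrimes, Finset.mem_filter] at hp; exact hp.2.1
    have hiff : p ∈ V ↔ p ∣ ∏ x ∈ V, x := by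
      refine ⟨Finset.dvd_prod_of_mem _, fun hd => ?_⟩
      rw [← hMpf]; exact Nat.mem_primeFactors.2 ⟨hpp, hd, by omega⟩
    rw [← hiff, hV, Finset.mem_filter]

/-- The weight of one value of `n`: an averageable part, large factors, and an exceptional event. -/
theorem rho_split (η : ℝ) (hη : 0 < η) : ∃ C : ℝ, 1 ≤ C ∧ ∀ (γ : ℝ) (A : ℕ → ℤ) (B : ℕ → ℕ),
    IsCls γ A B → ∀ l L q r : ℕ, 1 ≤ l → l ≤ L → 4 * L ≤ 5 * l → 0 < q → 0 < r → q ≠ r →
    ∀ D₀ : ℝ, dgap l L q r ≤ D₀ → 1 ≤ D₀ → (L : ℝ) ^ η ≤ D₀ →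
    ¬ Ev D₀ (red q r) → ¬ Ev D₀ (red r q) →
    ∃ (P : Finset ℕ) (e : ℕ → ℤ) (u v : ℕ → ℝ), (∀ p ∈ P, p.Prime) ∧ (∏ p ∈ P, p : ℕ) ≤ D₀ ∧
      (∀ p ∈ P, 0 ≤ u p ∧ 0 ≤ v p) ∧
      (∀ p ∈ P, u p + ((p : ℝ) - 1) * v p ≤ (p : ℝ) * exp (1 / ((p : ℝ) * (p - 1)))) ∧
      ∀ n ∈ nRange γ l L q r, rho γ A B l L q r n ≤ C * classProd P e u v n +
        C * (1 + log D₀) ^ (24 : ℕ) * (∑ p ∈ (evPrimes D₀).filter (fun p : ℕ =>
          p ∈ bothSet γ A B l L q r ∧ (p : ℤ) ∣ coinForm A B l L q r n), (p : ℝ)⁻¹) +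
        (if coinForm A B l L q r n = 0 then C * (1 + log D₀) ^ (24 : ℕ) +
          C * bigD L D₀ ^ (24 : ℕ) * (if KEv A B l L (red q r) then 1 else 0) else 0) := by
  obtain ⟨C₀, hC₀, hrho⟩ := rho_le
  obtain ⟨Ct, hCt, htail⟩ := tail_le η hη
  set K := 4 + η⁻¹ with hK
  have hK4 : 4 ≤ K := by have : 0 < η⁻¹ := (by positivity); linarith
  set C := 2 * C₀ * K ^ 24 + Ct ^ 3 with hC
  have hK24 : 1 ≤ K ^ 24 := one_le_pow₀ (by linarith)
  have hCt3 : 1 ≤ Ct ^ 3 := one_le_pow₀ hCt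
  have hC₀K : C₀ ≤ C₀ * K ^ 24 := le_mul_of_one_le_right (by linarith) hK24
  have hCK : 2 * (C₀ * K ^ 24) ≤ C := by rw [hC]; linarith
  have hCC : C₀ ≤ C := by linarith
  have hCt' : Ct * Ct * Ct ≤ C := by
    have : Ct * Ct * Ct = Ct ^ 3 := by ring
    rw [hC]; linarith
  have hC1 : 1 ≤ C := le_trans hC₀ hCC
  have hKlg := hK
  clear_value C K
  refine ⟨C, by linarith, fun γ A B h l L q r hl hlL h45 hq hr hne D₀ hDD hD₀ hLD hq' hr' => ?_⟩
  have hL : 1 ≤ L := hl.trans hlL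
  have hD := (dgap_facts (r := r) hq l L).2.2
  have hlD : 0 ≤ log D₀ := log_nonneg hD₀
  obtain ⟨e, u, v, huv, husum, hfeq⟩ := small_part γ A B l L hq r (ycut D₀)
  set P := (Finset.range (ycut D₀ + 1)).filter Nat.Prime with hP
  have hPp : ∀ p ∈ P, p.Prime := fun p hp => (Finset.mem_filter.1 hp).2
  refine ⟨P, e, u, v, hPp, ?_, huv, husum, fun n hn => ?_⟩
  · have h1 : ((∏ p ∈ P, p : ℕ) : ℝ) ≤ (4 : ℝ) ^ ycut D₀ := by
      have h0 : (∏ p ∈ P, p) ≤ 4 ^ ycut D₀ := primorial_le_four_pow (ycut D₀)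
      exact_mod_cast h0
    refine h1.trans ?_
    rw [← log_le_log_iff (by positivity) (by linarith), log_pow]
    have hy : (ycut D₀ : ℝ) ≤ log D₀ / 4 := Nat.floor_le (by linarith)
    have h4 : log (4 : ℝ) ≤ 3 / 2 := by
      rw [show (4 : ℝ) = 2 ^ (2 : ℕ) by norm_num, log_pow]; push_cast; linarith [log_two_lt_d9]
    nlinarith [(Nat.cast_nonneg (ycut D₀) : (0 : ℝ) ≤ _)]
  have hC0 : 0 ≤ C := zero_le_one.trans hC1
  set F := classProd P e u v n with hF
  set G := ∑ p ∈ (evPrimes D₀).filter (fun p : ℕ =>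
    p ∈ bothSet γ A B l L q r ∧ (p : ℤ) ∣ coinForm A B l L q r n), (p : ℝ)⁻¹ with hG
  have hF0 : 0 ≤ F := classProd_nonneg _ huv _
  have hG0 : 0 ≤ G := Finset.sum_nonneg fun p _ => by positivity
  have hlgD : lgD L (dgap l L q r) ≤ K * (1 + log D₀) := by
    rw [hKlg]
    refine le_trans ?_ (lgD_le_log hL hη hD₀ hLD)
    have := log_le_log (show (0 : ℝ) < 2 + dgap l L q r by linarith) (add_le_add_right hDD 2)
    unfold lgD; linarith
  have hlg24 : C₀ * lgD L (dgap l L q r) ^ (24 : ℕ) ≤ C₀ * K ^ 24 * (1 + log D₀) ^ (24 : ℕ) := by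
    rw [mul_assoc, ← mul_pow]
    exact mul_le_mul_of_nonneg_left
      (pow_le_pow_left₀ (zero_le_one.trans (lgD_ge_one hD.le)) hlgD 24) (by linarith)
  have hrhon := hrho γ A B h l L q r hl hlL h45 hq hr hne n hn
  have hsplit0 : 0 ≤ C * (1 + log D₀) ^ (24 : ℕ) * G := by positivity
  have hbig : bigD L (dgap l L q r) ≤ bigD L D₀ := by
    have := log_le_log (show (0 : ℝ) < 2 + dgap l L q r by linarith) (add_le_add_right hDD 2)
    unfold bigD; linarith
  have hlp : (0 : ℝ) ≤ (1 + log D₀) ^ (24 : ℕ) := by positivity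
  by_cases hc : coinForm A B l L q r n = 0
  · rw [if_pos hc] at hrhon
    rw [if_pos hc]
    have h1 : C₀ * bigD L (dgap l L q r) ^ (24 : ℕ) * (if KEv A B l L (red q r) then 1 else 0) ≤
        C * bigD L D₀ ^ (24 : ℕ) * (if KEv A B l L (red q r) then 1 else 0) := by
      refine mul_le_mul_of_nonneg_right ?_ (by split <;> norm_num)
      exact mul_le_mul hCC (pow_le_pow_left₀ (zero_le_one.trans (bigD_ge_one hL hD.le)) hbig 24)
        (pow_nonneg (zero_le_one.trans (bigD_ge_one hL hD.le)) 24) (by linarith)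
    have h2 : 0 ≤ C * F := by positivity
    have h3 := mul_le_mul_of_nonneg_right (show C₀ * K ^ 24 ≤ C by linarith) hlp
    linarith
  rw [if_neg hc] at hrhon ⊢
  rw [add_zero] at hrhon ⊢
  by_cases hev : 1 / 2 < G
  · have h1 : C₀ * K ^ 24 * (1 + log D₀) ^ (24 : ℕ) ≤ C * (1 + log D₀) ^ (24 : ℕ) * G := by
      have h2 : C₀ * K ^ 24 ≤ C * G := by
        have := mul_le_mul_of_nonneg_left hev.le (show 0 ≤ C by linarith)
        linarith
      have := mul_le_mul_of_nonneg_right h2 hlp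
      linarith
    have h3 : 0 ≤ C * F := by positivity
    linarith
  refine le_trans ?_ (le_add_of_nonneg_right hsplit0)
  obtain ⟨hs1, hs2, hs3⟩ := log_sizes h hlL hL hq hr
  have hmono : ∀ x : ℝ, x ≤ 4 * bigD L (dgap l L q r) → x ≤ 4 * bigD L D₀ := fun x hx => by linarith
  have big₁ := side_tail_le (γ := γ) (A := A) (B := B) (y := ycut D₀) (l₁ := l) (n := n)
    (fun U hU hyU hev' => htail D₀ L _ U hD₀ hL hLD (red_pos hq) (hmono _ hs1) hU hyU hev') hq'
  have big₂ := side_tail_le (γ := γ) (A := A) (B := B) (y := ycut D₀) (l₁ := L) (n := -n)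
    (fun U hU hyU hev' => htail D₀ L _ U hD₀ hL hLD (red_pos hr) (hmono _ hs2) hU hyU hev') hr'
  have big₃ := both_tail_le (γ := γ) (A := A) (B := B) (y := ycut D₀)
    (fun M U hM hlog hU hyU hev' =>
      htail D₀ L M U hD₀ hL hLD hM (hmono _ (hlog.trans (hs3 n hn hc))) hU hyU hev') hc hev
  have nn : ∀ (S : Finset ℕ) (g : ℕ → ℝ), (∀ p ∈ S, 0 ≤ g p) →
      0 ≤ ∏ p ∈ S.filter (fun p => ¬ p ≤ ycut D₀), g p :=
    fun S g hS => Finset.prod_nonneg fun p hp => hS p (Finset.mem_filter.1 hp).1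
  unfold rho rhoLeft rhoBoth
  rw [← bothSet, ← Finset.prod_filter_mul_prod_filter_not
      ((red q r).primeFactors.filter fun p => Det γ A B l p) (fun p => p ≤ ycut D₀),
    ← Finset.prod_filter_mul_prod_filter_not
      ((red r q).primeFactors.filter fun p => Det γ A B L p) (fun p => p ≤ ycut D₀),
    ← Finset.prod_filter_mul_prod_filter_not (bothSet γ A B l L q r) (fun p => p ≤ ycut D₀)]
  have hn₁ := nn ((red q r).primeFactors.filter fun p => Det γ A B l p)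
    (fun p => if (p : ℤ) ∣ (B l : ℤ) * n + A l * red r q then 0 else (p : ℝ) / (p - 1)) fun p hp => by
      have := ratio_ge_one (Nat.prime_of_mem_primeFactors (Finset.mem_filter.1 hp).1)
      split_ifs <;> linarith
  have hn₂ := nn ((red r q).primeFactors.filter fun p => Det γ A B L p)
    (fun p => if (p : ℤ) ∣ (B L : ℤ) * -n + A L * red q r then 0 else (p : ℝ) / (p - 1)) fun p hp => by
      have := ratio_ge_one (Nat.prime_of_mem_primeFactors (Finset.mem_filter.1 hp).1)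
      split_ifs <;> linarith
  have hn₃ := nn (bothSet γ A B l L q r)
    (fun p => if (p : ℤ) ∣ coinForm A B l L q r n then (p : ℝ) / (p - 1) else 1) fun p hp => by
      have := ratio_ge_one (Nat.prime_of_mem_primeFactors (Finset.mem_filter.1 hp).1)
      split_ifs <;> linarith
  have hbigs := mul_le_mul (mul_le_mul big₁ big₂ hn₂ (zero_le_one.trans hCt)) big₃ hn₃
    (by positivity)
  have hfin := mul_le_mul_of_nonneg_left (hbigs.trans hCt') hF0
  rw [hfeq n] at hF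
  rw [hF] at hfin ⊢
  linarith

/-- The exceptional event of the coincidence form is rare. -/
theorem event_sum_le {D₀ : ℝ} (hD₀ : 1 ≤ D₀) (hDD : dgap l L q r ≤ D₀) :
    ∑ n ∈ nRange γ l L q r, ∑ p ∈ (evPrimes D₀).filter (fun p : ℕ =>
      p ∈ bothSet γ A B l L q r ∧ (p : ℤ) ∣ coinForm A B l L q r n), (p : ℝ)⁻¹ ≤
      8 * D₀ / ytail D₀ + (1 + log D₀) := by
  have hlD : 0 ≤ log D₀ := log_nonneg hD₀
  set U := (evPrimes D₀).filter (fun p => p ∈ bothSet γ A B l L q r) with hU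
  simp_rw [show ∀ n : ℤ, (evPrimes D₀).filter (fun p : ℕ =>
    p ∈ bothSet γ A B l L q r ∧ (p : ℤ) ∣ coinForm A B l L q r n) =
    U.filter (fun p : ℕ => (p : ℤ) ∣ coinForm A B l L q r n) from fun n => by
      rw [hU, Finset.filter_filter], Finset.sum_filter]
  rw [Finset.sum_comm]
  have hcount : ∀ p ∈ U, ∑ n ∈ nRange γ l L q r,
      (if (p : ℤ) ∣ coinForm A B l L q r n then (p : ℝ)⁻¹ else 0) ≤
        4 * D₀ * ((p : ℝ)⁻¹) ^ 2 + (p : ℝ)⁻¹ := by
    intro p hp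
    have hp' := (Finset.mem_filter.1 hp).2
    obtain ⟨h1, h2, h3, -, -⟩ := Finset.mem_filter.1 hp'
    have hpr := Nat.prime_of_mem_primeFactors h1
    have hnd : ¬ p ∣ B l * B L := fun hh => (hpr.dvd_mul.1 hh).elim h2.1 h3.1
    rw [← Finset.sum_filter, Finset.sum_const, nsmul_eq_mul]
    refine (mul_le_mul_of_nonneg_right (card_le_of_dvd_sub _ hpr.pos
      (show (0 : ℝ) ≤ 4 * D₀ by linarith) ?_ ?_) (by positivity)).trans_eq ?_
    · intro x hx y hy
      have hd := dvd_sub (Finset.mem_filter.1 hx).2 (Finset.mem_filter.1 hy).2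
      have he : coinForm A B l L q r x - coinForm A B l L q r y =
          ((B l * B L : ℕ) : ℤ) * (x - y) := by
        simp only [coinForm]; push_cast; ring
      rw [he] at hd
      exact ((Nat.prime_iff_prime_int.1 hpr).dvd_mul.1 hd).resolve_left
        (fun hh => hnd (Int.natCast_dvd_natCast.1 hh))
    · intro x hx y hy
      have := nRange_width (Finset.mem_filter.1 hx).1 (Finset.mem_filter.1 hy).1
      linarith
    · rw [add_mul, one_mul, div_eq_mul_inv]; ring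
  refine (Finset.sum_le_sum hcount).trans ?_
  rw [Finset.sum_add_distrib, ← Finset.mul_sum]
  have hyt : 1 ≤ ytail D₀ := one_le_pow₀ (by linarith)
  have hev : ∀ p ∈ U, p.Prime ∧ ytail D₀ < (p : ℝ) ∧ p ≤ ⌊D₀⌋₊ := fun p hp => by
    have := (Finset.mem_filter.1 hp).1
    rw [evPrimes, Finset.mem_filter, Finset.mem_range] at this
    exact ⟨this.2.1, this.2.2, by omega⟩
  refine add_le_add ?_ ?_
  · refine (mul_le_mul_of_nonneg_left (sum_inv_sq_le hyt U fun p hp => (hev p hp).2.1)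
      (by linarith)).trans_eq ?_
    ring
  · refine (Finset.sum_le_sum_of_subset_of_nonneg (t := Finset.Icc 1 ⌊D₀⌋₊)
      (fun p hp => Finset.mem_Icc.2 ⟨(hev p hp).1.pos, (hev p hp).2.2⟩)
      (fun p _ _ => by positivity)).trans ((sum_Icc_inv_le _).trans ?_)
    have : log (⌊D₀⌋₊ : ℝ) ≤ log D₀ :=
      log_le_log (by exact_mod_cast Nat.floor_pos.2 hD₀) (Nat.floor_le (by linarith))
    linarith

theorem anatLarge : AnatLargeStmt := by
  refine ⟨24, fun η hη => ?_⟩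
  obtain ⟨C₁, hC₁, hsum⟩ := rhoSum_le
  obtain ⟨C₂, hC₂, hsplit⟩ := rho_split η hη
  obtain ⟨C₃, hC₃, hpow⟩ := one_add_log_pow_le 25
  set K := 4 + η⁻¹ with hK
  have hK4 : 4 ≤ K := by have : 0 < η⁻¹ := (by positivity); linarith
  have hK24 : 1 ≤ K ^ 24 := one_le_pow₀ (by linarith)
  refine ⟨3 * C₁ * K ^ 24 + C₂ * (5 * exp 1 + 8 + 2 * C₃), ?_⟩
  set C := 3 * C₁ * K ^ 24 + C₂ * (5 * exp 1 + 8 + 2 * C₃) with hC
  have he1 : 0 ≤ exp (1 : ℝ) := (exp_pos 1).le
  intro γ A B h l L q r hl hlL h45 hq hr hne D₀ hDD hD₂ hLD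
  have hL : 1 ≤ L := hl.trans hlL
  have hL1 : (1 : ℝ) ≤ L := by exact_mod_cast hL
  set D := dgap l L q r with hDdef
  have hD1 : 1 ≤ D := (one_le_rpow hL1 hη.le).trans hLD
  have hD₀ : 1 ≤ D₀ := hD1.trans hDD
  have hLD₀ : (L : ℝ) ^ η ≤ D₀ := hLD.trans hDD
  have hlD : 0 ≤ log D₀ := log_nonneg hD₀
  have hp1 : (1 : ℝ) ≤ (1 + log D₀) ^ (24 : ℕ) := one_le_pow₀ (by linarith)
  have hbigD : bigD L D ≤ bigD L D₀ := by
    have := log_le_log (show (0 : ℝ) < 2 + D by linarith) (add_le_add_right hDD 2)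
    unfold bigD; linarith
  have hY := bigD_ge_one hL (zero_le_one.trans hD1)
  have hkev : (0 : ℝ) ≤ if KEv A B l L (red q r) then 1 else 0 := by split <;> norm_num
  change rhoSum γ A B l L q r ≤ C * D₀ * (1 + (1 + log D₀) ^ (24 : ℕ) * _) +
    C * bigD L D₀ ^ (24 : ℕ) * _
  have hE0 : ∀ m, (0 : ℝ) ≤ if Ev D₀ m then 1 else 0 := fun m => by split <;> norm_num
  by_cases hEv : Ev D₀ (red q r) ∨ Ev D₀ (red r q)
  · refine (hsum γ A B h l L q r hl hlL h45 hq hr hne).trans ?_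
    rw [← hDdef]
    have hlg : lgD L D ≤ K * (1 + log D₀) := by
      refine le_trans ?_ (lgD_le_log hL hη hD₀ hLD₀)
      have := log_le_log (show (0 : ℝ) < 2 + D by linarith) (add_le_add_right hDD 2)
      unfold lgD; linarith
    have h1 : C₁ * (1 + D) * lgD L D ^ (24 : ℕ) ≤ C * D₀ * (1 + log D₀) ^ (24 : ℕ) := by
      refine (mul_le_mul_of_nonneg_left (pow_le_pow_left₀
        (zero_le_one.trans (lgD_ge_one (zero_le_one.trans hD1))) hlg 24)
        (mul_nonneg (by linarith) (by linarith))).trans ?_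
      rw [mul_pow, ← mul_assoc]
      refine mul_le_mul_of_nonneg_right ?_ (by linarith)
      have h2 : C₁ * (1 + D) * K ^ 24 ≤ 2 * C₁ * K ^ 24 * D₀ := by
        have := mul_le_mul_of_nonneg_left (show 1 + D ≤ 2 * D₀ by linarith)
          (show 0 ≤ C₁ * K ^ 24 by positivity)
        linarith
      have h4 : 0 ≤ C₁ * K ^ 24 + C₂ * (5 * exp 1 + 8 + 2 * C₃) := by positivity
      have h5 := mul_nonneg h4 (show 0 ≤ D₀ by linarith)
      rw [hC]; linarith
    have h2 : (1 : ℝ) ≤ (if Ev D₀ (red q r) then 1 else 0) + (if Ev D₀ (red r q) then 1 else 0) := by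
      rcases hEv with hh | hh <;> simp only [hh, if_true] <;>
        linarith [hE0 (red q r), hE0 (red r q)]
    refine add_le_add (h1.trans (mul_le_mul_of_nonneg_left ?_ (by positivity))) ?_
    · have h3 := mul_le_mul_of_nonneg_left h2 (zero_le_one.trans hp1)
      linarith
    · refine mul_le_mul_of_nonneg_right (mul_le_mul ?_ (pow_le_pow_left₀ (by linarith) hbigD 24)
        (pow_nonneg (by linarith) 24) (by positivity)) hkev
      have h5 : C₁ ≤ 3 * C₁ * K ^ 24 := by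
        have := le_mul_of_one_le_right (show (0 : ℝ) ≤ 3 * C₁ by linarith) hK24
        linarith
      have h6 : 0 ≤ C₂ * (5 * exp 1 + 8 + 2 * C₃) := by positivity
      rw [hC]; linarith
  push Not at hEv
  obtain ⟨P, e, u, v, hP, hPD, huv, husum, hb⟩ :=
    hsplit γ A B h l L q r hl hlL h45 hq hr hne D₀ hDD hD₀ hLD₀ hEv.1 hEv.2
  refine (Finset.sum_le_sum hb).trans ?_
  rw [Finset.sum_add_distrib, Finset.sum_add_distrib, ← Finset.mul_sum, ← Finset.mul_sum]
  have hF : ∑ n ∈ nRange γ l L q r, classProd P e u v n ≤ 5 * exp 1 * D₀ := by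
    refine (classProd_window_le hP e huv husum _ (show (0 : ℝ) ≤ 4 * D₀ by linarith)
      fun x hx y hy => ?_).trans ?_
    · have := nRange_width hx hy
      rw [← hDdef] at this
      linarith
    · rw [mul_comm (5 * exp 1), ← mul_assoc]
      exact mul_le_mul_of_nonneg_right (by linarith) he1
  have hG := event_sum_le (γ := γ) (A := A) (B := B) hD₀ hDD
  have hG' : (1 + log D₀) ^ (24 : ℕ) * (8 * D₀ / ytail D₀ + (1 + log D₀)) ≤ (8 + C₃) * D₀ := by
    have hyt : (1 + log D₀) ^ (24 : ℕ) ≤ ytail D₀ := pow_le_pow_right₀ (by linarith) (by norm_num)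
    have h1 : (1 + log D₀) ^ (24 : ℕ) * (8 * D₀ / ytail D₀) ≤ 8 * D₀ := by
      have hy0 : 0 < ytail D₀ := by linarith
      rw [← mul_div_assoc, div_le_iff₀ hy0, mul_comm (8 * D₀) (ytail D₀)]
      exact mul_le_mul_of_nonneg_right hyt (by linarith)
    have h2 : (1 + log D₀) ^ (24 : ℕ) * (1 + log D₀) ≤ C₃ * D₀ := by
      rw [← pow_succ]; exact hpow D₀ hD₀
    linarith
  have hz : C₂ * (1 + log D₀) ^ (24 : ℕ) ≤ C₂ * C₃ * D₀ := by
    have h2 : (1 + log D₀) ^ (24 : ℕ) ≤ (1 + log D₀) ^ (25 : ℕ) :=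
      pow_le_pow_right₀ (by linarith) (by norm_num)
    have h3 := mul_le_mul_of_nonneg_left (h2.trans (hpow D₀ hD₀)) (show 0 ≤ C₂ by linarith)
    linarith
  have hbd : (0 : ℝ) ≤ bigD L D₀ ^ (24 : ℕ) := pow_nonneg (by linarith) 24
  have hzero := sum_rho_le (l := l) (L := L) (q := q) (r := r) h (nRange γ l L q r)
    (E := C₂ * (1 + log D₀) ^ (24 : ℕ) +
      C₂ * bigD L D₀ ^ (24 : ℕ) * (if KEv A B l L (red q r) then 1 else 0)) (by positivity)
  rw [if_neg hEv.1, if_neg hEv.2, add_zero, mul_zero, add_zero, mul_one]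
  have t1 := mul_le_mul_of_nonneg_left hF (show 0 ≤ C₂ by linarith)
  have t2 : C₂ * (1 + log D₀) ^ (24 : ℕ) * (∑ n ∈ nRange γ l L q r,
      ∑ p ∈ (evPrimes D₀).filter (fun p : ℕ =>
        p ∈ bothSet γ A B l L q r ∧ (p : ℤ) ∣ coinForm A B l L q r n), (p : ℝ)⁻¹) ≤
      C₂ * ((8 + C₃) * D₀) := by
    refine (mul_le_mul_of_nonneg_left hG (by positivity)).trans ?_
    rw [mul_assoc]
    exact mul_le_mul_of_nonneg_left hG' (by linarith)
  have t3 : C₂ * bigD L D₀ ^ (24 : ℕ) * (if KEv A B l L (red q r) then 1 else 0) ≤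
      C * bigD L D₀ ^ (24 : ℕ) * (if KEv A B l L (red q r) then 1 else 0) := by
    refine mul_le_mul_of_nonneg_right (mul_le_mul_of_nonneg_right ?_ hbd) hkev
    have h5 : C₂ ≤ C₂ * (5 * exp 1 + 8 + 2 * C₃) := le_mul_of_one_le_right (by linarith) (by linarith)
    have h6 : 0 ≤ 3 * C₁ * K ^ 24 := by positivity
    rw [hC]; linarith
  have t4 : 0 ≤ 3 * C₁ * K ^ 24 * D₀ := by positivity
  rw [hC]
  linarith

end Vale.Agent.P028
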