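import Vale.Agent.P028.ArithDefs

/-! Proofs of the elementary number theory interfaces. -/

namespace Vale.Agent.P028

open Finset Real

theorem phi_prod_ge (S : Finset ℕ) : (∀ x ∈ S, 2 ≤ x) →
    1 / ((S.card : ℝ) + 1) ≤ ∏ x ∈ S, (1 - (x : ℝ)⁻¹) := by
  induction S using Finset.induction_on_max with
  | empty => simp
  | insert m s hlt ih =>
    intro h2
    have hm : m ∉ s := fun hms => lt_irrefl _ (hlt m hms)
    have hsub : s ⊆ Finset.Ico 2 m := fun x hx =>
      Finset.mem_Ico.2 ⟨h2 x (Finset.mem_insert_of_mem hx), hlt x hx⟩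
    have hc := Finset.card_le_card hsub
    rw [Nat.card_Ico] at hc
    have hm2 := h2 m (Finset.mem_insert_self m s)
    rw [Finset.card_insert_of_notMem hm, Finset.prod_insert hm]
    have hcm : ((s.card : ℝ) + 2) ≤ (m : ℝ) := by exact_mod_cast (by omega : s.card + 2 ≤ m)
    have ih' := ih fun x hx => h2 x (Finset.mem_insert_of_mem hx)
    have hinv : (m : ℝ)⁻¹ ≤ ((s.card : ℝ) + 2)⁻¹ := inv_anti₀ (by positivity) hcm
    have h1 : ((s.card : ℝ) + 1) / (s.card + 2) ≤ 1 - (m : ℝ)⁻¹ := by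
      have e : ((s.card : ℝ) + 1) / (s.card + 2) = 1 - ((s.card : ℝ) + 2)⁻¹ := by field_simp; ring
      rw [e]; linarith
    calc 1 / (((s.card + 1 : ℕ) : ℝ) + 1)
        = ((s.card : ℝ) + 1) / (s.card + 2) * (1 / ((s.card : ℝ) + 1)) := by
          push_cast; field_simp; ring
      _ ≤ (1 - (m : ℝ)⁻¹) * ∏ x ∈ s, (1 - (x : ℝ)⁻¹) :=
          mul_le_mul h1 ih' (by positivity) ((by positivity : (0:ℝ) ≤ _).trans h1)

theorem prod_primeFactors_cast_le {M : ℕ} (hM : 1 ≤ M) :
    ∏ p ∈ M.primeFactors, (p : ℝ) ≤ M := by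
  rw [← Nat.cast_prod]
  exact Nat.cast_le.2 (Nat.le_of_dvd hM (Nat.prod_primeFactors_dvd M))

theorem card_primeFactors_le {M : ℕ} (hM : 1 ≤ M) :
    (M.primeFactors.card : ℝ) ≤ 2 * Real.log M := by
  have h : (2 : ℝ) ^ M.primeFactors.card ≤ M := by
    refine le_trans ?_ (prod_primeFactors_cast_le hM)
    rw [← Finset.prod_const]
    exact Finset.prod_le_prod (fun _ _ => by norm_num) fun p hp => by
      exact_mod_cast (Nat.prime_of_mem_primeFactors hp).two_le
  have h' := Real.log_le_log (by positivity) h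
  rw [Real.log_pow] at h'
  nlinarith [Real.log_two_gt_d9, (Nat.cast_nonneg M.primeFactors.card : (0 : ℝ) ≤ _)]

theorem omegaPow : OmegaPowStmt := by
  intro K ε hK hε
  set P₀ := ⌈K ^ ε⁻¹⌉₊ with hP
  refine ⟨K ^ (P₀ + 1), fun B hB => ?_⟩
  rw [← Finset.prod_const, ← Finset.prod_filter_mul_prod_filter_not B.primeFactors (· ≤ P₀)]
  refine mul_le_mul ?_ ?_ (Finset.prod_nonneg fun _ _ => by linarith) (by positivity)
  · rw [Finset.prod_const]
    refine pow_le_pow_right₀ hK ?_
    have : B.primeFactors.filter (· ≤ P₀) ⊆ Finset.range (P₀ + 1) := fun p hp =>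
      Finset.mem_range.2 (Nat.lt_succ_of_le (Finset.mem_filter.1 hp).2)
    simpa using Finset.card_le_card this
  · calc ∏ _x ∈ B.primeFactors.filter (fun p => ¬ p ≤ P₀), K
        ≤ ∏ p ∈ B.primeFactors.filter (fun p => ¬ p ≤ P₀), (p : ℝ) ^ ε := by
          refine Finset.prod_le_prod (fun _ _ => by linarith) fun p hp => ?_
          have hp' : P₀ ≤ p := (not_le.1 (Finset.mem_filter.1 hp).2).le
          have h1 : K ^ ε⁻¹ ≤ (p : ℝ) := (Nat.le_ceil _).trans (by exact_mod_cast hp')
          have h2 := Real.rpow_le_rpow (by positivity) h1 hε.le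
          rwa [Real.rpow_inv_rpow (by linarith) hε.ne'] at h2
      _ = (∏ p ∈ B.primeFactors.filter (fun p => ¬ p ≤ P₀), (p : ℝ)) ^ ε :=
          Real.finsetProd_rpow _ _ (fun p _ => by positivity) _
      _ ≤ (B : ℝ) ^ ε := by
          refine Real.rpow_le_rpow (by positivity) ?_ hε.le
          refine le_trans ?_ (prod_primeFactors_cast_le hB)
          exact Finset.prod_le_prod_of_subset_of_one_le (Finset.filter_subset _ _)
            (fun p _ => by positivity)
            fun p hp _ => by exact_mod_cast (Nat.prime_of_mem_primeFactors hp).one_le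

theorem phiStmt : PhiStmt := by
  have hlow : ∀ q : ℕ, 1 ≤ q →
      1 / ((q.primeFactors.card : ℝ) + 1) ≤ (Nat.totient q : ℝ) / q := by
    intro q hq
    have h := Nat.totient_eq_mul_prod_factors q
    have hR : (Nat.totient q : ℝ) = q * ∏ p ∈ q.primeFactors, (1 - (p : ℝ)⁻¹) := by
      have h' := congrArg (fun x : ℚ => (x : ℝ)) h
      push_cast at h'
      exact h'
    rw [hR, mul_div_cancel_left₀ _ (by positivity)]
    exact phi_prod_ge _ fun p hp => (Nat.prime_of_mem_primeFactors hp).two_le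
  refine ⟨hlow, fun η hη => ?_⟩
  obtain ⟨C, hC⟩ := omegaPow 4 (1 / 2) (by norm_num) (by norm_num)
  refine ⟨⌈(3 * C / η) ^ 2⌉₊ + 1, fun q hq => ?_⟩
  have hq1 : 1 ≤ q := le_trans (Nat.le_add_left _ _) hq
  have hqR : (0 : ℝ) < q := by exact_mod_cast hq1
  set w := q.primeFactors.card with hw
  have h4 : (4 : ℝ) ^ w ≤ C * (q : ℝ) ^ (1 / 2 : ℝ) := hC q hq1
  rw [← Real.sqrt_eq_rpow] at h4
  have hC0 : 0 ≤ C := by
    by_contra hn
    have h5 : (0 : ℝ) < (4 : ℝ) ^ w := by positivity
    nlinarith [Real.sqrt_pos.2 hqR]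
  have hbig : 3 * C / η ≤ Real.sqrt q := by
    apply Real.le_sqrt_of_sq_le
    calc (3 * C / η) ^ 2 ≤ (⌈(3 * C / η) ^ 2⌉₊ : ℝ) := Nat.le_ceil _
      _ ≤ q := by exact_mod_cast (Nat.le_succ _).trans hq
  rw [div_le_iff₀ hη] at hbig
  have hφ : (q : ℝ) ≤ Nat.totient q * ((w : ℝ) + 1) := by
    have := hlow q hq1
    rw [div_le_div_iff₀ (by positivity) hqR] at this
    linarith
  have hw2 : (w : ℝ) + 1 ≤ (2 : ℝ) ^ w := by exact_mod_cast Nat.lt_two_pow_self (n := w)
  have hpow : (4 : ℝ) ^ w = (2 : ℝ) ^ w * (2 : ℝ) ^ w := by rw [← mul_pow]; norm_num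
  have h2one : (1 : ℝ) ≤ (2 : ℝ) ^ w := one_le_pow₀ (by norm_num)
  have hw0 : (0 : ℝ) < (w : ℝ) + 1 := by positivity
  have key : ((2 : ℝ) ^ w + 2) * ((w : ℝ) + 1) ≤ η * Nat.totient q * ((w : ℝ) + 1) := by
    calc ((2 : ℝ) ^ w + 2) * ((w : ℝ) + 1) ≤ (3 * (2 : ℝ) ^ w) * (2 : ℝ) ^ w :=
          mul_le_mul (by linarith) hw2 (by positivity) (by positivity)
      _ = 3 * (4 : ℝ) ^ w := by rw [hpow]; ring
      _ ≤ 3 * C * Real.sqrt q := by linarith
      _ ≤ Real.sqrt q * η * Real.sqrt q :=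
          mul_le_mul_of_nonneg_right hbig (Real.sqrt_nonneg _)
      _ = η * q := by rw [mul_right_comm, Real.mul_self_sqrt hqR.le]; ring
      _ ≤ η * (Nat.totient q * ((w : ℝ) + 1)) := mul_le_mul_of_nonneg_left hφ hη.le
      _ = η * Nat.totient q * ((w : ℝ) + 1) := by ring
  exact le_of_mul_le_mul_right key hw0

theorem bigFactors : BigFactorsStmt := by
  intro M Y hM hY
  set F := M.primeFactors.filter (fun p : ℕ => Y < (p : ℝ)) with hF
  have hY0 : 0 < Y := by linarith
  calc ∏ p ∈ F, ((p : ℝ) / (p - 1)) ≤ ∏ _p ∈ F, Real.exp (2 / Y) := by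
        refine Finset.prod_le_prod ?_ ?_
        · intro p hp
          have : Y < (p : ℝ) := (Finset.mem_filter.1 hp).2
          exact div_nonneg (by positivity) (by linarith)
        · intro p hp
          have hp' : Y < (p : ℝ) := (Finset.mem_filter.1 hp).2
          have hp1 : (0 : ℝ) < p - 1 := by linarith
          refine le_trans ?_ (Real.add_one_le_exp _)
          rw [div_le_iff₀ hp1]
          have : 2 / Y * (p - 1 : ℝ) ≥ 1 := by
            rw [ge_iff_le, div_mul_eq_mul_div, le_div_iff₀ hY0]; linarith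
          linarith
    _ = Real.exp (F.card * (2 / Y)) := by
        rw [Finset.prod_const, ← Real.exp_nat_mul]
    _ ≤ Real.exp (4 * Real.log M / Y) := by
        apply Real.exp_le_exp.2
        have h1 : (F.card : ℝ) ≤ 2 * Real.log M :=
          le_trans (by exact_mod_cast Finset.card_filter_le _ _) (card_primeFactors_le hM)
        rw [mul_div_assoc', div_le_div_iff_of_pos_right hY0]
        linarith

theorem sum_Icc_inv_le (N : ℕ) :
    (∑ d ∈ Finset.Icc 1 N, (d : ℝ)⁻¹) ≤ 1 + Real.log N := by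
  have h := harmonic_le_one_add_log N
  rw [harmonic_eq_sum_Icc] at h
  push_cast at h
  exact h

theorem sum_Icc_ite_dvd (N d : ℕ) :
    (∑ n ∈ Finset.Icc 1 N, if d ∣ n then (1 : ℝ) else 0) ≤ (N : ℝ) * (d : ℝ)⁻¹ := by
  rw [Finset.sum_boole]
  have h : (Finset.Icc 1 N).filter (fun n => d ∣ n)
      = (Finset.Ioc 0 N).filter (fun n => d ∣ n) := by
    congr 1
  rw [h, Nat.Ioc_filter_dvd_card_eq_div]
  exact le_trans Nat.cast_div_le (le_of_eq (div_eq_mul_inv _ _))

theorem divisors_card_eq {N n : ℕ} (hn : n ∈ Finset.Icc 1 N) :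
    (n.divisors.card : ℝ) = ∑ d ∈ Finset.Icc 1 N, if d ∣ n then (1 : ℝ) else 0 := by
  rw [Finset.sum_boole]
  congr 2
  ext d
  obtain ⟨h1, h2⟩ := Finset.mem_Icc.1 hn
  simp only [Nat.mem_divisors, Finset.mem_filter, Finset.mem_Icc]
  constructor
  · rintro ⟨hd, hn0⟩
    exact ⟨⟨Nat.pos_of_dvd_of_pos hd (by omega), (Nat.le_of_dvd (by omega) hd).trans h2⟩, hd⟩
  · rintro ⟨-, hd⟩; exact ⟨hd, by omega⟩

theorem divisorSum : DivisorSumStmt := by
  intro N
  constructor
  · rw [Finset.sum_congr rfl fun n hn => divisors_card_eq hn, Finset.sum_comm]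
    calc _ ≤ ∑ d ∈ Finset.Icc 1 N, (N : ℝ) * (d : ℝ)⁻¹ :=
          Finset.sum_le_sum fun d _ => sum_Icc_ite_dvd N d
      _ ≤ _ := by
          rw [← Finset.mul_sum]
          exact mul_le_mul_of_nonneg_left (sum_Icc_inv_le N) (by positivity)
  · calc (∑ n ∈ Finset.Icc 1 N, (n.divisors.card : ℝ) ^ 2)
        = ∑ n ∈ Finset.Icc 1 N, ∑ x ∈ Finset.Icc 1 N ×ˢ Finset.Icc 1 N,
            if Nat.lcm x.1 x.2 ∣ n then (1 : ℝ) else 0 := by
          refine Finset.sum_congr rfl fun n hn => ?_
          rw [sq, divisors_card_eq hn, Finset.sum_mul_sum, Finset.sum_product]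
          refine Finset.sum_congr rfl fun d _ => Finset.sum_congr rfl fun e _ => ?_
          simp only [Nat.lcm_dvd_iff]
          by_cases h1 : d ∣ n <;> by_cases h2 : e ∣ n <;> simp [h1, h2]
      _ ≤ ∑ x ∈ Finset.Icc 1 N ×ˢ Finset.Icc 1 N, (N : ℝ) * ((Nat.lcm x.1 x.2 : ℕ) : ℝ)⁻¹ := by
          rw [Finset.sum_comm]; exact Finset.sum_le_sum fun x _ => sum_Icc_ite_dvd N _
      _ = (N : ℝ) * ∑ y ∈ (Finset.Icc 1 N ×ˢ Finset.Icc 1 N).image (fun x : ℕ × ℕ =>
            (Nat.gcd x.1 x.2, x.1 / Nat.gcd x.1 x.2, x.2 / Nat.gcd x.1 x.2)),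
            (y.1 : ℝ)⁻¹ * ((y.2.1 : ℝ)⁻¹ * (y.2.2 : ℝ)⁻¹) := by
          rw [Finset.sum_image, Finset.mul_sum]
          · refine Finset.sum_congr rfl fun x hx => ?_
            obtain ⟨h1, -⟩ := Finset.mem_product.1 hx
            have hg : 0 < Nat.gcd x.1 x.2 :=
              Nat.gcd_pos_of_pos_left _ (Finset.mem_Icc.1 h1).1
            have e1 := Nat.mul_div_cancel' (Nat.gcd_dvd_left x.1 x.2)
            have e2 := Nat.mul_div_cancel' (Nat.gcd_dvd_right x.1 x.2)
            have e : Nat.lcm x.1 x.2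
                = Nat.gcd x.1 x.2 * ((x.1 / Nat.gcd x.1 x.2) * (x.2 / Nat.gcd x.1 x.2)) := by
              apply Nat.eq_of_mul_eq_mul_left hg
              rw [Nat.gcd_mul_lcm]
              calc x.1 * x.2 = (Nat.gcd x.1 x.2 * (x.1 / Nat.gcd x.1 x.2))
                    * (Nat.gcd x.1 x.2 * (x.2 / Nat.gcd x.1 x.2)) := by rw [e1, e2]
                _ = _ := by ring
            simp only [e, Nat.cast_mul, mul_inv]
          · intro x hx y hy h
            simp only [Prod.mk.injEq] at h
            obtain ⟨h0, h1, h2⟩ := h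
            ext
            · rw [← Nat.mul_div_cancel' (Nat.gcd_dvd_left x.1 x.2), h1, h0,
                Nat.mul_div_cancel' (Nat.gcd_dvd_left y.1 y.2)]
            · rw [← Nat.mul_div_cancel' (Nat.gcd_dvd_right x.1 x.2), h2, h0,
                Nat.mul_div_cancel' (Nat.gcd_dvd_right y.1 y.2)]
      _ ≤ (N : ℝ) * ∑ y ∈ Finset.Icc 1 N ×ˢ (Finset.Icc 1 N ×ˢ Finset.Icc 1 N),
            (y.1 : ℝ)⁻¹ * ((y.2.1 : ℝ)⁻¹ * (y.2.2 : ℝ)⁻¹) := by
          refine mul_le_mul_of_nonneg_left
            (Finset.sum_le_sum_of_subset_of_nonneg ?_ fun _ _ _ => by positivity) (by positivity)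
          intro y hy
          obtain ⟨x, hx, rfl⟩ := Finset.mem_image.1 hy
          simp only [Finset.mem_product, Finset.mem_Icc] at hx ⊢
          obtain ⟨⟨a1, a2⟩, b1, b2⟩ := hx
          have hg : 0 < Nat.gcd x.1 x.2 := Nat.gcd_pos_of_pos_left _ a1
          refine ⟨⟨hg, (Nat.le_of_dvd a1 (Nat.gcd_dvd_left _ _)).trans a2⟩,
            ⟨?_, (Nat.div_le_self _ _).trans a2⟩, ?_, (Nat.div_le_self _ _).trans b2⟩
          · exact Nat.div_pos (Nat.le_of_dvd a1 (Nat.gcd_dvd_left _ _)) hg
          · exact Nat.div_pos (Nat.le_of_dvd b1 (Nat.gcd_dvd_right _ _)) hg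
      _ ≤ (N : ℝ) * (1 + Real.log N) ^ 3 := by
          refine mul_le_mul_of_nonneg_left ?_ (by positivity)
          set H := ∑ d ∈ Finset.Icc 1 N, (d : ℝ)⁻¹ with hH
          have e : ∑ y ∈ Finset.Icc 1 N ×ˢ (Finset.Icc 1 N ×ˢ Finset.Icc 1 N),
              (y.1 : ℝ)⁻¹ * ((y.2.1 : ℝ)⁻¹ * (y.2.2 : ℝ)⁻¹) = H ^ 3 := by
            simp only [Finset.sum_product, ← Finset.mul_sum, ← Finset.sum_mul, ← hH]
            ring
          rw [e]
          exact pow_le_pow_left₀ (Finset.sum_nonneg fun _ _ => by positivity) (sum_Icc_inv_le N) 3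

theorem sum_Icc_rpow_le {s : ℝ} (hs : 0 < s) (hs1 : s ≤ 1) (P : ℕ) :
    ∑ n ∈ Finset.Icc 1 P, (n : ℝ) ^ (s - 1) ≤ (P : ℝ) ^ s / s := by
  induction P with
  | zero => simp [Real.zero_rpow hs.ne']
  | succ k ih =>
    rw [Finset.sum_Icc_succ_top (Nat.le_add_left 1 k)]
    have hn0 : (0 : ℝ) < ((k + 1 : ℕ) : ℝ) := by positivity
    set n : ℝ := ((k + 1 : ℕ) : ℝ) with hn
    have hk : (k : ℝ) = n * (1 + (-1 / n)) := by rw [hn]; push_cast; field_simp; ring
    have hb : (1 + (-1 / n)) ^ s ≤ 1 + s * (-1 / n) := by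
      refine rpow_one_add_le_one_add_mul_self ?_ hs.le hs1
      rw [le_div_iff₀ hn0]
      have : (1 : ℝ) ≤ n := by rw [hn]; exact_mod_cast Nat.le_add_left 1 k
      linarith
    have hpow : (k : ℝ) ^ s ≤ n ^ s - s * n ^ (s - 1) := by
      have h0 : (0 : ℝ) ≤ 1 + (-1 / n) := by
        have : (0 : ℝ) ≤ (k : ℝ) := by positivity
        rw [hk] at this
        exact (mul_nonneg_iff_of_pos_left hn0).1 this
      rw [hk, Real.mul_rpow hn0.le h0, Real.rpow_sub_one hn0.ne']
      calc n ^ s * (1 + (-1 / n)) ^ s ≤ n ^ s * (1 + s * (-1 / n)) :=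
            mul_le_mul_of_nonneg_left hb (by positivity)
        _ = n ^ s - s * (n ^ s / n) := by field_simp; ring
    rw [le_div_iff₀ hs] at ih ⊢
    nlinarith

theorem sum_smooth_le {t : ℝ} (ht : 0 < t) (S : Finset ℕ) : (∀ p ∈ S, p.Prime) → ∀ N : ℕ,
    ∑ n ∈ (Finset.Icc 1 N).filter (fun n => n.primeFactors ⊆ S), (n : ℝ) ^ (-t) ≤
      ∏ p ∈ S, (1 - (p : ℝ) ^ (-t))⁻¹ := by
  induction S using Finset.induction_on with
  | empty =>
    intro _ N
    rw [Finset.prod_empty]
    refine (Finset.sum_le_sum_of_subset_of_nonneg (t := {1}) ?_ fun _ _ _ => by positivity).trans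
      (by simp)
    intro n hn
    simp only [Finset.mem_filter, Finset.mem_Icc, Finset.subset_empty,
      Nat.primeFactors_eq_empty] at hn
    simp only [Finset.mem_singleton]
    omega
  | @insert p S hp ih =>
    intro hS N
    have hpp := hS p (Finset.mem_insert_self p S)
    have hS' : ∀ q ∈ S, q.Prime := fun q hq => hS q (Finset.mem_insert_of_mem hq)
    rw [Finset.prod_insert hp]
    set x := (p : ℝ) ^ (-t) with hx
    have hx0 : 0 ≤ x := by positivity
    have hx1 : x < 1 := Real.rpow_lt_one_of_one_lt_of_neg (by exact_mod_cast hpp.one_lt) (by linarith)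
    set F := (Finset.Icc 1 N).filter (fun n => n.primeFactors ⊆ insert p S) with hF
    set G := (Finset.Icc 1 N).filter (fun n => n.primeFactors ⊆ S) with hG
    let φ : ℕ → ℕ × ℕ := fun n => (n.factorization p, ordCompl[p] n)
    have hφ : Set.InjOn φ (F : Set ℕ) := by
      intro a _ b _ h
      simp only [φ, Prod.mk.injEq] at h
      rw [← Nat.ordProj_mul_ordCompl_eq_self a p, h.2, h.1, Nat.ordProj_mul_ordCompl_eq_self]
    have hval : ∀ n ∈ F, (n : ℝ) ^ (-t) = x ^ (φ n).1 * ((φ n).2 : ℝ) ^ (-t) := by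
      intro n _
      conv_lhs => rw [← Nat.ordProj_mul_ordCompl_eq_self n p]
      simp only [φ, Nat.cast_mul, Nat.cast_pow]
      rw [Real.mul_rpow (by positivity) (by positivity), ← Real.rpow_pow_comm (by positivity)]
    have hmem : F.image φ ⊆ Finset.range (N + 1) ×ˢ G := by
      intro y hy
      obtain ⟨n, hn, rfl⟩ := Finset.mem_image.1 hy
      simp only [hF, Finset.mem_filter, Finset.mem_Icc] at hn
      have hn0 : n ≠ 0 := by omega
      simp only [φ, hG, Finset.mem_product, Finset.mem_range, Finset.mem_filter, Finset.mem_Icc]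
      refine ⟨?_, ⟨Nat.ordCompl_pos p hn0, (Nat.ordCompl_le n p).trans hn.1.2⟩, ?_⟩
      · have := Nat.factorization_lt p hn0; omega
      · intro q hq
        have hqd : q ∣ ordCompl[p] n := Nat.dvd_of_mem_primeFactors hq
        have hqn : q ∈ n.primeFactors := Nat.mem_primeFactors.2
          ⟨Nat.prime_of_mem_primeFactors hq, hqd.trans (Nat.ordCompl_dvd n p), hn0⟩
        rcases Finset.mem_insert.1 (hn.2 hqn) with rfl | h
        · exact absurd hqd (Nat.not_dvd_ordCompl hpp hn0)
        · exact h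
    calc ∑ n ∈ F, (n : ℝ) ^ (-t) = ∑ y ∈ F.image φ, x ^ y.1 * (y.2 : ℝ) ^ (-t) := by
          rw [Finset.sum_image hφ]; exact Finset.sum_congr rfl hval
      _ ≤ ∑ y ∈ Finset.range (N + 1) ×ˢ G, x ^ y.1 * (y.2 : ℝ) ^ (-t) :=
          Finset.sum_le_sum_of_subset_of_nonneg hmem fun _ _ _ => by positivity
      _ = (∑ k ∈ Finset.range (N + 1), x ^ k) * ∑ m ∈ G, (m : ℝ) ^ (-t) := by
          rw [Finset.sum_mul_sum, Finset.sum_product]
      _ ≤ _ := by
          refine mul_le_mul ?_ (ih hS' N) (Finset.sum_nonneg fun _ _ => by positivity)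
            (by rw [inv_nonneg]; linarith)
          rw [← tsum_geometric_of_lt_one hx0 hx1]
          exact (summable_geometric_of_lt_one hx0 hx1).sum_le_tsum _ fun _ _ => by positivity

theorem smoothTail : SmoothTailStmt := by
  refine ⟨4, fun s P N Y hs hs2 hY => ?_⟩
  set S := (Finset.Icc 1 P).filter Nat.Prime with hSdef
  set t := 1 - s with htdef
  have ht : 0 < t := by linarith
  have hY0 : 0 < Y := by linarith
  calc ∑ n ∈ (Finset.Icc 1 N).filter (fun n : ℕ => Y < (n : ℝ) ∧ ∀ p ∈ n.primeFactors, p ≤ P),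
        (n : ℝ)⁻¹
      ≤ ∑ n ∈ (Finset.Icc 1 N).filter (fun n : ℕ => Y < (n : ℝ) ∧ ∀ p ∈ n.primeFactors, p ≤ P),
          Y ^ (-s) * (n : ℝ) ^ (-t) := by
        refine Finset.sum_le_sum fun n hn => ?_
        obtain ⟨-, hYn, -⟩ := Finset.mem_filter.1 hn
        have hn0 : (0 : ℝ) < n := hY0.trans hYn
        have h1 : (n : ℝ) ^ (-s) ≤ Y ^ (-s) :=
          Real.rpow_le_rpow_of_nonpos hY0 hYn.le (by linarith)
        have h2 : (n : ℝ)⁻¹ = (n : ℝ) ^ (-s) * (n : ℝ) ^ (-t) := by
          rw [← Real.rpow_add hn0, ← Real.rpow_neg_one]; congr 1; rw [htdef]; ring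
        rw [h2]
        exact mul_le_mul_of_nonneg_right h1 (by positivity)
    _ ≤ Y ^ (-s) * ∑ n ∈ (Finset.Icc 1 N).filter (fun n => n.primeFactors ⊆ S),
          (n : ℝ) ^ (-t) := by
        rw [← Finset.mul_sum]
        refine mul_le_mul_of_nonneg_left
          (Finset.sum_le_sum_of_subset_of_nonneg ?_ fun _ _ _ => by positivity) (by positivity)
        intro n hn
        simp only [Finset.mem_filter] at hn ⊢
        refine ⟨hn.1, fun p hp => ?_⟩
        have hpp := Nat.prime_of_mem_primeFactors hp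
        simp only [hSdef, Finset.mem_filter, Finset.mem_Icc]
        exact ⟨⟨hpp.one_le, hn.2.2 p hp⟩, hpp⟩
    _ ≤ Y ^ (-s) * ∏ p ∈ S, (1 - (p : ℝ) ^ (-t))⁻¹ := by
        refine mul_le_mul_of_nonneg_left ?_ (by positivity)
        exact sum_smooth_le ht S (fun p hp => (Finset.mem_filter.1 hp).2) N
    _ ≤ Y ^ (-s) * Real.exp (4 * (1 + (P : ℝ) ^ s / s)) := by
        refine mul_le_mul_of_nonneg_left ?_ (by positivity)
        calc ∏ p ∈ S, (1 - (p : ℝ) ^ (-t))⁻¹ ≤ ∏ p ∈ S, Real.exp (4 * (p : ℝ) ^ (-t)) := by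
              refine Finset.prod_le_prod ?_ ?_
              · intro p hp
                have hp2 : (1 : ℝ) < p := by exact_mod_cast (Finset.mem_filter.1 hp).2.one_lt
                have := Real.rpow_lt_one_of_one_lt_of_neg hp2 (by linarith : -t < 0)
                rw [inv_nonneg]; linarith
              · intro p hp
                have hp2 : (2 : ℝ) ≤ p := by exact_mod_cast (Finset.mem_filter.1 hp).2.two_le
                set x := (p : ℝ) ^ (-t) with hx
                have hx0 : 0 ≤ x := by positivity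
                have hx34 : x ≤ 3 / 4 := by
                  have ha : x ≤ (p : ℝ) ^ (-(1 / 2) : ℝ) :=
                    Real.rpow_le_rpow_of_exponent_le (by linarith) (by rw [htdef]; linarith)
                  have hb : (p : ℝ) ^ (-(1 / 2) : ℝ) ≤ (2 : ℝ) ^ (-(1 / 2) : ℝ) :=
                    Real.rpow_le_rpow_of_nonpos (by norm_num) hp2 (by norm_num)
                  have hc : (2 : ℝ) ^ (-(1 / 2) : ℝ) ≤ 3 / 4 := by
                    rw [Real.rpow_neg (by norm_num), ← Real.sqrt_eq_rpow, inv_le_comm₀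
                      (by positivity) (by norm_num)]
                    exact Real.le_sqrt_of_sq_le (by norm_num)
                  linarith
                refine le_trans ?_ (Real.add_one_le_exp _)
                rw [inv_le_iff_one_le_mul₀ (by linarith)]
                nlinarith
          _ = Real.exp (∑ p ∈ S, 4 * (p : ℝ) ^ (-t)) := (Real.exp_sum _ _).symm
          _ ≤ _ := by
              apply Real.exp_le_exp.2
              rw [← Finset.mul_sum]
              refine mul_le_mul_of_nonneg_left ?_ (by norm_num)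
              have h1 : ∑ p ∈ S, (p : ℝ) ^ (-t) ≤ ∑ n ∈ Finset.Icc 1 P, (n : ℝ) ^ (-t) :=
                Finset.sum_le_sum_of_subset_of_nonneg (Finset.filter_subset _ _)
                  fun _ _ _ => by positivity
              have e : -t = s - 1 := by rw [htdef]; ring
              rw [e] at h1 ⊢
              linarith [sum_Icc_rpow_le hs (by linarith) P]

theorem prime_block {k : ℕ} (hk : 1 ≤ k) :
    ∏ p ∈ (Finset.Ioc (2 ^ k) (2 ^ (k + 1))).filter Nat.Prime, ((p : ℝ) / (p - 1)) ≤
      (((k : ℝ) + 1) / k) ^ 8 := by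
  set F := (Finset.Ioc (2 ^ k) (2 ^ (k + 1))).filter Nat.Prime with hF
  have hcard : k * F.card ≤ 4 * 2 ^ k := by
    have h1 : (2 ^ k) ^ F.card ≤ ∏ p ∈ F, p := Finset.pow_card_le_prod _ _ _ fun p hp =>
      (Finset.mem_Ioc.1 (Finset.mem_filter.1 hp).1).1.le
    have h2 : ∏ p ∈ F, p ≤ primorial (2 ^ (k + 1)) := by
      apply Finset.prod_le_prod_of_subset_of_one_le'
      · intro p hp
        obtain ⟨hp1, hp2⟩ := Finset.mem_filter.1 hp
        exact Finset.mem_filter.2 ⟨Finset.mem_range.2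
          (Nat.lt_succ_of_le (Finset.mem_Ioc.1 hp1).2), hp2⟩
      · intro p hp _
        exact (Finset.mem_filter.1 hp).2.one_le
    have h3 := h1.trans (h2.trans (primorial_le_four_pow _))
    rw [← pow_mul, show (4 : ℕ) = 2 ^ 2 by norm_num, ← pow_mul,
      Nat.pow_le_pow_iff_right (by norm_num)] at h3
    calc k * F.card ≤ 2 * 2 ^ (k + 1) := h3
      _ = 4 * 2 ^ k := by ring
  have hk0 : (0 : ℝ) < k := by exact_mod_cast hk
  have h2k : (0 : ℝ) < (2 : ℝ) ^ k := by positivity
  calc ∏ p ∈ F, ((p : ℝ) / (p - 1)) ≤ ∏ _p ∈ F, Real.exp (((2 : ℝ) ^ k)⁻¹) := by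
        refine Finset.prod_le_prod ?_ ?_
        · intro p hp
          have : (1 : ℝ) ≤ p := by exact_mod_cast (Finset.mem_filter.1 hp).2.one_le
          exact div_nonneg (by positivity) (by linarith)
        · intro p hp
          have hp1 : (2 : ℝ) ^ k + 1 ≤ p := by
            exact_mod_cast (Finset.mem_Ioc.1 (Finset.mem_filter.1 hp).1).1
          refine le_trans ?_ (Real.add_one_le_exp _)
          rw [div_le_iff₀ (by linarith)]
          have h : (1 : ℝ) ≤ ((2 : ℝ) ^ k)⁻¹ * (p - 1) := by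
            rw [← div_eq_inv_mul, le_div_iff₀ h2k]; linarith
          linarith
    _ = Real.exp (F.card * ((2 : ℝ) ^ k)⁻¹) := by rw [Finset.prod_const, ← Real.exp_nat_mul]
    _ ≤ Real.exp (4 / k) := by
        apply Real.exp_le_exp.2
        rw [← div_eq_mul_inv, div_le_div_iff₀ h2k hk0]
        exact_mod_cast (by rw [mul_comm]; exact hcard : F.card * k ≤ 4 * 2 ^ k)
    _ ≤ (((k : ℝ) + 1) / k) ^ 8 := by
        rw [← Real.exp_log (by positivity : (0 : ℝ) < (((k : ℝ) + 1) / k) ^ 8), Real.log_pow]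
        apply Real.exp_le_exp.2
        have h := Real.one_sub_inv_le_log_of_pos (by positivity : (0 : ℝ) < ((k : ℝ) + 1) / k)
        have e : 1 - (((k : ℝ) + 1) / k)⁻¹ = 1 / ((k : ℝ) + 1) := by field_simp; ring
        rw [e] at h
        have : 4 / (k : ℝ) ≤ 8 * (1 / ((k : ℝ) + 1)) := by
          rw [mul_one_div, div_le_div_iff₀ hk0 (by positivity)]
          have : (1 : ℝ) ≤ k := by exact_mod_cast hk
          linarith
        push_cast
        linarith

theorem prime_blocks (i : ℕ) : ∀ j, i ≤ j →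
    ∏ p ∈ (Finset.Ioc (2 ^ i) (2 ^ j)).filter Nat.Prime, ((p : ℝ) / (p - 1)) ≤
      (if i = 0 then 2 else 1) * (((max j 1 : ℕ) : ℝ) / ((max i 1 : ℕ) : ℝ)) ^ 8 := by
  intro j hij
  induction j, hij using Nat.le_induction with
  | base =>
    rw [Finset.Ioc_self, Finset.filter_empty, Finset.prod_empty, div_self (by positivity), one_pow]
    split_ifs <;> norm_num
  | succ j hij ih =>
    rcases Nat.eq_zero_or_pos j with hj | hj
    · obtain rfl : i = 0 := by omega
      subst hj
      have hs : (Finset.Ioc (2 ^ 0) (2 ^ (0 + 1))).filter Nat.Prime = {2} := by decide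
      rw [hs]
      norm_num
    · have hsplit : Finset.Ioc (2 ^ i) (2 ^ (j + 1))
          = Finset.Ioc (2 ^ i) (2 ^ j) ∪ Finset.Ioc (2 ^ j) (2 ^ (j + 1)) :=
        (Finset.Ioc_union_Ioc_eq_Ioc (Nat.pow_le_pow_right (by norm_num) hij)
          (Nat.pow_le_pow_right (by norm_num) (Nat.le_succ j))).symm
      rw [hsplit, Finset.filter_union, Finset.prod_union]
      · refine (mul_le_mul ih (prime_block hj) ?_ (by split_ifs <;> positivity)).trans_eq ?_
        · refine Finset.prod_nonneg fun p hp => ?_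
          have : (1 : ℝ) ≤ p := by exact_mod_cast (Finset.mem_filter.1 hp).2.one_le
          exact div_nonneg (by positivity) (by linarith)
        · rw [mul_assoc, ← mul_pow, max_eq_left hj, max_eq_left (by omega : 1 ≤ j + 1)]
          have : (0 : ℝ) < j := by exact_mod_cast hj
          congr 2
          push_cast
          field_simp
      · exact Finset.disjoint_filter_filter (Finset.Ioc_disjoint_Ioc_of_le le_rfl)

theorem mertens : MertensStmt := by
  refine ⟨2 * 6 ^ 8, fun a b hab => ?_⟩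
  set i := Nat.log 2 a with hi
  set j := Nat.log 2 b + 1 with hj
  have hij : i ≤ j := (Nat.log_mono_right hab).trans (Nat.le_succ _)
  have hnn : ∀ p : ℕ, p.Prime → (1 : ℝ) ≤ (p : ℝ) / (p - 1) := by
    intro p hp
    have : (2 : ℝ) ≤ p := by exact_mod_cast hp.two_le
    rw [le_div_iff₀ (by linarith)]; linarith
  calc ∏ p ∈ (Finset.Ioc a b).filter Nat.Prime, ((p : ℝ) / (p - 1))
      ≤ ∏ p ∈ (Finset.Ioc (2 ^ i) (2 ^ j)).filter Nat.Prime, ((p : ℝ) / (p - 1)) := by
        refine Finset.prod_le_prod_of_subset_of_one_le ?_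
          (fun p hp => zero_le_one.trans (hnn p (Finset.mem_filter.1 hp).2))
          fun p hp _ => hnn p (Finset.mem_filter.1 hp).2
        intro p hp
        obtain ⟨hp1, hp2⟩ := Finset.mem_filter.1 hp
        obtain ⟨hap, hpb⟩ := Finset.mem_Ioc.1 hp1
        refine Finset.mem_filter.2 ⟨Finset.mem_Ioc.2 ⟨?_, ?_⟩, hp2⟩
        · rcases Nat.eq_zero_or_pos a with ha | ha
          · have : i = 0 := by rw [hi, ha, Nat.log_zero_right]
            rw [this]; exact hp2.one_lt
          · exact lt_of_le_of_lt (Nat.pow_log_le_self 2 ha.ne') hap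
        · exact hpb.trans (Nat.lt_pow_succ_log_self (by norm_num) b).le
    _ ≤ (if i = 0 then 2 else 1) * (((max j 1 : ℕ) : ℝ) / ((max i 1 : ℕ) : ℝ)) ^ 8 :=
        prime_blocks i j hij
    _ ≤ 2 * (6 * ((1 + Real.log b) / (1 + Real.log ((a : ℝ) + 1)))) ^ 8 := by
        refine mul_le_mul (by split_ifs <;> norm_num) (pow_le_pow_left₀ (by positivity) ?_ 8)
          (by positivity) (by norm_num)
        have hl2 := Real.log_two_gt_d9
        have hl2' := Real.log_two_lt_d9
        have hb0 : 0 ≤ Real.log b := Real.log_natCast_nonneg b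
        have hjle : ((max j 1 : ℕ) : ℝ) ≤ 2 * (1 + Real.log b) := by
          rw [max_eq_left (by omega : 1 ≤ j), hj]
          push_cast
          rcases Nat.eq_zero_or_pos b with hb | hb
          · simp [hb]
          · have h : ((2 : ℝ)) ^ Nat.log 2 b ≤ b := by
              exact_mod_cast Nat.pow_log_le_self 2 hb.ne'
            have h' := Real.log_le_log (by positivity) h
            rw [Real.log_pow] at h'
            nlinarith [(Nat.cast_nonneg (Nat.log 2 b) : (0 : ℝ) ≤ _)]
        have hile : 1 + Real.log ((a : ℝ) + 1) ≤ 3 * ((max i 1 : ℕ) : ℝ) := by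
          have h : ((a : ℝ) + 1) ≤ (2 : ℝ) ^ (i + 1) := by
            exact_mod_cast Nat.lt_pow_succ_log_self (by norm_num : 1 < 2) a
          have h' := Real.log_le_log (by positivity) h
          rw [Real.log_pow] at h'
          push_cast at h'
          have h1 : (i : ℝ) ≤ ((max i 1 : ℕ) : ℝ) := by exact_mod_cast le_max_left i 1
          have h2 : (1 : ℝ) ≤ ((max i 1 : ℕ) : ℝ) := by exact_mod_cast le_max_right i 1
          nlinarith [(Nat.cast_nonneg i : (0 : ℝ) ≤ _)]
        have ha0 : 0 < 1 + Real.log ((a : ℝ) + 1) := by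
          have : 0 ≤ Real.log ((a : ℝ) + 1) :=
            Real.log_nonneg (by linarith [(Nat.cast_nonneg a : (0 : ℝ) ≤ _)])
          linarith
        have hm0 : (0 : ℝ) < ((max i 1 : ℕ) : ℝ) := by positivity
        rw [← mul_div_assoc, div_le_div_iff₀ hm0 ha0]
        calc ((max j 1 : ℕ) : ℝ) * (1 + Real.log ((a : ℝ) + 1))
            ≤ 2 * (1 + Real.log b) * (3 * ((max i 1 : ℕ) : ℝ)) :=
              mul_le_mul hjle hile ha0.le (by linarith)
          _ = _ := by ring
    _ = _ := by rw [mul_pow]; ring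

theorem primeEvent : PrimeEventStmt := by
  refine ⟨Real.exp 8, ?_⟩
  intro a S X N ha hS hX
  set c := Real.sqrt a with hc
  have hc1 : 1 ≤ c := Real.one_le_sqrt.2 ha
  have hc0 : 0 < c := by linarith
  have hca : c * c = a := Real.mul_self_sqrt (by linarith)
  set u : ℕ → ℝ := fun p => Real.exp (c / p) - 1 with hu
  have hp0 : ∀ p ∈ S, (0 : ℝ) < p := fun p hp => by linarith [(hS p hp).2]
  have hu0 : ∀ p ∈ S, 0 ≤ u p := fun p hp => by
    have : 0 ≤ c / p := by positivity
    simp only [hu]; linarith [Real.add_one_le_exp (c / (p : ℝ))]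
  set G : ℕ → ℝ := fun t => ∏ p ∈ S, (1 + if p ∣ t then u p else 0) with hG
  have hG0 : ∀ t, 0 ≤ G t := fun t => Finset.prod_nonneg fun p hp => by
    split_ifs <;> linarith [hu0 p hp]
  set K := Real.exp (-c / 2) * (X : ℝ) ^ (2 / c) with hK
  have hX0 : (0 : ℝ) < X := by exact_mod_cast hX
  -- pointwise
  have hpt : ∀ t ∈ Finset.Icc 1 N,
      (if 1 / 2 < ∑ p ∈ S.filter (fun p => p ∣ X * t), (p : ℝ)⁻¹ then (1 : ℝ) else 0) ≤ K * G t := by
    intro t _
    have hKG : 0 ≤ K * G t := mul_nonneg (by positivity) (hG0 t)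
    split_ifs with h
    swap
    · exact hKG
    have hGt : G t = Real.exp (c * ∑ p ∈ S.filter (fun p => p ∣ t), (p : ℝ)⁻¹) := by
      rw [Finset.mul_sum, Real.exp_sum, Finset.prod_filter]
      simp only [hG, hu]
      refine Finset.prod_congr rfl fun p _ => ?_
      split_ifs
      · rw [← div_eq_mul_inv]; ring
      · simp
    have hsum : ∑ p ∈ S.filter (fun p => p ∣ X * t), (p : ℝ)⁻¹
        ≤ ∑ p ∈ S.filter (fun p => p ∣ X), (p : ℝ)⁻¹
          + ∑ p ∈ S.filter (fun p => p ∣ t), (p : ℝ)⁻¹ := by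
      simp only [Finset.sum_filter, ← Finset.sum_add_distrib]
      refine Finset.sum_le_sum fun p hp => ?_
      have hinv : (0 : ℝ) ≤ (p : ℝ)⁻¹ := by positivity
      by_cases h1 : p ∣ X <;> by_cases h2 : p ∣ t <;>
        simp [h1, h2, (hS p hp).1.dvd_mul, hinv]
    have hXs : c * ∑ p ∈ S.filter (fun p => p ∣ X), (p : ℝ)⁻¹ ≤ 2 * Real.log X / c := by
      have hsub : S.filter (fun p => p ∣ X) ⊆ X.primeFactors := fun p hp => by
        obtain ⟨hp, hd⟩ := Finset.mem_filter.1 hp
        exact Nat.mem_primeFactors.2 ⟨(hS p hp).1, hd, by omega⟩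
      calc c * ∑ p ∈ S.filter (fun p => p ∣ X), (p : ℝ)⁻¹
          ≤ c * ∑ _p ∈ S.filter (fun p => p ∣ X), a⁻¹ := by
            refine mul_le_mul_of_nonneg_left (Finset.sum_le_sum fun p hp => ?_) hc0.le
            exact inv_anti₀ (by linarith) (hS p (Finset.mem_filter.1 hp).1).2.le
        _ = ((S.filter (fun p => p ∣ X)).card : ℝ) / c := by
            rw [Finset.sum_const, nsmul_eq_mul, ← hca]; field_simp
        _ ≤ 2 * Real.log X / c := by
            rw [div_le_div_iff_of_pos_right hc0]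
            exact le_trans (by exact_mod_cast Finset.card_le_card hsub) (card_primeFactors_le hX)
    rw [hGt, hK, Real.rpow_def_of_pos hX0, ← Real.exp_add, ← Real.exp_add]
    rw [Real.one_le_exp_iff]
    have h2 : c * (1 / 2) < c * ∑ p ∈ S.filter (fun p => p ∣ X * t), (p : ℝ)⁻¹ :=
      mul_lt_mul_of_pos_left h hc0
    have h3 := mul_le_mul_of_nonneg_left hsum hc0.le
    have e : Real.log X * (2 / c) = 2 * Real.log X / c := by ring
    rw [e]
    linarith
  -- the moment
  have hmom : ∑ t ∈ Finset.Icc 1 N, G t ≤ (N : ℝ) * Real.exp 8 := by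
    calc ∑ t ∈ Finset.Icc 1 N, G t
        = ∑ T ∈ S.powerset, (∏ p ∈ T, u p) *
            ∑ t ∈ Finset.Icc 1 N, (if (∏ p ∈ T, p) ∣ t then (1 : ℝ) else 0) := by
          simp only [hG, Finset.prod_one_add, Finset.mul_sum]
          rw [Finset.sum_comm]
          refine Finset.sum_congr rfl fun T hT => Finset.sum_congr rfl fun t _ => ?_
          have hTp : ∀ p ∈ T, p.Prime := fun p hp => (hS p (Finset.mem_powerset.1 hT hp)).1
          have hiff : (∏ p ∈ T, p) ∣ t ↔ ∀ p ∈ T, p ∣ t :=
            ⟨fun h p hp => (Finset.dvd_prod_of_mem _ hp).trans h,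
              fun h => Finset.prod_primes_dvd t (fun p hp => (hTp p hp).prime) h⟩
          rw [Finset.prod_ite_zero]
          by_cases hd : ∀ p ∈ T, p ∣ t
          · rw [if_pos hd, if_pos (hiff.2 hd), mul_one]
          · rw [if_neg hd, if_neg (fun h => hd (hiff.1 h)), mul_zero]
      _ ≤ ∑ T ∈ S.powerset, (∏ p ∈ T, u p) * ((N : ℝ) * ((∏ p ∈ T, p : ℕ) : ℝ)⁻¹) :=
          Finset.sum_le_sum fun T hT => mul_le_mul_of_nonneg_left (sum_Icc_ite_dvd N _)
            (Finset.prod_nonneg fun p hp => hu0 p (Finset.mem_powerset.1 hT hp))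
      _ = (N : ℝ) * ∏ p ∈ S, (1 + u p * (p : ℝ)⁻¹) := by
          rw [Finset.prod_one_add, Finset.mul_sum]
          refine Finset.sum_congr rfl fun T _ => ?_
          rw [Finset.prod_mul_distrib, Finset.prod_inv_distrib, Nat.cast_prod]
          ring
      _ ≤ (N : ℝ) * Real.exp 8 := by
          refine mul_le_mul_of_nonneg_left ?_ (by positivity)
          calc ∏ p ∈ S, (1 + u p * (p : ℝ)⁻¹) ≤ ∏ p ∈ S, Real.exp (2 * c * ((p : ℝ) ^ 2)⁻¹) := by
                refine Finset.prod_le_prod (fun p hp => ?_) fun p hp => ?_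
                · have := hu0 p hp
                  positivity
                · have hp' := (hS p hp).2
                  have hp0' := hp0 p hp
                  have hx0 : 0 ≤ c / p := by positivity
                  have hx1 : c / p ≤ 1 := by
                    rw [div_le_one hp0']
                    exact le_trans (le_mul_of_one_le_left hc0.le hc1) (by linarith)
                  have hexp : u p ≤ 2 * (c / p) := by
                    simp only [hu]
                    have := Real.abs_exp_sub_one_le (x := c / p) (by rw [abs_of_nonneg hx0]; exact hx1)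
                    rw [abs_of_nonneg hx0] at this
                    exact (le_abs_self _).trans this
                  have h1 : u p * (p : ℝ)⁻¹ ≤ 2 * (c / p) * (p : ℝ)⁻¹ :=
                    mul_le_mul_of_nonneg_right hexp (by positivity)
                  have e : 2 * (c / p) * (p : ℝ)⁻¹ = 2 * c * ((p : ℝ) ^ 2)⁻¹ := by field_simp
                  rw [e] at h1
                  linarith [Real.add_one_le_exp (2 * c * ((p : ℝ) ^ 2)⁻¹)]
            _ = Real.exp (2 * c * ∑ p ∈ S, ((p : ℝ) ^ 2)⁻¹) := by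
                rw [Finset.mul_sum, Real.exp_sum]
            _ ≤ Real.exp 8 := by
                apply Real.exp_le_exp.2
                set k := ⌊a⌋₊ with hk
                have hk1 : 1 ≤ k := Nat.le_floor (by exact_mod_cast ha)
                have hk0 : (0 : ℝ) < k := by exact_mod_cast hk1
                have hsum : ∑ p ∈ S, ((p : ℝ) ^ 2)⁻¹ ≤ (k : ℝ)⁻¹ := by
                  set n := max k (S.sup id) with hn
                  have hsub : S ⊆ Finset.Ioc k n := fun p hp => Finset.mem_Ioc.2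
                    ⟨(Nat.floor_lt (by linarith)).2 (hS p hp).2,
                      le_max_of_le_right (Finset.le_sup (f := id) hp)⟩
                  calc ∑ p ∈ S, ((p : ℝ) ^ 2)⁻¹ ≤ ∑ p ∈ Finset.Ioc k n, ((p : ℝ) ^ 2)⁻¹ :=
                        Finset.sum_le_sum_of_subset_of_nonneg hsub fun _ _ _ => by positivity
                    _ ≤ (k : ℝ)⁻¹ - (n : ℝ)⁻¹ :=
                        sum_Ioc_inv_sq_le_sub (by omega) (le_max_left _ _)
                    _ ≤ (k : ℝ)⁻¹ := by
                        have : (0 : ℝ) ≤ (n : ℝ)⁻¹ := by positivity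
                        linarith
                have hak : a ≤ 2 * k := by
                  have := Nat.lt_floor_add_one a
                  have : (1 : ℝ) ≤ k := by exact_mod_cast hk1
                  rw [← hk] at *
                  linarith
                have hck : c * (k : ℝ)⁻¹ ≤ 2 := by
                  rw [← div_eq_mul_inv, div_le_iff₀ hk0]
                  nlinarith
                nlinarith [mul_le_mul_of_nonneg_left hsum hc0.le]
  calc (((Finset.Icc 1 N).filter
        (fun t : ℕ => 1 / 2 < ∑ p ∈ S.filter (fun p => p ∣ X * t), (p : ℝ)⁻¹)).card : ℝ)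
      = ∑ t ∈ Finset.Icc 1 N,
          (if 1 / 2 < ∑ p ∈ S.filter (fun p => p ∣ X * t), (p : ℝ)⁻¹ then (1 : ℝ) else 0) := by
        rw [Finset.sum_boole]
    _ ≤ ∑ t ∈ Finset.Icc 1 N, K * G t := Finset.sum_le_sum hpt
    _ ≤ K * ((N : ℝ) * Real.exp 8) := by
        rw [← Finset.mul_sum]; exact mul_le_mul_of_nonneg_left hmom (by positivity)
    _ = _ := by rw [hK]; ring

end Vale.Agent.P028
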