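import Mathlib

/-! Elementary number theory needed for the weak inhomogeneous Duffin–Schaeffer bounds. -/

namespace Vale.Agent.P028

open Finset Real

/-- Crude Mertens bound over a range of primes. -/
def MertensStmt : Prop :=
  ∃ C : ℝ, ∀ a b : ℕ, a ≤ b →
    ∏ p ∈ (Finset.Ioc a b).filter Nat.Prime, ((p : ℝ) / (p - 1)) ≤
      C * ((1 + Real.log b) / (1 + Real.log ((a : ℝ) + 1))) ^ (8 : ℕ)

/-- First and second moments of the divisor function. -/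
def DivisorSumStmt : Prop :=
  ∀ N : ℕ,
    (∑ n ∈ Finset.Icc 1 N, (n.divisors.card : ℝ)) ≤ N * (1 + Real.log N) ∧
    (∑ n ∈ Finset.Icc 1 N, (n.divisors.card : ℝ) ^ 2) ≤ N * (1 + Real.log N) ^ 3

/-- Large prime divisors contribute little to `n / φ(n)`. -/
def BigFactorsStmt : Prop :=
  ∀ (M : ℕ) (Y : ℝ), 1 ≤ M → 2 ≤ Y →
    ∏ p ∈ M.primeFactors.filter (fun p : ℕ => Y < (p : ℝ)), ((p : ℝ) / (p - 1)) ≤
      Real.exp (4 * Real.log M / Y)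

/-- A constant to the number of prime divisors is at most a small power. -/
def OmegaPowStmt : Prop :=
  ∀ K ε : ℝ, 1 ≤ K → 0 < ε → ∃ C : ℝ, ∀ B : ℕ, 1 ≤ B →
    K ^ B.primeFactors.card ≤ C * (B : ℝ) ^ ε

/-- `2 ^ ω(q)` is negligible against `φ(q)`. -/
def PhiStmt : Prop :=
  (∀ q : ℕ, 1 ≤ q → 1 / ((q.primeFactors.card : ℝ) + 1) ≤ (Nat.totient q : ℝ) / q) ∧
  ∀ η : ℝ, 0 < η → ∃ Q₀ : ℕ, ∀ q, Q₀ ≤ q →
    (2 : ℝ) ^ q.primeFactors.card + 2 ≤ η * Nat.totient q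

/-- Rankin bound for numbers composed of primes up to `P`. -/
def SmoothTailStmt : Prop :=
  ∃ C : ℝ, ∀ (s : ℝ) (P N : ℕ) (Y : ℝ), 0 < s → s ≤ 1 / 2 → 1 ≤ Y →
    ∑ n ∈ (Finset.Icc 1 N).filter (fun n : ℕ => Y < (n : ℝ) ∧ ∀ p ∈ n.primeFactors, p ≤ P),
      (n : ℝ)⁻¹ ≤ Y ^ (-s) * Real.exp (C * (1 + (P : ℝ) ^ s / s))

/-- Exponential moment: multiples of `X` seldom have many prime divisors in `S`, all above `a`. -/
def PrimeEventStmt : Prop :=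
  ∃ C : ℝ, ∀ (a : ℝ) (S : Finset ℕ) (X N : ℕ), 1 ≤ a → (∀ p ∈ S, p.Prime ∧ a < (p : ℝ)) → 1 ≤ X →
    (((Finset.Icc 1 N).filter
      (fun t : ℕ => 1 / 2 < ∑ p ∈ S.filter (fun p => p ∣ X * t), (p : ℝ)⁻¹)).card : ℝ) ≤
      C * N * Real.exp (-(Real.sqrt a) / 2) * (X : ℝ) ^ (2 / Real.sqrt a)

end Vale.Agent.P028
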