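import Vale.Agent.P028.Kernel

/-! A bilinear inequality for weighted pairs of integers graded by their gcd.

Primes are resolved one after the other. At a prime where both families are not concentrated at a
common exponent the exponent kernel is a contraction on `θ`-th powers; if every remaining prime is
concentrated, the pairs deviating simultaneously are absorbed and the others go to the leaf bound. -/

namespace Vale.Agent.P028

open Finset Real

/-- Exponents of all primes in `R` are constant on `V`. -/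
def ExpConst (R V : Finset ℕ) : Prop :=
  ∀ p ∈ R, ∀ v ∈ V, ∀ v' ∈ V, v.factorization p = v'.factorization p

/-- Shrinking factor of the resolved primes. -/
def shiftWt (t₁ t₂ : ℕ → ℝ) (R : Finset ℕ) (v w : ℕ) : ℝ :=
  ∏ p ∈ R, expKer (t₁ p) (t₂ p) (v.factorization p) (w.factorization p)

/-- `(v, w)` does not deviate from `N` on both sides at a prime outside `R`. -/
def Apart (R : Finset ℕ) (N : ℕ → ℕ) (v w : ℕ) : Prop :=
  ∀ p, p ∉ R → v.factorization p = N p ∨ w.factorization p = N p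

noncomputable def dev (N : ℕ → ℕ) (V : Finset ℕ) (p : ℕ) : Finset ℕ :=
  V.filter (fun v => v.factorization p ≠ N p)

/-- The data of the bilinear inequality. -/
structure GcdSys where
  θ : ℝ
  η : ℝ
  t₁ : ℕ → ℝ
  t₂ : ℕ → ℝ
  R₀ : Finset ℕ
  T₀ : Finset ℕ
  C₀ : ℝ
  V₀ : Finset ℕ
  W₀ : Finset ℕ
  α : ℕ → ℝ
  β : ℕ → ℝ
  k : ℕ → ℕ → ℝ
  hθ : 1 / 2 < θ
  hθ1 : θ < 1
  hη : 0 < η
  hη2 : η < 1 / 2
  hηθ : 2 * η ^ (2 * θ - 1) ≤ θ / 2
  hC₀ : 0 ≤ C₀
  hα : ∀ v ∈ V₀, 0 < α v
  hβ : ∀ w ∈ W₀, 0 < β w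
  hk : ∀ v w, 0 ≤ k v w
  ht₂ : ∀ p ∈ T₀, 0 ≤ t₂ p
  ht₂₁ : ∀ p ∈ T₀, t₂ p ≤ t₁ p
  ht₁ : ∀ p ∈ T₀, t₁ p ≤ 1 / 4
  hsmall₁ : ∀ p ∈ T₀, 3 * t₁ p + 4 * η ^ θ ≤ 1
  hsmall₂ : ∀ p ∈ T₀, (1 + 3 * t₁ p) * ((1 - η) ^ (2 * θ - 1) + 1) ≤ 2
  cover : ∀ v ∈ V₀ ∪ W₀, v.primeFactors ⊆ R₀ ∪ T₀

namespace GcdSys

variable (S : GcdSys)

noncomputable def mV (V : Finset ℕ) : ℝ := ∑ v ∈ V, S.α v

noncomputable def mW (W : Finset ℕ) : ℝ := ∑ w ∈ W, S.β w

noncomputable def pairs (V W : Finset ℕ) : ℝ := ∑ v ∈ V, ∑ w ∈ W, S.k v w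

noncomputable def shift (R : Finset ℕ) (v w : ℕ) : ℝ := shiftWt S.t₁ S.t₂ (R \ S.R₀) v w

/-- A configuration reached by resolving the primes in `R`. -/
structure Conf (V W R T : Finset ℕ) : Prop where
  hV : V ⊆ S.V₀
  hW : W ⊆ S.W₀
  hR : S.R₀ ⊆ R
  hT : T ⊆ S.T₀
  disj : Disjoint R T
  cV : ExpConst R V
  cW : ExpConst R W
  cover : ∀ v ∈ V ∪ W, v.primeFactors ⊆ R ∪ T
  hRT : R ⊆ S.R₀ ∪ S.T₀

def Goal (V W R : Finset ℕ) : Prop :=
  ∀ v ∈ V, ∀ w ∈ W, S.pairs V W ≤ 2 * S.C₀ * (S.mV V * S.mW W) ^ S.θ * S.shift R v w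

/-- Leaf hypothesis: pairs without common deviations. -/
def Leaf : Prop :=
  ∀ V W R : Finset ℕ, V ⊆ S.V₀ → W ⊆ S.W₀ → S.R₀ ⊆ R → R ⊆ S.R₀ ∪ S.T₀ → ExpConst R V →
    ExpConst R W → ∀ N : ℕ → ℕ, ∀ v₀ ∈ V, ∀ w₀ ∈ W,
      (∑ v ∈ V, ∑ w ∈ W, open Classical in if Apart R N v w then S.k v w else 0) ≤
        S.C₀ * (S.mV V * S.mW W) ^ S.θ * S.shift R v₀ w₀

/-- The induction hypothesis below size `n`. -/
def Below (n : ℕ) : Prop :=
  ∀ V W R T : Finset ℕ, S.Conf V W R T → V.card + W.card + T.card < n → S.Goal V W R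

variable {S}

theorem mV_nonneg {V : Finset ℕ} (h : V ⊆ S.V₀) : 0 ≤ S.mV V :=
  sum_nonneg fun v hv => (S.hα v (h hv)).le

theorem mW_nonneg {W : Finset ℕ} (h : W ⊆ S.W₀) : 0 ≤ S.mW W :=
  sum_nonneg fun v hv => (S.hβ v (h hv)).le

theorem mV_mono {V V' : Finset ℕ} (h' : V' ⊆ V) (h : V ⊆ S.V₀) : S.mV V' ≤ S.mV V :=
  sum_le_sum_of_subset_of_nonneg h' fun v hv _ => (S.hα v (h hv)).le

theorem mW_mono {W W' : Finset ℕ} (h' : W' ⊆ W) (h : W ⊆ S.W₀) : S.mW W' ≤ S.mW W :=
  sum_le_sum_of_subset_of_nonneg h' fun v hv _ => (S.hβ v (h hv)).le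

theorem shift_nonneg {R : Finset ℕ} (hR : R ⊆ S.R₀ ∪ S.T₀) (v w : ℕ) : 0 ≤ S.shift R v w := by
  refine prod_nonneg fun p hp => ?_
  obtain ⟨hp1, hp2⟩ := mem_sdiff.1 hp
  have hpT : p ∈ S.T₀ := (mem_union.1 (hR hp1)).resolve_left hp2
  exact expKer_nonneg ((S.ht₂ p hpT).trans (S.ht₂₁ p hpT)) (S.ht₂ p hpT) _ _

theorem shift_congr {V W R : Finset ℕ} (cV : ExpConst R V) (cW : ExpConst R W) {v v' w w' : ℕ}
    (hv : v ∈ V) (hv' : v' ∈ V) (hw : w ∈ W) (hw' : w' ∈ W) : S.shift R v w = S.shift R v' w' :=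
  prod_congr rfl fun p hp => by
    rw [cV p (mem_sdiff.1 hp).1 v hv v' hv', cW p (mem_sdiff.1 hp).1 w hw w' hw']

theorem pairs_split_left (D V W : Finset ℕ) (h : D ⊆ V) :
    S.pairs V W = S.pairs (V \ D) W + S.pairs D W := by
  simp only [pairs]; rw [← sum_sdiff h]

theorem pairs_split_right (D V W : Finset ℕ) (h : D ⊆ W) :
    S.pairs V W = S.pairs V (W \ D) + S.pairs V D := by
  simp only [pairs]; rw [← sum_add_distrib]
  exact sum_congr rfl fun v _ => by rw [← sum_sdiff h]

/-- One prime resolved: the bound of the children. -/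
theorem children {V W R T : Finset ℕ} (hc : S.Conf V W R T) {n : ℕ} (ih : S.Below n)
    (hn : V.card + W.card + T.card ≤ n) {p : ℕ} (hp : p ∈ T) {V' W' : Finset ℕ} (hV' : V' ⊆ V)
    (hW' : W' ⊆ W) {v₀ w₀ : ℕ} (hv₀ : v₀ ∈ V) (hw₀ : w₀ ∈ W) :
    S.pairs V' W' ≤ 2 * S.C₀ * S.shift R v₀ w₀ *
      ∑ i ∈ V'.image (fun v => v.factorization p), ∑ j ∈ W'.image (fun w => w.factorization p),
        (S.mV (V'.filter (fun v => v.factorization p = i)) *
          S.mW (W'.filter (fun w => w.factorization p = j))) ^ S.θ * expKer (S.t₁ p) (S.t₂ p) i j := by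
  classical
  set I := V'.image (fun v => v.factorization p)
  set J := W'.image (fun w => w.factorization p)
  have hpT : p ∈ S.T₀ := hc.hT hp
  have hpR : p ∉ R := disjoint_right.1 hc.disj hp
  have hdec : S.pairs V' W' = ∑ i ∈ I, ∑ j ∈ J,
      S.pairs (V'.filter (fun v => v.factorization p = i)) (W'.filter (fun w => w.factorization p = j)) := by
    simp only [pairs]
    rw [← sum_fiberwise_of_maps_to (g := fun v => v.factorization p) (t := I)
      (fun v hv => mem_image_of_mem _ hv)]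
    refine sum_congr rfl fun i _ => ?_
    rw [sum_comm (s := J)]
    refine sum_congr rfl fun v _ => ?_
    rw [← sum_fiberwise_of_maps_to (g := fun w => w.factorization p) (t := J)
      (fun w hw => mem_image_of_mem _ hw)]
  rw [hdec, mul_sum]
  refine sum_le_sum fun i hi => ?_
  rw [mul_sum]
  refine sum_le_sum fun j hj => ?_
  set A := V'.filter (fun v => v.factorization p = i) with hA
  set B := W'.filter (fun w => w.factorization p = j) with hB
  obtain ⟨v, hv, hvi⟩ := mem_image.1 hi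
  obtain ⟨w, hw, hwj⟩ := mem_image.1 hj
  have hvA : v ∈ A := mem_filter.2 ⟨hv, hvi⟩
  have hwB : w ∈ B := mem_filter.2 ⟨hw, hwj⟩
  have hAV : A ⊆ V := (filter_subset _ _).trans hV'
  have hBW : B ⊆ W := (filter_subset _ _).trans hW'
  have conf : S.Conf A B (insert p R) (T.erase p) := by
    refine ⟨hAV.trans hc.hV, hBW.trans hc.hW, hc.hR.trans (subset_insert _ _),
      (erase_subset _ _).trans hc.hT, ?_, ?_, ?_, ?_, insert_subset (mem_union_right _ hpT) hc.hRT⟩
    · rw [disjoint_insert_left]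
      exact ⟨notMem_erase p T, hc.disj.mono_right (erase_subset _ _)⟩
    · intro q hq a ha b hb
      rcases mem_insert.1 hq with rfl | hq
      · rw [(mem_filter.1 ha).2, (mem_filter.1 hb).2]
      · exact hc.cV q hq a (hAV ha) b (hAV hb)
    · intro q hq a ha b hb
      rcases mem_insert.1 hq with rfl | hq
      · rw [(mem_filter.1 ha).2, (mem_filter.1 hb).2]
      · exact hc.cW q hq a (hBW ha) b (hBW hb)
    · intro a ha q hq
      have := hc.cover a (union_subset_union hAV hBW ha) hq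
      rcases eq_or_ne q p with rfl | hqp
      · exact mem_union_left _ (mem_insert_self _ _)
      · rcases mem_union.1 this with h | h
        · exact mem_union_left _ (mem_insert_of_mem h)
        · exact mem_union_right _ (mem_erase.2 ⟨hqp, h⟩)
  have hsz : A.card + B.card + (T.erase p).card < n := by
    have h1 := card_le_card hAV
    have h2 := card_le_card hBW
    have h3 := card_erase_lt_of_mem hp
    omega
  refine (ih A B (insert p R) (T.erase p) conf hsz v hvA w hwB).trans_eq ?_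
  have hp0 : p ∉ S.R₀ := fun h => hpR (hc.hR h)
  have hsh : S.shift (insert p R) v w = expKer (S.t₁ p) (S.t₂ p) i j * S.shift R v₀ w₀ := by
    rw [shift, shiftWt, insert_sdiff_of_notMem _ hp0,
      prod_insert (fun h => hpR (mem_sdiff.1 h).1), hvi, hwj]
    congr 1
    exact shift_congr hc.cV hc.cW (hAV hvA) hv₀ (hBW hwB) hw₀
  rw [hsh]; ring

/-- Children bound through row and column sums of the kernel. -/
theorem children_le {V W R T : Finset ℕ} (hc : S.Conf V W R T) {n : ℕ} (ih : S.Below n)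
    (hn : V.card + W.card + T.card ≤ n) {p : ℕ} (hp : p ∈ T) {V' W' : Finset ℕ} (hV' : V' ⊆ V)
    (hW' : W' ⊆ W) {v₀ w₀ : ℕ} (hv₀ : v₀ ∈ V) (hw₀ : w₀ ∈ W) {K : ℝ} (hK : 0 ≤ K)
    (hr : ∀ i ∈ V'.image (fun v => v.factorization p),
      ∑ j ∈ W'.image (fun w => w.factorization p), expKer (S.t₁ p) (S.t₂ p) i j ≤ K)
    (hc' : ∀ j ∈ W'.image (fun w => w.factorization p),
      ∑ i ∈ V'.image (fun v => v.factorization p), expKer (S.t₁ p) (S.t₂ p) i j ≤ K) :
    S.pairs V' W' ≤ 2 * S.C₀ * S.shift R v₀ w₀ * (K * (S.mV V' * S.mW W') ^ S.θ) := by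
  classical
  have hpT : p ∈ S.T₀ := hc.hT hp
  refine (children hc ih hn hp hV' hW' hv₀ hw₀).trans (mul_le_mul_of_nonneg_left ?_ ?_)
  · refine sum_kernel_le _ _ _ _ _ S.hθ.le
      (fun i _ => mV_nonneg ((filter_subset _ _).trans (hV'.trans hc.hV)))
      (fun j _ => mW_nonneg ((filter_subset _ _).trans (hW'.trans hc.hW))) ?_ ?_
      (fun i _ j _ => expKer_nonneg ((S.ht₂ p hpT).trans (S.ht₂₁ p hpT)) (S.ht₂ p hpT) i j) hK hr hc'
    · exact (sum_fiberwise_of_maps_to (fun v hv => mem_image_of_mem _ hv) _).le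
    · exact (sum_fiberwise_of_maps_to (fun v hv => mem_image_of_mem _ hv) _).le
  · exact mul_nonneg (mul_nonneg zero_le_two S.hC₀) (shift_nonneg hc.hRT _ _)

/-- Thresholds for the deviating masses. -/
noncomputable def thr (S : GcdSys) (p : ℕ) : ℝ := thrOf S.θ (6 * S.t₁ p)

noncomputable def thr₂ (S : GcdSys) (p : ℕ) : ℝ := thrOf S.θ (5 * S.t₂ p)

/-- Every remaining prime is concentrated at `N`, with small one-sided deviations. -/
structure Concentrated (S : GcdSys) (V W T : Finset ℕ) (N : ℕ → ℕ) : Prop where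
  off : ∀ p, p ∉ T → N p = 0
  dV : ∀ p ∈ T, S.mV (dev N V p) ≤ S.thr p * S.mV V
  dW : ∀ p ∈ T, S.mW (dev N W p) ≤ S.thr p * S.mW W
  lowV : ∀ p ∈ T, S.thr p ^ S.θ ≤ S.t₂ p →
    S.mV (V.filter (fun v => v.factorization p < N p)) ≤ S.thr₂ p * S.mV V
  highW : ∀ p ∈ T, S.thr p ^ S.θ ≤ S.t₂ p →
    S.mW (W.filter (fun w => N p < w.factorization p)) ≤ S.thr₂ p * S.mW W

/-- Removing a deviating part from the left. -/
theorem reduce_left {V W R T : Finset ℕ} (hc : S.Conf V W R T) {n : ℕ} (ih : S.Below n)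
    (hn : V.card + W.card + T.card ≤ n) {D : Finset ℕ} (hD : D ⊆ V) (hDne : D.Nonempty)
    (hDlt : D ≠ V) {c : ℝ}
    (hbound : ∀ v ∈ V, ∀ w ∈ W, S.pairs D W ≤
      2 * S.C₀ * S.shift R v w * (c * (S.mV D * S.mW W) ^ S.θ))
    (hcθ : c ≤ S.θ * (S.mV D / S.mV V) ^ (1 - S.θ)) : S.Goal V W R := by
  classical
  intro v hv w hw
  have hmV : 0 < S.mV V := sum_pos (fun x hx => S.hα x (hc.hV hx)) ⟨v, hv⟩
  have hne : (V \ D).Nonempty :=
    sdiff_nonempty.2 fun h => hDlt (subset_antisymm hD h)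
  obtain ⟨v', hv'⟩ := hne
  have hsub : V \ D ⊆ V := sdiff_subset
  have conf : S.Conf (V \ D) W R T :=
    ⟨hsub.trans hc.hV, hc.hW, hc.hR, hc.hT, hc.disj,
      fun q hq a ha b hb => hc.cV q hq a (hsub ha) b (hsub hb), hc.cW,
      fun a ha => hc.cover a (union_subset_union hsub subset_rfl ha), hc.hRT⟩
  have hlt : (V \ D).card < V.card :=
    card_lt_card (sdiff_ssubset hD hDne)
  have h1 := ih _ W R T conf (by omega) v' hv' w hw
  rw [shift_congr hc.cV hc.cW (hsub hv') hv hw hw] at h1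
  have h2 := hbound v hv w hw
  rw [pairs_split_left D V W hD]
  set a := S.mV D / S.mV V
  have ha0 : 0 ≤ a := div_nonneg (mV_nonneg (hD.trans hc.hV)) hmV.le
  have ha1 : a ≤ 1 := (div_le_one hmV).2 (mV_mono hD hc.hV)
  have hDeq : S.mV D = a * S.mV V := (div_mul_cancel₀ _ hmV.ne').symm
  have hreq : S.mV (V \ D) = (1 - a) * S.mV V := by
    have : S.mV (V \ D) + S.mV D = S.mV V := sum_sdiff hD
    linarith [this]
  have key := split_le_one (by linarith [S.hθ] : 0 < S.θ) S.hθ1 ha0 ha1 hcθ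
  have hW0 := mW_nonneg hc.hW
  rw [hreq, mul_assoc (1 - a), mul_rpow (sub_nonneg.2 ha1) (by positivity)] at h1
  rw [hDeq, mul_assoc a, mul_rpow ha0 (by positivity)] at h2
  have hP : 0 ≤ 2 * S.C₀ * (S.mV V * S.mW W) ^ S.θ * S.shift R v w :=
    mul_nonneg (mul_nonneg (mul_nonneg zero_le_two S.hC₀) (by positivity)) (shift_nonneg hc.hRT _ _)
  nlinarith [mul_le_mul_of_nonneg_left key hP]

/-- Removing a deviating part from the right. -/
theorem reduce_right {V W R T : Finset ℕ} (hc : S.Conf V W R T) {n : ℕ} (ih : S.Below n)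
    (hn : V.card + W.card + T.card ≤ n) {D : Finset ℕ} (hD : D ⊆ W) (hDne : D.Nonempty)
    (hDlt : D ≠ W) {c : ℝ}
    (hbound : ∀ v ∈ V, ∀ w ∈ W, S.pairs V D ≤
      2 * S.C₀ * S.shift R v w * (c * (S.mV V * S.mW D) ^ S.θ))
    (hcθ : c ≤ S.θ * (S.mW D / S.mW W) ^ (1 - S.θ)) : S.Goal V W R := by
  classical
  intro v hv w hw
  have hmW : 0 < S.mW W := sum_pos (fun x hx => S.hβ x (hc.hW hx)) ⟨w, hw⟩
  obtain ⟨w', hw'⟩ : (W \ D).Nonempty := sdiff_nonempty.2 fun h => hDlt (subset_antisymm hD h)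
  have hsub : W \ D ⊆ W := sdiff_subset
  have conf : S.Conf V (W \ D) R T :=
    ⟨hc.hV, hsub.trans hc.hW, hc.hR, hc.hT, hc.disj, hc.cV,
      fun q hq a ha b hb => hc.cW q hq a (hsub ha) b (hsub hb),
      fun a ha => hc.cover a (union_subset_union subset_rfl hsub ha), hc.hRT⟩
  have hlt : (W \ D).card < W.card := card_lt_card (sdiff_ssubset hD hDne)
  have h1 := ih V _ R T conf (by omega) v hv w' hw'
  rw [shift_congr hc.cV hc.cW hv hv (hsub hw') hw] at h1
  have h2 := hbound v hv w hw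
  rw [pairs_split_right D V W hD]
  set a := S.mW D / S.mW W
  have ha0 : 0 ≤ a := div_nonneg (mW_nonneg (hD.trans hc.hW)) hmW.le
  have ha1 : a ≤ 1 := (div_le_one hmW).2 (mW_mono hD hc.hW)
  have hDeq : S.mW D = a * S.mW W := (div_mul_cancel₀ _ hmW.ne').symm
  have hreq : S.mW (W \ D) = (1 - a) * S.mW W := by
    have : S.mW (W \ D) + S.mW D = S.mW W := sum_sdiff hD
    linarith [this]
  have key := split_le_one (by linarith [S.hθ] : 0 < S.θ) S.hθ1 ha0 ha1 hcθ
  have hV0 := mV_nonneg hc.hV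
  rw [hreq, mul_left_comm (S.mV V), mul_rpow (sub_nonneg.2 ha1) (by positivity)] at h1
  rw [hDeq, mul_left_comm (S.mV V), mul_rpow ha0 (by positivity)] at h2
  have hP : 0 ≤ 2 * S.C₀ * (S.mV V * S.mW W) ^ S.θ * S.shift R v w :=
    mul_nonneg (mul_nonneg (mul_nonneg zero_le_two S.hC₀) (by positivity)) (shift_nonneg hc.hRT _ _)
  nlinarith [mul_le_mul_of_nonneg_left key hP]


theorem expKer_dist_of_le (t₁ t₂ : ℝ) {i j : ℕ} (h : i ≤ j) :
    expKer t₁ t₂ i j = t₂ ^ Nat.dist i j := by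
  rw [expKer, Nat.dist, Nat.sub_eq_zero_of_le h, pow_zero, one_mul, zero_add]

/-- Either the bound follows from smaller configurations, or every prime is concentrated. -/
theorem step {V W R T : Finset ℕ} (hc : S.Conf V W R T) {n : ℕ} (ih : S.Below n)
    (hn : V.card + W.card + T.card ≤ n) :
    S.Goal V W R ∨ ∃ N, Concentrated S V W T N := by
  classical
  rcases V.eq_empty_or_nonempty with rfl | ⟨v₀, hv₀⟩
  · exact Or.inl fun v hv => absurd hv (notMem_empty v)
  rcases W.eq_empty_or_nonempty with rfl | ⟨w₀, hw₀⟩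
  · exact Or.inl fun v _ w hw => absurd hw (notMem_empty w)
  by_cases hgoal : S.Goal V W R
  · exact Or.inl hgoal
  have hθ := S.hθ
  have hθ0 : (0 : ℝ) < S.θ := by linarith
  have hmV : 0 < S.mV V := sum_pos (fun x hx => S.hα x (hc.hV hx)) ⟨v₀, hv₀⟩
  have hmW : 0 < S.mW W := sum_pos (fun x hx => S.hβ x (hc.hW hx)) ⟨w₀, hw₀⟩
  have key : ∀ p ∈ T, ∃ k, S.mV (V.filter (fun v => v.factorization p ≠ k)) ≤ S.thr p * S.mV V ∧
      S.mW (W.filter (fun w => w.factorization p ≠ k)) ≤ S.thr p * S.mW W ∧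
      (S.thr p ^ S.θ ≤ S.t₂ p →
        S.mV (V.filter (fun v => v.factorization p < k)) ≤ S.thr₂ p * S.mV V ∧
        S.mW (W.filter (fun w => k < w.factorization p)) ≤ S.thr₂ p * S.mW W) := by
    intro p hp
    have hpT := hc.hT hp
    have ht₂ := S.ht₂ p hpT
    have ht₂₁ := S.ht₂₁ p hpT
    have ht₁ := S.ht₁ p hpT
    have ht₁0 : 0 ≤ S.t₁ p := ht₂.trans ht₂₁
    set I := V.image (fun v => v.factorization p)
    set J := W.image (fun w => w.factorization p)
    have hF : (S.mV V * S.mW W) ^ S.θ < ∑ i ∈ I, ∑ j ∈ J,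
        (S.mV (V.filter (fun v => v.factorization p = i)) *
          S.mW (W.filter (fun w => w.factorization p = j))) ^ S.θ * expKer (S.t₁ p) (S.t₂ p) i j := by
      by_contra hle
      refine hgoal fun v hv w hw => ?_
      refine (children hc ih hn hp subset_rfl subset_rfl hv hw).trans ?_
      refine (mul_le_mul_of_nonneg_left (not_lt.1 hle)
        (mul_nonneg (mul_nonneg zero_le_two S.hC₀) (shift_nonneg hc.hRT v w))).trans_eq ?_
      ring
    obtain ⟨k, -, -, hkV, hkW⟩ := exists_common_max S.hθ S.hθ1 S.hη S.hη2 ht₁0 ht₁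
      (S.hsmall₁ p hpT) (S.hsmall₂ p hpT) ht₁0 ht₂ le_rfl ht₂₁ I J _ _
      (fun i _ => mV_nonneg ((filter_subset _ _).trans hc.hV))
      (fun j _ => mW_nonneg ((filter_subset _ _).trans hc.hW))
      (X := S.mV V) (Y := S.mW W)
      (sum_fiberwise_of_maps_to (fun v hv => mem_image_of_mem _ hv) _)
      (sum_fiberwise_of_maps_to (fun v hv => mem_image_of_mem _ hv) _) hF
    set DV := V.filter (fun v => v.factorization p ≠ k) with hDV
    set DW := W.filter (fun w => w.factorization p ≠ k) with hDW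
    have hDVsub : DV ⊆ V := filter_subset _ _
    have hDWsub : DW ⊆ W := filter_subset _ _
    have hsumV : S.mV DV + S.mV (V.filter (fun v => v.factorization p = k)) = S.mV V := by
      rw [add_comm]; exact sum_filter_add_sum_filter_not V _ _
    have hsumW : S.mW DW + S.mW (W.filter (fun w => w.factorization p = k)) = S.mW W := by
      rw [add_comm]; exact sum_filter_add_sum_filter_not W _ _
    set a := S.mV DV / S.mV V with ha
    set b := S.mW DW / S.mW W with hb
    have haη : a ≤ S.η := by rw [ha, div_le_iff₀ hmV]; nlinarith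
    have hbη : b ≤ S.η := by rw [hb, div_le_iff₀ hmW]; nlinarith
    have ha0 : 0 ≤ a := div_nonneg (mV_nonneg (hDVsub.trans hc.hV)) hmV.le
    have hb0 : 0 ≤ b := div_nonneg (mW_nonneg (hDWsub.trans hc.hW)) hmW.le
    have ht₂' : S.t₂ p ≤ 1 / 4 := ht₂₁.trans ht₁
    -- deviating part against the concentrated part and against the other deviating part
    have boundV : ∀ D ⊆ DV, ∀ e, 0 ≤ e →
        (∀ i ∈ D.image (fun v => v.factorization p), expKer (S.t₁ p) (S.t₂ p) i k ≤ e) →
        (∑ i ∈ D.image (fun v => v.factorization p), expKer (S.t₁ p) (S.t₂ p) i k ≤ e) →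
        ∀ v ∈ V, ∀ w ∈ W, S.pairs D W ≤
          2 * S.C₀ * S.shift R v w * ((e + 2 * b ^ S.θ) * (S.mV D * S.mW W) ^ S.θ) := by
      intro D hD e he herow hecol v hv w hw
      have hDV' : D ⊆ V := hD.trans hDVsub
      rw [pairs_split_right DW D W hDWsub]
      have hcoef : 0 ≤ 2 * S.C₀ * S.shift R v w :=
        mul_nonneg (mul_nonneg zero_le_two S.hC₀) (shift_nonneg hc.hRT v w)
      have himg : (W \ DW).image (fun w => w.factorization p) ⊆ {k} := by
        intro j hj
        obtain ⟨x, hx, rfl⟩ := mem_image.1 hj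
        simp only [DW, mem_sdiff, mem_filter] at hx
        simp only [mem_singleton]; tauto
      have h1 := children_le hc ih hn hp hDV' (sdiff_subset (s := W) (t := DW)) hv hw (K := e) he
        (fun i hi => (sum_le_sum_of_subset_of_nonneg himg
          (fun j _ _ => expKer_nonneg ht₁0 ht₂ i j)).trans ((sum_singleton _ _).trans_le (herow i hi)))
        (fun j hj => by rw [mem_singleton.1 (himg hj)]; exact hecol)
      have h2 := children_le hc ih hn hp hDV' hDWsub hv hw (K := 2) (by norm_num)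
        (fun i _ => ((sum_expKer_le ht₁0 ht₂ le_rfl ht₂₁ ht₁ _ i).1).trans (by linarith))
        (fun j _ => ((sum_expKer_le ht₁0 ht₂ le_rfl ht₂₁ ht₁ _ j).2).trans (by linarith))
      have hmD := mV_nonneg (hDV'.trans hc.hV)
      have h3 : (S.mV D * S.mW (W \ DW)) ^ S.θ ≤ (S.mV D * S.mW W) ^ S.θ :=
        rpow_le_rpow (mul_nonneg hmD (mW_nonneg (sdiff_subset.trans hc.hW)))
          (mul_le_mul_of_nonneg_left (mW_mono sdiff_subset hc.hW) hmD) hθ0.le
      have h4 : (S.mV D * S.mW DW) ^ S.θ = b ^ S.θ * (S.mV D * S.mW W) ^ S.θ := by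
        rw [← mul_rpow hb0 (mul_nonneg hmD hmW.le), hb]
        congr 1; field_simp
      rw [h4] at h2
      have h5 := mul_le_mul_of_nonneg_left (mul_le_mul_of_nonneg_left h3 he) hcoef
      linarith
    have boundW : ∀ D ⊆ DW, ∀ e, 0 ≤ e →
        (∀ j ∈ D.image (fun w => w.factorization p), expKer (S.t₁ p) (S.t₂ p) k j ≤ e) →
        (∑ j ∈ D.image (fun w => w.factorization p), expKer (S.t₁ p) (S.t₂ p) k j ≤ e) →
        ∀ v ∈ V, ∀ w ∈ W, S.pairs V D ≤
          2 * S.C₀ * S.shift R v w * ((e + 2 * a ^ S.θ) * (S.mV V * S.mW D) ^ S.θ) := by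
      intro D hD e he hecol herow v hv w hw
      have hDW' : D ⊆ W := hD.trans hDWsub
      rw [pairs_split_left DV V D hDVsub]
      have hcoef : 0 ≤ 2 * S.C₀ * S.shift R v w :=
        mul_nonneg (mul_nonneg zero_le_two S.hC₀) (shift_nonneg hc.hRT v w)
      have himg : (V \ DV).image (fun v => v.factorization p) ⊆ {k} := by
        intro j hj
        obtain ⟨x, hx, rfl⟩ := mem_image.1 hj
        simp only [DV, mem_sdiff, mem_filter] at hx
        simp only [mem_singleton]; tauto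
      have h1 := children_le hc ih hn hp (sdiff_subset (s := V) (t := DV)) hDW' hv hw (K := e) he
        (fun i hi => by rw [mem_singleton.1 (himg hi)]; exact herow)
        (fun j hj => (sum_le_sum_of_subset_of_nonneg himg
          (fun i _ _ => expKer_nonneg ht₁0 ht₂ i j)).trans ((sum_singleton _ _).trans_le (hecol j hj)))
      have h2 := children_le hc ih hn hp hDVsub hDW' hv hw (K := 2) (by norm_num)
        (fun i _ => ((sum_expKer_le ht₁0 ht₂ le_rfl ht₂₁ ht₁ _ i).1).trans (by linarith))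
        (fun j _ => ((sum_expKer_le ht₁0 ht₂ le_rfl ht₂₁ ht₁ _ j).2).trans (by linarith))
      have hmD := mW_nonneg (hDW'.trans hc.hW)
      have h3 : (S.mV (V \ DV) * S.mW D) ^ S.θ ≤ (S.mV V * S.mW D) ^ S.θ :=
        rpow_le_rpow (mul_nonneg (mV_nonneg (sdiff_subset.trans hc.hV)) hmD)
          (mul_le_mul_of_nonneg_right (mV_mono sdiff_subset hc.hV) hmD) hθ0.le
      have h4 : (S.mV DV * S.mW D) ^ S.θ = a ^ S.θ * (S.mV V * S.mW D) ^ S.θ := by
        rw [← mul_rpow ha0 (mul_nonneg hmV.le hmD), ha]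
        congr 1; field_simp
      rw [h4] at h2
      have h5 := mul_le_mul_of_nonneg_left (mul_le_mul_of_nonneg_left h3 he) hcoef
      linarith
    -- both deviations are below the threshold
    have hbig : ∀ x y : ℝ, 0 ≤ x → x ≤ S.η → 0 ≤ y → y ≤ x → S.thr p < x →
        3 * S.t₁ p + 2 * y ^ S.θ ≤ S.θ * x ^ (1 - S.θ) := by
      intro x y hx hxη hy hyx hlt
      have hx' : 0 < x := lt_of_le_of_lt (rpow_nonneg (div_nonneg (by linarith) hθ0.le) _) hlt
      have h1 : 6 * S.t₁ p ≤ S.θ * x ^ (1 - S.θ) := by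
        by_contra hcc
        exact hlt.not_ge (le_thrOf hθ0 S.hθ1 hx hcc)
      have h2 : y ^ S.θ ≤ x ^ S.θ := rpow_le_rpow hy hyx hθ0.le
      have h3 : x ^ S.θ = x ^ (2 * S.θ - 1) * x ^ (1 - S.θ) := by
        rw [← rpow_add hx']; ring_nf
      have h4 : x ^ (2 * S.θ - 1) ≤ S.η ^ (2 * S.θ - 1) := rpow_le_rpow hx hxη (by linarith)
      have h5 := mul_le_mul_of_nonneg_right h4 (rpow_nonneg hx (1 - S.θ))
      have h6 := mul_le_mul_of_nonneg_right S.hηθ (rpow_nonneg hx (1 - S.θ))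
      nlinarith
    have hrowV : ∀ i ∈ DV.image (fun v => v.factorization p), 1 ≤ Nat.dist i k := by
      intro i hi
      obtain ⟨x, hx, rfl⟩ := mem_image.1 hi
      exact Nat.pos_of_ne_zero fun h => (mem_filter.1 hx).2 (Nat.eq_of_dist_eq_zero h)
    have hrowW : ∀ j ∈ DW.image (fun w => w.factorization p), 1 ≤ Nat.dist k j := by
      intro j hj
      obtain ⟨x, hx, rfl⟩ := mem_image.1 hj
      exact Nat.pos_of_ne_zero fun h => (mem_filter.1 hx).2 (Nat.eq_of_dist_eq_zero h).symm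
    have hboth : a ≤ S.thr p ∧ b ≤ S.thr p := by
      by_contra hcon
      refine hgoal ?_
      have hthr0 : 0 ≤ S.thr p := rpow_nonneg (div_nonneg (by linarith) hθ0.le) _
      rcases le_total b a with hba | hab
      · have hlt : S.thr p < a := by
          by_contra h; exact hcon ⟨not_lt.1 h, hba.trans (not_lt.1 h)⟩
        have hne : DV.Nonempty := by
          by_contra h
          rw [not_nonempty_iff_eq_empty] at h
          rw [ha, h] at hlt; simp [mV] at hlt; linarith
        refine reduce_left hc ih hn hDVsub hne (fun h => ?_)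
          (boundV DV subset_rfl (3 * S.t₁ p) (by linarith) (fun i hi => ?_) ?_) (hbig a b ha0 haη hb0 hba hlt)
        · rw [h, div_self hmV.ne'] at ha; linarith [S.hη2]
        · exact ((expKer_le ht₁0 ht₂ le_rfl ht₂₁ i k).trans
            ((pow_le_pow_of_le_one ht₁0 (by linarith) (hrowV i hi)).trans_eq (pow_one _))).trans
            (by linarith)
        · refine (sum_le_sum fun i _ => (expKer_le ht₁0 ht₂ le_rfl ht₂₁ i k).trans_eq
            (by rw [Nat.dist_comm])).trans ((sum_pow_dist_le ht₁0 ht₁ _ k 1 le_rfl fun i hi => ?_).trans_eq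
            (by rw [pow_one]))
          rw [Nat.dist_comm]; exact hrowV i hi
      · have hlt : S.thr p < b := by
          by_contra h; exact hcon ⟨hab.trans (not_lt.1 h), not_lt.1 h⟩
        have hne : DW.Nonempty := by
          by_contra h
          rw [not_nonempty_iff_eq_empty] at h
          rw [hb, h] at hlt; simp [mW] at hlt; linarith
        refine reduce_right hc ih hn hDWsub hne (fun h => ?_)
          (boundW DW subset_rfl (3 * S.t₁ p) (by linarith) (fun j hj => ?_) ?_) (hbig b a hb0 hbη ha0 hab hlt)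
        · rw [h, div_self hmW.ne'] at hb; linarith [S.hη2]
        · exact ((expKer_le ht₁0 ht₂ le_rfl ht₂₁ k j).trans
            ((pow_le_pow_of_le_one ht₁0 (by linarith) (hrowW j hj)).trans_eq (pow_one _))).trans
            (by linarith)
        · exact (sum_le_sum fun j _ => expKer_le ht₁0 ht₂ le_rfl ht₂₁ k j).trans
            ((sum_pow_dist_le ht₁0 ht₁ _ k 1 le_rfl hrowW).trans_eq (by rw [pow_one]))
    refine ⟨k, ?_, ?_, fun hdir => ⟨?_, ?_⟩⟩
    · have := hboth.1; rwa [ha, div_le_iff₀ hmV] at this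
    · have := hboth.2; rwa [hb, div_le_iff₀ hmW] at this
    · by_contra hlow
      refine hgoal ?_
      set D := V.filter (fun v => v.factorization p < k) with hD
      have hDsub : D ⊆ DV := fun x hx => by
        simp only [D, DV, mem_filter] at hx ⊢; exact ⟨hx.1, by omega⟩
      have hlt : S.thr₂ p < S.mV D / S.mV V := by rw [lt_div_iff₀ hmV]; exact not_le.1 hlow
      have hne : D.Nonempty := by
        by_contra h
        rw [not_nonempty_iff_eq_empty] at h
        rw [h] at hlt; simp [mV] at hlt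
        linarith [rpow_nonneg (div_nonneg (by linarith : (0 : ℝ) ≤ 5 * S.t₂ p) hθ0.le) (1 / (1 - S.θ)),
          show S.thr₂ p = (5 * S.t₂ p / S.θ) ^ (1 / (1 - S.θ)) from rfl]
      refine reduce_left hc ih hn (hDsub.trans hDVsub) hne (fun h => ?_)
        (boundV D hDsub (3 * S.t₂ p) (by linarith) (fun i hi => ?_) ?_) ?_
      · have : S.mV D ≤ S.mV DV := mV_mono hDsub (hDVsub.trans hc.hV)
        rw [h] at this
        have : (1 : ℝ) ≤ a := by rw [ha, le_div_iff₀ hmV]; linarith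
        linarith [S.hη2]
      · obtain ⟨x, hx, rfl⟩ := mem_image.1 hi
        have hxk : x.factorization p < k := (mem_filter.1 hx).2
        rw [expKer_dist_of_le _ _ hxk.le]
        exact ((pow_le_pow_of_le_one ht₂ (by linarith)
          (show 1 ≤ Nat.dist (x.factorization p) k by simp only [Nat.dist]; omega)).trans_eq
          (pow_one _)).trans (by linarith)
      · refine (sum_le_sum fun i hi => ?_).trans ((sum_pow_dist_le ht₂ ht₂' _ k 1 le_rfl ?_).trans_eq
          (by rw [pow_one]))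
        · obtain ⟨x, hx, rfl⟩ := mem_image.1 hi
          rw [expKer_dist_of_le _ _ (mem_filter.1 hx).2.le, Nat.dist_comm]
        · intro i hi
          rw [Nat.dist_comm]; exact hrowV i (image_subset_image hDsub hi)
      · have h5 : b ^ S.θ ≤ S.t₂ p := (rpow_le_rpow hb0 hboth.2 hθ0.le).trans hdir
        by_contra hcc
        refine hlt.not_ge ?_
        refine le_thrOf hθ0 S.hθ1 (div_nonneg (mV_nonneg ((hDsub.trans hDVsub).trans hc.hV)) hmV.le) ?_
        intro h; exact hcc (le_trans (by linarith) h)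
    · by_contra hlow
      refine hgoal ?_
      set D := W.filter (fun w => k < w.factorization p) with hD
      have hDsub : D ⊆ DW := fun x hx => by
        simp only [D, DW, mem_filter] at hx ⊢; exact ⟨hx.1, by omega⟩
      have hlt : S.thr₂ p < S.mW D / S.mW W := by rw [lt_div_iff₀ hmW]; exact not_le.1 hlow
      have hne : D.Nonempty := by
        by_contra h
        rw [not_nonempty_iff_eq_empty] at h
        rw [h] at hlt; simp [mW] at hlt
        linarith [rpow_nonneg (div_nonneg (by linarith : (0 : ℝ) ≤ 5 * S.t₂ p) hθ0.le) (1 / (1 - S.θ)),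
          show S.thr₂ p = (5 * S.t₂ p / S.θ) ^ (1 / (1 - S.θ)) from rfl]
      refine reduce_right hc ih hn (hDsub.trans hDWsub) hne (fun h => ?_)
        (boundW D hDsub (3 * S.t₂ p) (by linarith) (fun j hj => ?_) ?_) ?_
      · have : S.mW D ≤ S.mW DW := mW_mono hDsub (hDWsub.trans hc.hW)
        rw [h] at this
        have : (1 : ℝ) ≤ b := by rw [hb, le_div_iff₀ hmW]; linarith
        linarith [S.hη2]
      · obtain ⟨x, hx, rfl⟩ := mem_image.1 hj
        have hxk : k < x.factorization p := (mem_filter.1 hx).2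
        rw [expKer_dist_of_le _ _ hxk.le]
        exact ((pow_le_pow_of_le_one ht₂ (by linarith)
          (show 1 ≤ Nat.dist k (x.factorization p) by simp only [Nat.dist]; omega)).trans_eq
          (pow_one _)).trans (by linarith)
      · refine (sum_le_sum fun j hj => ?_).trans ((sum_pow_dist_le ht₂ ht₂' _ k 1 le_rfl ?_).trans_eq
          (by rw [pow_one]))
        · obtain ⟨x, hx, rfl⟩ := mem_image.1 hj
          rw [expKer_dist_of_le _ _ (mem_filter.1 hx).2.le]
        · intro j hj; exact hrowW j (image_subset_image hDsub hj)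
      · have h5 : a ^ S.θ ≤ S.t₂ p := (rpow_le_rpow ha0 hboth.1 hθ0.le).trans hdir
        by_contra hcc
        refine hlt.not_ge ?_
        refine le_thrOf hθ0 S.hθ1 (div_nonneg (mW_nonneg ((hDsub.trans hDWsub).trans hc.hW)) hmW.le) ?_
        intro h; exact hcc (le_trans (by linarith) h)
  choose! N hN1 hN2 hN3 using key
  refine Or.inr ⟨fun p => if p ∈ T then N p else 0, ⟨fun p hp => if_neg hp, fun p hp => ?_,
    fun p hp => ?_, fun p hp h => ?_, fun p hp h => ?_⟩⟩
  · simpa only [dev, if_pos hp] using hN1 p hp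
  · simpa only [dev, if_pos hp] using hN2 p hp
  · simpa only [if_pos hp] using (hN3 p hp h).1
  · simpa only [if_pos hp] using (hN3 p hp h).2

end GcdSys

end Vale.Agent.P028
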