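import Vale.Agent.P028.Defs
import Vale.Agent.P028.Bilinear
import Vale.Agent.P028.ArithDefs

/-! Leaf bound through the reduced ratio of a pair. -/

namespace Vale.Agent.P028

open Finset Real

theorem red_pos {v w : ℕ} (hv : 0 < v) : 0 < red v w :=
  Nat.div_pos (Nat.le_of_dvd hv (Nat.gcd_dvd_left v w)) (Nat.gcd_pos_of_pos_left w hv)

theorem factorization_red {v w : ℕ} (hv : 0 < v) (hw : 0 < w) (p : ℕ) :
    (red v w).factorization p = v.factorization p - w.factorization p := by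
  rw [red, Nat.factorization_div (Nat.gcd_dvd_left v w), Finsupp.tsub_apply,
    Nat.factorization_gcd hv.ne' hw.ne', Finsupp.inf_apply]
  change v.factorization p - min (v.factorization p) (w.factorization p) = _
  omega

/-- The part of `red v w` at the primes of `R`, computed from any representatives. -/
def resolvedPart (R : Finset ℕ) (v w : ℕ) : ℕ :=
  ∏ p ∈ R, p ^ (v.factorization p - w.factorization p)

theorem resolvedPart_pos {R : Finset ℕ} (hR : ∀ p ∈ R, p.Prime) (v w : ℕ) :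
    0 < resolvedPart R v w :=
  prod_pos fun p hp => pow_pos (hR p hp).pos _

theorem factorization_resolvedPart {R : Finset ℕ} (hR : ∀ p ∈ R, p.Prime) (v w p : ℕ) :
    (resolvedPart R v w).factorization p =
      if p ∈ R then v.factorization p - w.factorization p else 0 := by
  rw [resolvedPart, Nat.factorization_prod (fun q hq => (pow_pos (hR q hq).pos _).ne'),
    Finsupp.finsetSum_apply]
  rw [sum_congr rfl (fun q hq => by
    rw [Nat.factorization_pow, (hR q hq).factorization, Finsupp.smul_single, smul_eq_mul, mul_one,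
      Finsupp.single_apply])]
  simp [eq_comm]

theorem resolvedPart_dvd_red {R : Finset ℕ} (hR : ∀ p ∈ R, p.Prime) {V W : Finset ℕ}
    (cV : ExpConst R V) (cW : ExpConst R W) {v₀ w₀ v w : ℕ} (hv₀ : v₀ ∈ V) (hw₀ : w₀ ∈ W)
    (hv : v ∈ V) (hw : w ∈ W) (hv' : 0 < v) (hw' : 0 < w) :
    resolvedPart R v₀ w₀ ∣ red v w := by
  rw [← Nat.factorization_le_iff_dvd (resolvedPart_pos hR _ _).ne' (red_pos hv').ne']
  intro p
  rw [factorization_resolvedPart hR, factorization_red hv' hw']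
  split
  · next h => rw [cV p h v₀ hv₀ v hv, cW p h w₀ hw₀ w hw]
  · exact Nat.zero_le _

theorem two_pow_primeFactors_le (t : ℕ) (ht : t ≠ 0) : 2 ^ t.primeFactors.card ≤ t.divisors.card := by
  rw [Nat.card_divisors ht, ← prod_const]
  refine prod_le_prod' fun p hp => ?_
  have := Nat.Prime.factorization_pos_of_dvd (Nat.prime_of_mem_primeFactors hp) ht
    (Nat.dvd_of_mem_primeFactors hp)
  omega

/-- The data that determine a pair apart from `N`, given the resolved parts `X`, `Y`. -/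
def leafCode (X Y : ℕ) (N : ℕ → ℕ) (x : ℕ × ℕ) : (Σ _ : ℕ, Finset ℕ) × (Σ _ : ℕ, Finset ℕ) :=
  (⟨red x.1 x.2 / X, (red x.1 x.2 / X).primeFactors.filter (fun p => x.2.factorization p ≠ N p)⟩,
    ⟨red x.2 x.1 / Y, (red x.2 x.1 / Y).primeFactors.filter (fun p => x.1.factorization p ≠ N p)⟩)

theorem mem_primeFactors_red_div {R : Finset ℕ} (hR : ∀ p ∈ R, p.Prime) {v w v₀ w₀ p : ℕ}
    (hv : 0 < v) (hw : 0 < w) (hd : resolvedPart R v₀ w₀ ∣ red v w) (hp : p ∉ R)
    (h : v.factorization p - w.factorization p ≠ 0) :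
    p ∈ (red v w / resolvedPart R v₀ w₀).primeFactors := by
  rw [← Nat.support_factorization, Finsupp.mem_support_iff, Nat.factorization_div hd,
    Finsupp.tsub_apply, factorization_red hv hw, factorization_resolvedPart hR, if_neg hp,
    Nat.sub_zero]
  exact h

theorem leafCode_injOn {V W R : Finset ℕ} (hR : ∀ p ∈ R, p.Prime) (hVpos : ∀ v ∈ V, 0 < v)
    (hWpos : ∀ w ∈ W, 0 < w) (cV : ExpConst R V) (cW : ExpConst R W) (N : ℕ → ℕ) {v₀ w₀ : ℕ}
    (hv₀ : v₀ ∈ V) (hw₀ : w₀ ∈ W) :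
    Set.InjOn (leafCode (resolvedPart R v₀ w₀) (resolvedPart R w₀ v₀) N)
      {x : ℕ × ℕ | x.1 ∈ V ∧ x.2 ∈ W ∧ Apart R N x.1 x.2} := by
  intro x hx y hy hxy
  obtain ⟨hx1, hx2, hax⟩ := hx
  obtain ⟨hy1, hy2, hay⟩ := hy
  have dx1 := resolvedPart_dvd_red hR cV cW hv₀ hw₀ hx1 hx2 (hVpos _ hx1) (hWpos _ hx2)
  have dx2 := resolvedPart_dvd_red hR cW cV hw₀ hv₀ hx2 hx1 (hWpos _ hx2) (hVpos _ hx1)
  have dy1 := resolvedPart_dvd_red hR cV cW hv₀ hw₀ hy1 hy2 (hVpos _ hy1) (hWpos _ hy2)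
  have dy2 := resolvedPart_dvd_red hR cW cV hw₀ hv₀ hy2 hy1 (hWpos _ hy2) (hVpos _ hy1)
  obtain ⟨h1, h2⟩ := Prod.ext_iff.1 hxy
  simp only [leafCode, Sigma.mk.injEq, heq_eq_eq] at h1 h2
  obtain ⟨hq, hSq⟩ := h1
  obtain ⟨hr, hSr⟩ := h2
  have hqq : red x.1 x.2 = red y.1 y.2 := by
    rw [← Nat.div_mul_cancel dx1, ← Nat.div_mul_cancel dy1, hq]
  have hrr : red x.2 x.1 = red y.2 y.1 := by
    rw [← Nat.div_mul_cancel dx2, ← Nat.div_mul_cancel dy2, hr]
  have hexp : ∀ p, x.1.factorization p = y.1.factorization p ∧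
      x.2.factorization p = y.2.factorization p := by
    intro p
    by_cases hp : p ∈ R
    · exact ⟨cV p hp _ hx1 _ hy1, cW p hp _ hx2 _ hy2⟩
    have eq1 := congrArg (fun n => n.factorization p) hqq
    have eq2 := congrArg (fun n => n.factorization p) hrr
    simp only [factorization_red (hVpos _ hx1) (hWpos _ hx2),
      factorization_red (hWpos _ hx2) (hVpos _ hx1), factorization_red (hVpos _ hy1) (hWpos _ hy2),
      factorization_red (hWpos _ hy2) (hVpos _ hy1)] at eq1 eq2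
    have bq : x.1.factorization p - x.2.factorization p ≠ 0 →
        (x.2.factorization p ≠ N p ↔ y.2.factorization p ≠ N p) := by
      intro h
      have hm := mem_primeFactors_red_div hR (hVpos _ hx1) (hWpos _ hx2) dx1 hp h
      have hm' := mem_primeFactors_red_div hR (hVpos _ hy1) (hWpos _ hy2) dy1 hp (eq1 ▸ h)
      have := congrArg (fun s => p ∈ s) hSq
      simp only [mem_filter, eq_iff_iff, hm, hm', true_and] at this
      exact this
    have br : x.2.factorization p - x.1.factorization p ≠ 0 →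
        (x.1.factorization p ≠ N p ↔ y.1.factorization p ≠ N p) := by
      intro h
      have hm := mem_primeFactors_red_div hR (hWpos _ hx2) (hVpos _ hx1) dx2 hp h
      have hm' := mem_primeFactors_red_div hR (hWpos _ hy2) (hVpos _ hy1) dy2 hp (eq2 ▸ h)
      have := congrArg (fun s => p ∈ s) hSr
      simp only [mem_filter, eq_iff_iff, hm, hm', true_and] at this
      exact this
    have a1 := hax p hp
    have a2 := hay p hp
    omega
  exact Prod.ext (Nat.eq_of_factorization_eq (hVpos _ hx1).ne' (hVpos _ hy1).ne' fun p => (hexp p).1)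
    (Nat.eq_of_factorization_eq (hWpos _ hx2).ne' (hWpos _ hy2).ne' fun p => (hexp p).2)

/-- The pairs apart from `N`, counted by divisor weights of their reduced ratio. -/
theorem apart_sum_le_divisors {V W R : Finset ℕ} (hR : ∀ p ∈ R, p.Prime) (hVpos : ∀ v ∈ V, 0 < v)
    (hWpos : ∀ w ∈ W, 0 < w) (cV : ExpConst R V) (cW : ExpConst R W) (N : ℕ → ℕ) {α β : ℕ → ℝ}
    (hα : ∀ v ∈ V, 0 ≤ α v ∧ α v ≤ 1) (hβ : ∀ w ∈ W, 0 ≤ β w ∧ β w ≤ 1)
    (g : ℕ → ℕ → ℝ) (hg : ∀ q r, 0 ≤ g q r) {Q S : ℝ}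
    (hsupp : ∀ q r, g q r ≠ 0 → (q : ℝ) ≤ Q ∧ (r : ℝ) ≤ S) {v₀ w₀ : ℕ} (hv₀ : v₀ ∈ V) (hw₀ : w₀ ∈ W) :
    (∑ v ∈ V, ∑ w ∈ W, open Classical in
        if Apart R N v w then α v * β w * g (red v w) (red w v) else 0) ≤
      ∑ u ∈ Icc 1 ⌊S / resolvedPart R w₀ v₀⌋₊, (u.divisors.card : ℝ) *
        ∑ t ∈ Icc 1 ⌊Q / resolvedPart R v₀ w₀⌋₊,
          (t.divisors.card : ℝ) * g (resolvedPart R v₀ w₀ * t) (resolvedPart R w₀ v₀ * u) := by
  classical
  set X := resolvedPart R v₀ w₀ with hX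
  set Y := resolvedPart R w₀ v₀ with hY
  have hX0 : 0 < X := resolvedPart_pos hR _ _
  have hY0 : 0 < Y := resolvedPart_pos hR _ _
  set P := (V ×ˢ W).filter (fun x => Apart R N x.1 x.2 ∧ g (red x.1 x.2) (red x.2 x.1) ≠ 0) with hP
  set DT : ℕ → Finset (Σ _ : ℕ, Finset ℕ) := fun M => (Icc 1 M).sigma (fun t => t.primeFactors.powerset)
  set h : (Σ _ : ℕ, Finset ℕ) × (Σ _ : ℕ, Finset ℕ) → ℝ := fun c => g (X * c.1.1) (Y * c.2.1)
  have hdvd : ∀ x ∈ P, X ∣ red x.1 x.2 ∧ Y ∣ red x.2 x.1 := fun x hx => by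
    obtain ⟨h1, h2⟩ := mem_product.1 (mem_filter.1 hx).1
    exact ⟨resolvedPart_dvd_red hR cV cW hv₀ hw₀ h1 h2 (hVpos _ h1) (hWpos _ h2),
      resolvedPart_dvd_red hR cW cV hw₀ hv₀ h2 h1 (hWpos _ h2) (hVpos _ h1)⟩
  have hinj : Set.InjOn (leafCode X Y N) P :=
    (leafCode_injOn hR hVpos hWpos cV cW N hv₀ hw₀).mono fun x hx => by
      obtain ⟨hm, ha, -⟩ := mem_filter.1 hx
      exact ⟨(mem_product.1 hm).1, (mem_product.1 hm).2, ha⟩
  have hmaps : P.image (leafCode X Y N) ⊆ DT ⌊Q / (X : ℝ)⌋₊ ×ˢ DT ⌊S / (Y : ℝ)⌋₊ := by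
    intro c hc
    obtain ⟨x, hx, rfl⟩ := mem_image.1 hc
    obtain ⟨hm, -, hne⟩ := mem_filter.1 hx
    obtain ⟨h1, h2⟩ := mem_product.1 hm
    obtain ⟨hd1, hd2⟩ := hdvd x hx
    obtain ⟨hQ', hS'⟩ := hsupp _ _ hne
    simp only [leafCode, mem_product, DT, mem_sigma, mem_Icc, mem_powerset]
    refine ⟨⟨⟨?_, ?_⟩, filter_subset _ _⟩, ⟨?_, ?_⟩, filter_subset _ _⟩
    · exact Nat.div_pos (Nat.le_of_dvd (red_pos (hVpos _ h1)) hd1) hX0
    · refine Nat.le_floor ?_
      rw [Nat.cast_div hd1 (by exact_mod_cast hX0.ne')]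
      gcongr
    · exact Nat.div_pos (Nat.le_of_dvd (red_pos (hWpos _ h2)) hd2) hY0
    · refine Nat.le_floor ?_
      rw [Nat.cast_div hd2 (by exact_mod_cast hY0.ne')]
      gcongr
  calc (∑ v ∈ V, ∑ w ∈ W, if Apart R N v w then α v * β w * g (red v w) (red w v) else 0)
      ≤ ∑ x ∈ P, g (red x.1 x.2) (red x.2 x.1) := by
        rw [hP, sum_filter, sum_product]
        refine sum_le_sum fun v hv => sum_le_sum fun w hw => ?_
        by_cases h : Apart R N v w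
        · by_cases h' : g (red v w) (red w v) = 0
          · simp [h, h']
          · simp only [h, h', if_true, ne_eq, not_false_iff, and_self]
            exact mul_le_of_le_one_left (hg _ _) (mul_le_one₀ (hα v hv).2 (hβ w hw).1 (hβ w hw).2)
        · simp [h]
    _ = ∑ c ∈ P.image (leafCode X Y N), h c := by
        rw [sum_image hinj]
        refine sum_congr rfl fun x hx => ?_
        simp only [h, leafCode]
        rw [Nat.mul_div_cancel' (hdvd x hx).1, Nat.mul_div_cancel' (hdvd x hx).2]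
    _ ≤ ∑ c ∈ DT ⌊Q / (X : ℝ)⌋₊ ×ˢ DT ⌊S / (Y : ℝ)⌋₊, h c :=
        sum_le_sum_of_subset_of_nonneg hmaps fun c _ _ => hg _ _
    _ ≤ _ := by
        rw [sum_product_right, sum_sigma]
        simp only [h, sum_sigma, sum_const, nsmul_eq_mul, card_powerset, DT]
        refine sum_le_sum fun u hu => ?_
        refine mul_le_mul ?_ (sum_le_sum fun t ht => mul_le_mul_of_nonneg_right ?_ (hg _ _))
          (sum_nonneg fun t _ => mul_nonneg (Nat.cast_nonneg _) (hg _ _)) (Nat.cast_nonneg _)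
        · exact_mod_cast two_pow_primeFactors_le u (by have := (mem_Icc.1 hu).1; omega)
        · exact_mod_cast two_pow_primeFactors_le t (by have := (mem_Icc.1 ht).1; omega)

/-- Leaf bound: interpolate the trivial bound with the count of reduced ratios. -/
theorem ratio_leaf (hdiv : DivisorSumStmt) {V W R : Finset ℕ} (hR : ∀ p ∈ R, p.Prime)
    (hVpos : ∀ v ∈ V, 0 < v) (hWpos : ∀ w ∈ W, 0 < w) (cV : ExpConst R V) (cW : ExpConst R W)
    (N : ℕ → ℕ) {α β : ℕ → ℝ} (hα : ∀ v ∈ V, 0 ≤ α v ∧ α v ≤ 1) (hβ : ∀ w ∈ W, 0 ≤ β w ∧ β w ≤ 1)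
    (g : ℕ → ℕ → ℝ) (hg : ∀ q r, 0 ≤ g q r ∧ g q r ≤ 1) {Q S Γ θ : ℝ} (hQ : 1 ≤ Q) (hS : 1 ≤ S)
    (_hΓ : 0 ≤ Γ) (hθ0 : 0 < θ) (hθ1 : θ < 1)
    (hsupp : ∀ q r, g q r ≠ 0 → (q : ℝ) ≤ Q ∧ (r : ℝ) ≤ S) {v₀ w₀ : ℕ} (hv₀ : v₀ ∈ V) (hw₀ : w₀ ∈ W)
    (hcount : ∀ u : ℕ, ∑ t ∈ Icc 1 ⌊Q / resolvedPart R v₀ w₀⌋₊,
      g (resolvedPart R v₀ w₀ * t) (resolvedPart R w₀ v₀ * u) ≤ Q / resolvedPart R v₀ w₀ * Γ) :
    (∑ v ∈ V, ∑ w ∈ W, open Classical in
        if Apart R N v w then α v * β w * g (red v w) (red w v) else 0) ≤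
      ((∑ v ∈ V, α v) * ∑ w ∈ W, β w) ^ θ *
        (Q / resolvedPart R v₀ w₀ * (S / resolvedPart R w₀ v₀) * √Γ *
          (1 + Real.log (max Q S)) ^ 3) ^ (1 - θ) := by
  classical
  set X := resolvedPart R v₀ w₀ with hX
  set Y := resolvedPart R w₀ v₀ with hY
  have hX0 : 0 < X := resolvedPart_pos hR _ _
  have hY0 : 0 < Y := resolvedPart_pos hR _ _
  set L := 1 + Real.log (max Q S) with hL
  have hL1 : 1 ≤ L := by
    have := Real.log_nonneg (hQ.trans (le_max_left Q S)); linarith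
  set NX := ⌊Q / (X : ℝ)⌋₊
  set NY := ⌊S / (Y : ℝ)⌋₊
  set E := ∑ v ∈ V, ∑ w ∈ W, (if Apart R N v w then α v * β w * g (red v w) (red w v) else 0)
  have hE0 : 0 ≤ E := sum_nonneg fun v hv => sum_nonneg fun w hw => by
    split
    · exact mul_nonneg (mul_nonneg (hα v hv).1 (hβ w hw).1) (hg _ _).1
    · exact le_rfl
  have hE1 : E ≤ (∑ v ∈ V, α v) * ∑ w ∈ W, β w := by
    rw [sum_mul_sum]
    refine sum_le_sum fun v hv => sum_le_sum fun w hw => ?_
    split
    · exact mul_le_of_le_one_right (mul_nonneg (hα v hv).1 (hβ w hw).1) (hg _ _).2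
    · exact mul_nonneg (hα v hv).1 (hβ w hw).1
  have hlogle : ∀ (Z : ℝ), 1 ≤ Z → Z ≤ max Q S → ∀ n : ℕ, (n : ℝ) ≤ Z → 1 + Real.log n ≤ L := by
    intro Z _ hZ n hn
    rcases Nat.eq_zero_or_pos n with rfl | hn0
    · simp; linarith
    · have : Real.log n ≤ Real.log (max Q S) :=
        Real.log_le_log (by exact_mod_cast hn0) (hn.trans hZ)
      linarith
  have hXQ : (NX : ℝ) ≤ Q / X := Nat.floor_le (by positivity)
  have hYS : (NY : ℝ) ≤ S / Y := Nat.floor_le (by positivity)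
  have hQX : Q / (X : ℝ) ≤ Q := div_le_self (by linarith) (by exact_mod_cast hX0)
  have hSY : S / (Y : ℝ) ≤ S := div_le_self (by linarith) (by exact_mod_cast hY0)
  have hinner : ∀ u ∈ Icc 1 NY, ∑ t ∈ Icc 1 NX, (t.divisors.card : ℝ) * g (X * t) (Y * u) ≤
      Q / X * √Γ * L ^ 2 := by
    intro u _
    refine (Real.sum_mul_le_sqrt_mul_sqrt _ _ _).trans ?_
    have h1 : ∑ t ∈ Icc 1 NX, (t.divisors.card : ℝ) ^ 2 ≤ Q / X * L ^ 4 := by
      refine (hdiv NX).2.trans ?_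
      have hlog : 1 + Real.log (NX : ℕ) ≤ L :=
        hlogle Q hQ (le_max_left _ _) NX (hXQ.trans hQX)
      have h0 : 0 ≤ 1 + Real.log (NX : ℕ) := by have := Real.log_natCast_nonneg NX; linarith
      calc (NX : ℝ) * (1 + Real.log NX) ^ 3 ≤ Q / X * L ^ 3 := by gcongr
        _ ≤ Q / X * L ^ 4 := by gcongr; all_goals linarith
    have h2 : ∑ t ∈ Icc 1 NX, g (X * t) (Y * u) ^ 2 ≤ Q / X * Γ :=
      (sum_le_sum fun t _ => by
        obtain ⟨a, b⟩ := hg (X * t) (Y * u); nlinarith).trans (hcount u)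
    calc √(∑ t ∈ Icc 1 NX, (t.divisors.card : ℝ) ^ 2) * √(∑ t ∈ Icc 1 NX, g (X * t) (Y * u) ^ 2)
        ≤ √(Q / X * L ^ 4) * √(Q / X * Γ) := by gcongr
      _ = Q / X * √Γ * L ^ 2 := by
          rw [show L ^ 4 = (L ^ 2) ^ 2 by ring, sqrt_mul (by positivity), sqrt_mul (by positivity),
            sqrt_sq (by positivity)]
          have := mul_self_sqrt (show 0 ≤ Q / (X : ℝ) by positivity)
          linear_combination (√Γ * L ^ 2) * this
  have hEB : E ≤ Q / X * (S / Y) * √Γ * L ^ 3 := by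
    refine (apart_sum_le_divisors hR hVpos hWpos cV cW N hα hβ g (fun q r => (hg q r).1) hsupp hv₀ hw₀).trans ?_
    refine (sum_le_sum fun u hu => mul_le_mul_of_nonneg_left (hinner u hu) (by positivity)).trans ?_
    rw [← sum_mul]
    have h1 : ∑ u ∈ Icc 1 NY, (u.divisors.card : ℝ) ≤ S / Y * L := by
      refine (hdiv NY).1.trans ?_
      have h0 : 0 ≤ 1 + Real.log (NY : ℕ) := by have := Real.log_natCast_nonneg NY; linarith
      exact mul_le_mul hYS (hlogle S hS (le_max_right _ _) NY (hYS.trans hSY)) h0 (by positivity)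
    refine (mul_le_mul_of_nonneg_right h1 (by positivity)).trans_eq ?_
    ring
  rcases eq_or_lt_of_le hE0 with hz | hz
  · rw [← hz]
    exact mul_nonneg (rpow_nonneg (mul_nonneg (sum_nonneg fun v hv => (hα v hv).1)
      (sum_nonneg fun w hw => (hβ w hw).1)) _) (rpow_nonneg (by positivity) _)
  calc E = E ^ θ * E ^ (1 - θ) := by rw [← rpow_add hz]; norm_num
    _ ≤ _ := mul_le_mul (rpow_le_rpow hE0 hE1 hθ0.le) (rpow_le_rpow hE0 hEB (by linarith))
        (rpow_nonneg hE0 _) (rpow_nonneg (hE0.trans hE1) _)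

end Vale.Agent.P028
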