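import Vale.Agent.P028.Params
import Vale.Agent.P028.RatioLeaf

/-! The bilinear inequality for kernels depending on the reduced ratio of a pair. -/

namespace Vale.Agent.P028

open Finset Real

/-- Split of the resolved product over the pattern primes. -/
theorem shiftWt_split {P R : Finset ℕ} (h : P ⊆ R) (t₁ t₂ : ℕ → ℝ) (v w : ℕ) :
    shiftWt t₁ t₂ R v w = shiftWt t₁ t₂ (R \ P) v w * shiftWt t₁ t₂ P v w :=
  (prod_sdiff h).symm

theorem shiftWt_congr {R : Finset ℕ} {t₁ t₂ : ℕ → ℝ} {V W : Finset ℕ} (cV : ExpConst R V)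
    (cW : ExpConst R W) {v v' w w' : ℕ} (hv : v ∈ V) (hv' : v' ∈ V) (hw : w ∈ W) (hw' : w' ∈ W) :
    shiftWt t₁ t₂ R v w = shiftWt t₁ t₂ R v' w' :=
  prod_congr rfl fun p hp => by rw [cV p hp v hv v' hv', cW p hp w hw w' hw']

/-- Powers of the resolved parts as a shift. -/
theorem shiftWt_powT {R : Finset ℕ} (_hR : ∀ p ∈ R, p.Prime) (e₁ e₂ : ℝ) (v w : ℕ) :
    shiftWt (powT e₁) (powT e₂) R v w =
      (resolvedPart R v w : ℝ) ^ (-e₁) * (resolvedPart R w v : ℝ) ^ (-e₂) := by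
  simp only [shiftWt, expKer, resolvedPart, Nat.cast_prod, Nat.cast_pow, prod_mul_distrib]
  rw [← finsetProd_rpow _ _ (fun p hp => by positivity), ← finsetProd_rpow _ _ (fun p hp => by positivity)]
  congr 1
  · refine prod_congr rfl fun p hp => ?_
    rw [powT, ← rpow_natCast ((p : ℝ) ^ (-e₁)), ← rpow_natCast (p : ℝ), ← rpow_mul (by positivity),
      ← rpow_mul (by positivity), mul_comm]
  · refine prod_congr rfl fun p hp => ?_
    rw [powT, ← rpow_natCast ((p : ℝ) ^ (-e₂)), ← rpow_natCast (p : ℝ), ← rpow_mul (by positivity),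
      ← rpow_mul (by positivity), mul_comm]

/-- Bilinear inequality for a ratio kernel, with the primes of `P` grouped first. -/
theorem ratio_bilinear (hdiv : DivisorSumStmt) {θ η : ℝ} (hθ : 1 / 2 < θ) (hθ1 : θ < 1) (hη : 0 < η)
    (hη2 : η < 1 / 2) (hηθ : 2 * η ^ (2 * θ - 1) ≤ θ / 2) {e₁ e₂ f₁ f₂ : ℝ} (he : e₁ ≤ e₂)
    {b : ℕ → ℝ} (P : Finset ℕ) (hP : ∀ p ∈ P, p.Prime)
    (hb₁ : ∀ p ∈ P, ∀ (J : Finset ℕ) (i : ℕ), ∑ j ∈ J, expKer (powT f₁ p) (powT f₂ p) i j ≤ b p)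
    (hb₂ : ∀ p ∈ P, ∀ (J : Finset ℕ) (i : ℕ), ∑ j ∈ J, expKer (powT f₁ p) (powT f₂ p) j i ≤ b p)
    (V W : Finset ℕ) (hVpos : ∀ v ∈ V, 0 < v) (hWpos : ∀ w ∈ W, 0 < w)
    (hok : ∀ x ∈ V ∪ W, ∀ p ∈ x.primeFactors, p ∉ P → PrimeOK θ η e₁ e₂ p)
    (α β : ℕ → ℝ) (hα : ∀ v ∈ V, 0 < α v ∧ α v ≤ 1) (hβ : ∀ w ∈ W, 0 < β w ∧ β w ≤ 1)
    (g : ℕ → ℕ → ℝ) (hg : ∀ q r, 0 ≤ g q r ∧ g q r ≤ 1) {Q S : ℝ} (hQ : 1 ≤ Q) (hS : 1 ≤ S)
    (hsupp : ∀ q r, g q r ≠ 0 → (q : ℝ) ≤ Q ∧ (r : ℝ) ≤ S)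
    (habs : ∀ G : GcdSys, G.θ = θ → G.t₁ = powT e₁ → G.t₂ = powT e₂ →
      G.T₀ ⊆ ((V ∪ W).biUnion Nat.primeFactors) \ P → G.V₀ ⊆ V → G.W₀ ⊆ W →
      (∀ v w, G.k v w ≠ 0 → g (red v w) (red w v) ≠ 0) → G.Absorbs)
    (Γ : ℕ → ℕ → ℝ) (hΓ : ∀ X Y, 0 ≤ Γ X Y)
    (hcount : ∀ X Y u : ℕ, 0 < X → 0 < Y →
      ∑ t ∈ Icc 1 ⌊Q / X⌋₊, g (X * t) (Y * u) ≤ Q / X * Γ X Y)
    {C : ℝ} (hC : 0 ≤ C)
    (hkey : ∀ (R : Finset ℕ) (v w : ℕ), P ⊆ R → (∀ p ∈ R, p.Prime) →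
      (Q / resolvedPart R v w * (S / resolvedPart R w v) *
          √(Γ (resolvedPart R v w) (resolvedPart R w v)) * (1 + Real.log (max Q S)) ^ 3) ^ (1 - θ) ≤
        C * shiftWt (powT f₁) (powT f₂) P v w * shiftWt (powT e₁) (powT e₂) (R \ P) v w) :
    ∑ v ∈ V, ∑ w ∈ W, α v * β w * g (red v w) (red w v) ≤
      2 * C * (∏ p ∈ P, b p) * ((∑ v ∈ V, α v) * ∑ w ∈ W, β w) ^ θ := by
  classical
  refine sum_pairs_le_of_patterns P V W α β (fun v w => α v * β w * g (red v w) (red w v))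
    (powT f₁) (powT f₂) hθ.le (fun v hv => (hα v hv).1.le) (fun w hw => (hβ w hw).1.le)
    (by positivity) (fun p _ => powT_nonneg _ _) (fun p _ => powT_nonneg _ _) b hb₁ hb₂ ?_
  intro V' hV' W' hW' cV cW v₀ hv₀ w₀ hw₀
  set T₀ := ((V' ∪ W').biUnion Nat.primeFactors) \ P with hT₀
  have hT₀p : ∀ p ∈ T₀, p.Prime ∧ PrimeOK θ η e₁ e₂ p := by
    intro p hp
    obtain ⟨hp1, hp2⟩ := mem_sdiff.1 hp
    obtain ⟨x, hx, hpx⟩ := mem_biUnion.1 hp1
    exact ⟨Nat.prime_of_mem_primeFactors hpx, hok x (union_subset_union hV' hW' hx) p hpx hp2⟩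
  let G : GcdSys :=
    { θ := θ, η := η, t₁ := powT e₁, t₂ := powT e₂, R₀ := P, T₀ := T₀
      C₀ := C * shiftWt (powT f₁) (powT f₂) P v₀ w₀
      V₀ := V', W₀ := W', α := α, β := β
      k := fun v w => if v ∈ V' ∧ w ∈ W' then α v * β w * g (red v w) (red w v) else 0
      hθ := hθ, hθ1 := hθ1, hη := hη, hη2 := hη2, hηθ := hηθ
      hC₀ := mul_nonneg hC (prod_nonneg fun p _ => expKer_nonneg (powT_nonneg _ _) (powT_nonneg _ _) _ _)
      hα := fun v hv => (hα v (hV' hv)).1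
      hβ := fun w hw => (hβ w (hW' hw)).1
      hk := fun v w => by
        split
        · next h => exact mul_nonneg (mul_nonneg (hα v (hV' h.1)).1.le (hβ w (hW' h.2)).1.le) (hg _ _).1
        · exact le_rfl
      ht₂ := fun p _ => powT_nonneg _ _
      ht₂₁ := fun p hp => powT_le_powT he (hT₀p p hp).1.one_le
      ht₁ := fun p hp => (hT₀p p hp).2.t₁
      hsmall₁ := fun p hp => (hT₀p p hp).2.small₁
      hsmall₂ := fun p hp => (hT₀p p hp).2.small₂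
      cover := fun x hx p hp => by
        by_cases h : p ∈ P
        · exact mem_union_left _ h
        · exact mem_union_right _ (mem_sdiff.2 ⟨mem_biUnion.2 ⟨x, hx, hp⟩, h⟩) }
  have hconf : G.Conf V' W' P T₀ :=
    ⟨subset_rfl, subset_rfl, subset_rfl, subset_rfl, disjoint_sdiff, cV, cW, G.cover,
      subset_union_left⟩
  have hleaf : G.Leaf := by
    intro V'' W'' R hV'' hW'' hR hRsub cV'' cW'' N v hv w hw
    have hRp : ∀ p ∈ R, p.Prime := fun p hp => by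
      rcases mem_union.1 (hRsub hp) with h | h
      · exact hP p h
      · exact (hT₀p p h).1
    have hVV : ∀ x ∈ V'', x ∈ V := fun x hx => hV' (hV'' hx)
    have hWW : ∀ x ∈ W'', x ∈ W := fun x hx => hW' (hW'' hx)
    have h := ratio_leaf hdiv hRp (fun x hx => hVpos x (hVV x hx)) (fun x hx => hWpos x (hWW x hx))
      cV'' cW'' N (fun x hx => ⟨(hα x (hVV x hx)).1.le, (hα x (hVV x hx)).2⟩)
      (fun x hx => ⟨(hβ x (hWW x hx)).1.le, (hβ x (hWW x hx)).2⟩) g hg hQ hS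
      (hΓ (resolvedPart R v w) (resolvedPart R w v)) (by linarith) hθ1 hsupp hv hw
      (fun u => hcount _ _ u (resolvedPart_pos hRp _ _) (resolvedPart_pos hRp _ _))
    refine le_trans (le_of_eq (sum_congr rfl fun x hx => sum_congr rfl fun y hy => ?_))
      (h.trans ((mul_le_mul_of_nonneg_left (hkey R v w hR hRp) (rpow_nonneg (mul_nonneg
        (sum_nonneg fun x hx => (hα x (hVV x hx)).1.le)
        (sum_nonneg fun x hx => (hβ x (hWW x hx)).1.le)) _)).trans_eq ?_))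
    · have hx' : x ∈ V' := hV'' hx
      have hy' : y ∈ W' := hW'' hy
      simp only [G, if_pos (And.intro hx' hy')]
    · have hcongr : shiftWt (powT f₁) (powT f₂) P v w = shiftWt (powT f₁) (powT f₂) P v₀ w₀ :=
        shiftWt_congr cV cW (hV'' hv) hv₀ (hW'' hw) hw₀
      rw [hcongr]
      simp only [GcdSys.mV, GcdSys.mW, GcdSys.shift, G]
      ring
  have habsG : G.Absorbs := habs G rfl rfl rfl
    (sdiff_subset_sdiff (biUnion_subset_biUnion_of_subset_left _ (union_subset_union hV' hW')) subset_rfl)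
    hV' hW' (fun v w h => by
      intro h0; apply h; simp only [G]; split <;> simp [h0])
  have hfin := GcdSys.pairs_le_of hleaf habsG V' W' P T₀ hconf v₀ hv₀ w₀ hw₀
  simp only [GcdSys.pairs, GcdSys.mV, GcdSys.mW, GcdSys.shift, G, sdiff_self, shiftWt] at hfin
  rw [Finset.bot_eq_empty, prod_empty, mul_one] at hfin
  refine le_trans (le_of_eq (sum_congr rfl fun x hx => sum_congr rfl fun y hy => ?_)) (hfin.trans_eq ?_)
  · rw [if_pos (And.intro hx hy)]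
  · simp only [shiftWt]; ring

end Vale.Agent.P028
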