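import Vale.Agent.P028.Levels
import Vale.Agent.P028.Lattice
import Vale.Agent.P028.Arith

/-! The progression counts fed to the bilinear bounds. -/

namespace Vale.Agent.P028

open Finset Real
open scoped Classical

theorem sum_indicator_le_card {T : Finset ℕ} {f : ℕ → ℝ} (p : ℕ → Prop) [DecidablePred p]
    (hf : ∀ t ∈ T, f t ≤ if p t then 1 else 0) : ∑ t ∈ T, f t ≤ ((T.filter p).card : ℝ) :=
  (sum_le_sum hf).trans_eq (sum_boole _ _)

/-- `Ev` along the multiples of `X`. -/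
theorem ev_count : ∃ C : ℝ, 1 ≤ C ∧ ∀ (D₀ Q : ℝ) (X : ℕ), 1 ≤ D₀ → 0 ≤ Q → 0 < X →
    (((Icc 1 ⌊Q / X⌋₊).filter (fun t => Ev D₀ (X * t))).card : ℝ) ≤
      Q / X * (C * Real.exp (-(Real.sqrt (ytail D₀)) / 2) * X) := by
  obtain ⟨C, hC⟩ := primeEvent
  refine ⟨max C (Real.exp 1), le_trans (by linarith [Real.add_one_le_exp (1 : ℝ)]) (le_max_right _ _),
    fun D₀ Q X hD hQ hX => ?_⟩
  have ha : 1 ≤ ytail D₀ := one_le_pow₀ (by linarith [Real.log_nonneg hD])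
  have hX1 : (1 : ℝ) ≤ X := by exact_mod_cast hX
  have hQX : 0 ≤ Q / X := div_nonneg hQ (by linarith)
  have hN : ((⌊Q / X⌋₊ : ℕ) : ℝ) ≤ Q / X := Nat.floor_le hQX
  set a := ytail D₀
  by_cases ha2 : 2 ≤ √a
  · have h := hC a (evPrimes D₀) X ⌊Q / X⌋₊ ha
      (fun p hp => (mem_filter.1 hp).2) hX
    refine le_trans (le_of_eq ?_) (h.trans ?_)
    · congr 2
    · have hXpow : (X : ℝ) ^ (2 / √a) ≤ X :=
        (rpow_le_rpow_of_exponent_le hX1 ((div_le_one (by linarith)).2 ha2)).trans_eq (rpow_one _)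
      calc C * ⌊Q / X⌋₊ * Real.exp (-√a / 2) * (X : ℝ) ^ (2 / √a)
          ≤ max C (Real.exp 1) * (Q / X) * Real.exp (-√a / 2) * X := by
            gcongr
            exact le_max_left _ _
        _ = _ := by ring
  · refine le_trans (le_trans (Nat.cast_le.2 (card_filter_le _ _)) ?_) (le_mul_of_one_le_right hQX ?_)
    · rw [Nat.card_Icc, Nat.add_sub_cancel]; exact hN
    · refine one_le_mul_of_one_le_of_one_le ?_ hX1
      refine le_trans ?_ (mul_le_mul_of_nonneg_right (le_max_right C (Real.exp 1)) (Real.exp_nonneg _))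
      rw [← Real.exp_add]
      exact Real.one_le_exp (by linarith [not_le.1 ha2])

/-- Multiples of a modulus along the multiples of `X`. -/
theorem dvd_count {k X : ℕ} (hk : 0 < k) (hX : 0 < X) {Q : ℝ} (hQ : 0 ≤ Q) :
    (((Icc 1 ⌊Q / X⌋₊).filter (fun t => k ∣ X * t)).card : ℝ) ≤ Q / X * ((k : ℝ)⁻¹ * X) := by
  have hg : 0 < Nat.gcd X k := Nat.gcd_pos_of_pos_left _ hX
  set m := k / Nat.gcd X k with hm
  have hm0 : 0 < m := Nat.div_pos (Nat.gcd_le_right X hk) hg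
  have hdvd : ∀ t, k ∣ X * t → m ∣ t := by
    intro t ht
    have hk' : k = Nat.gcd X k * m := (Nat.mul_div_cancel' (Nat.gcd_dvd_right X k)).symm
    have hX' : X = Nat.gcd X k * (X / Nat.gcd X k) := (Nat.mul_div_cancel' (Nat.gcd_dvd_left X k)).symm
    have h1 : Nat.gcd X k * m ∣ Nat.gcd X k * (X / Nat.gcd X k * t) := by
      rw [← mul_assoc, ← hX', ← hk']; exact ht
    exact ((Nat.coprime_div_gcd_div_gcd hg).symm).dvd_of_dvd_mul_left ((Nat.mul_dvd_mul_iff_left hg).1 h1)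
  have hsub : (Icc 1 ⌊Q / X⌋₊).filter (fun t => k ∣ X * t) ⊆ (Ioc 0 ⌊Q / X⌋₊).filter (fun t => m ∣ t) :=
    fun t ht => by
      obtain ⟨ht1, ht2⟩ := mem_filter.1 ht
      exact mem_filter.2 ⟨mem_Ioc.2 ⟨(mem_Icc.1 ht1).1, (mem_Icc.1 ht1).2⟩, hdvd t ht2⟩
  have hcard := card_le_card hsub
  rw [Nat.Ioc_filter_dvd_card_eq_div] at hcard
  refine (Nat.cast_le.2 hcard).trans (Nat.cast_div_le.trans ?_)
  have hQX : 0 ≤ Q / X := div_nonneg hQ (Nat.cast_nonneg X)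
  have hm' : (m : ℝ)⁻¹ ≤ (k : ℝ)⁻¹ * X := by
    rw [inv_mul_eq_div, inv_le_iff_one_le_mul₀ (by exact_mod_cast hm0), div_mul_eq_mul_div,
      one_le_div (by exact_mod_cast hk)]
    have : k ≤ X * m := by
      calc k = Nat.gcd X k * m := (Nat.mul_div_cancel' (Nat.gcd_dvd_right X k)).symm
        _ ≤ X * m := Nat.mul_le_mul_right _ (Nat.gcd_le_left k hX)
    exact_mod_cast this
  calc ((⌊Q / X⌋₊ : ℕ) : ℝ) / m ≤ Q / X * (m : ℝ)⁻¹ := by
        rw [← div_eq_mul_inv]; gcongr; exact Nat.floor_le hQX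
    _ ≤ _ := mul_le_mul_of_nonneg_left hm' hQX

theorem gcd_le_primePart {P : Finset ℕ} (hP : ∀ p ∈ P, p.Prime) {X B : ℕ} (hX : 0 < X) (hB : 0 < B)
    (hBP : B.primeFactors ⊆ P) : Nat.gcd X B ≤ primePart P X := by
  have hg : Nat.gcd X B ≠ 0 := (Nat.gcd_pos_of_pos_left _ hX).ne'
  have hsub : (Nat.gcd X B).primeFactors ⊆ P :=
    (Nat.primeFactors_mono (Nat.gcd_dvd_right X B) hB.ne').trans hBP
  calc Nat.gcd X B = ∏ p ∈ P, p ^ (Nat.gcd X B).factorization p := by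
        conv_lhs => rw [← Nat.prod_factorization_pow_eq_self hg]
        rw [Finsupp.prod, Nat.support_factorization]
        refine prod_subset hsub fun p hp hnp => ?_
        rw [← Nat.support_factorization, Finsupp.notMem_support_iff] at hnp
        rw [hnp, pow_zero]
    _ ≤ primePart P X := prod_le_prod' fun p hp => Nat.pow_le_pow_right (hP p hp).pos
        ((Nat.factorization_le_iff_dvd hg hX.ne').2 (Nat.gcd_dvd_left X B) p)

/-- The approximation has a numerator at distance `2 D` from the prescribed point, off the line. -/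
def NearOff (γ : ℝ) (A : ℕ → ℤ) (B : ℕ → ℕ) (L : ℕ) (D : ℝ) (a b : ℕ) : Prop :=
  ∃ n : ℤ, |(n : ℝ) + γ * ((b : ℝ) - a)| ≤ 2 * D ∧ (B L : ℤ) * n + A L * ((b : ℤ) - a) ≠ 0

/-- `NearOff` along the multiples of `X` of either entry. -/
theorem near_count : ∃ K : ℝ, 1 ≤ K ∧ ∀ (γ : ℝ) (A : ℕ → ℤ) (B : ℕ → ℕ), IsCls γ A B →
    ∀ (L : ℕ) (D : ℝ) (X c : ℕ), 0 < D → ((2 : ℝ) ^ L)⁻¹ ≤ 3 * D → 1 ≤ D * (4 : ℝ) ^ L → 0 < X →
      (c : ℝ) ≤ D * (4 : ℝ) ^ L →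
      (((Icc 1 ⌊D * (4 : ℝ) ^ L / X⌋₊).filter (fun t => NearOff γ A B L D (X * t) c)).card : ℝ) ≤
          K * (D * (4 : ℝ) ^ L / X) *
            (D + (Nat.gcd X (B L) : ℝ) * min ((B L : ℝ))⁻¹ D + X * (5 * ((2 : ℝ) ^ L)⁻¹)) ∧
      (((Icc 1 ⌊D * (4 : ℝ) ^ L / X⌋₊).filter (fun t => NearOff γ A B L D c (X * t))).card : ℝ) ≤
          K * (D * (4 : ℝ) ^ L / X) *
            (D + (Nat.gcd X (B L) : ℝ) * min ((B L : ℝ))⁻¹ D + X * (5 * ((2 : ℝ) ^ L)⁻¹)) := by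
  obtain ⟨K, hK⟩ := latticeStmt
  refine ⟨max K 1, le_max_right _ _, fun γ A B hcls L D X c hD hD3 hQ hX hc => ?_⟩
  obtain ⟨hB1, hB2, hcop, he⟩ := hcls L
  set Q := D * (4 : ℝ) ^ L with hQdef
  have hbnd : D + (Nat.gcd X (B L) : ℝ) * min ((B L : ℝ))⁻¹ D +
      X * (|(B L : ℝ) * γ - A L| + (1 + B L * D) / Q) ≤
      D + (Nat.gcd X (B L) : ℝ) * min ((B L : ℝ))⁻¹ D + X * (5 * ((2 : ℝ) ^ L)⁻¹) := by
    have h4 : (4 : ℝ) ^ L = (2 : ℝ) ^ L * (2 : ℝ) ^ L := by rw [← mul_pow]; norm_num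
    have h2 : (0 : ℝ) < (2 : ℝ) ^ L := by positivity
    have hfrac : (1 + (B L : ℝ) * D) / Q ≤ 4 * ((2 : ℝ) ^ L)⁻¹ := by
      rw [hQdef, div_le_iff₀ (by positivity), h4]
      rw [inv_le_iff_one_le_mul₀ h2] at hD3
      have hB2' : (B L : ℝ) ≤ (2 : ℝ) ^ L := by exact_mod_cast hB2
      field_simp
      nlinarith
    gcongr
    linarith
  have hkey := hK γ (A L) (B L) X c D Q hcop hB1 hX hD hQ hc
  have hK' : K * (Q / X) * (D + (Nat.gcd X (B L) : ℝ) * min ((B L : ℝ))⁻¹ D +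
      X * (|(B L : ℝ) * γ - A L| + (1 + B L * D) / Q)) ≤ max K 1 * (Q / X) *
      (D + (Nat.gcd X (B L) : ℝ) * min ((B L : ℝ))⁻¹ D + X * (5 * ((2 : ℝ) ^ L)⁻¹)) := by
    have h0 : 0 ≤ D + (Nat.gcd X (B L) : ℝ) * min ((B L : ℝ))⁻¹ D +
        X * (|(B L : ℝ) * γ - A L| + (1 + B L * D) / Q) := by positivity
    refine (mul_le_mul_of_nonneg_right (mul_le_mul_of_nonneg_right (le_max_left K 1) (by positivity)) h0).trans
      (mul_le_mul_of_nonneg_left hbnd (by positivity))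
  refine ⟨le_trans (Nat.cast_le.2 (card_le_card ?_)) (hkey.trans hK'),
    le_trans (Nat.cast_le.2 (card_le_card ?_)) (hkey.trans hK')⟩
  · intro t ht
    obtain ⟨ht1, n, hn1, hn2⟩ := mem_filter.1 ht
    refine mem_filter.2 ⟨ht1, n, ?_, ?_⟩
    · push_cast at hn1; exact hn1
    · push_cast at hn2; exact hn2
  · intro t ht
    obtain ⟨ht1, n, hn1, hn2⟩ := mem_filter.1 ht
    refine mem_filter.2 ⟨ht1, -n, ?_, ?_⟩
    · push_cast at hn1 ⊢
      rw [← abs_neg]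
      refine le_trans (le_of_eq (congrArg abs ?_)) hn1
      ring
    · push_cast at hn2
      intro h0; apply hn2; linarith

/-- Numbers with a large part composed of primes of `P`. -/
theorem smooth_count : ∃ C : ℝ, ∀ (s : ℝ) (P₀ : ℕ) (P : Finset ℕ) (Q T : ℝ), 0 < s → s ≤ 1 / 2 →
    (∀ p ∈ P, p.Prime ∧ p ≤ P₀) → 0 ≤ Q → 1 ≤ T →
    (((Icc 1 ⌊Q⌋₊).filter (fun q => T < (primePart P q : ℝ))).card : ℝ) ≤
      Q * (T ^ (-s) * Real.exp (C * (1 + (P₀ : ℝ) ^ s / s))) := by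
  obtain ⟨C, hC⟩ := smoothTail
  refine ⟨C, fun s P₀ P Q T hs hs2 hP hQ hT => ?_⟩
  set F := (Icc 1 ⌊Q⌋₊).filter (fun q => T < (primePart P q : ℝ)) with hF
  set Nn := (Icc 1 ⌊Q⌋₊).filter (fun n : ℕ => T < (n : ℝ) ∧ ∀ p ∈ n.primeFactors, p ≤ P₀)
  have hpp : ∀ q, 0 < q → primePart P q ∣ q := fun q hq => by
    conv_rhs => rw [← Nat.prod_factorization_pow_eq_self hq.ne']
    rw [Finsupp.prod, Nat.support_factorization, primePart]
    rw [← prod_subset (s₁ := P ∩ q.primeFactors) (s₂ := P) inter_subset_left (fun p hp hnp => ?_)]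
    · exact prod_dvd_prod_of_subset _ _ _ inter_subset_right
    · have : p ∉ q.primeFactors := fun h => hnp (mem_inter.2 ⟨hp, h⟩)
      rw [← Nat.support_factorization, Finsupp.notMem_support_iff] at this
      rw [this, pow_zero]
  have hmap : ∀ q ∈ F, primePart P q ∈ Nn := by
    intro q hq
    obtain ⟨hq1, hq2⟩ := mem_filter.1 hq
    obtain ⟨hq0, hqQ⟩ := mem_Icc.1 hq1
    refine mem_filter.2 ⟨mem_Icc.2 ⟨primePart_pos (fun p hp => (hP p hp).1) q,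
      (Nat.le_of_dvd hq0 (hpp q hq0)).trans hqQ⟩, hq2, fun p hp => ?_⟩
    obtain ⟨hpp', hpdvd, -⟩ := Nat.mem_primeFactors.1 hp
    obtain ⟨p', hp', hdvd⟩ := (hpp'.prime.dvd_finsetProd_iff _).1 hpdvd
    have := Nat.prime_dvd_prime_iff_eq hpp' (hP p' hp').1 |>.1 (hpp'.dvd_of_dvd_pow hdvd)
    rw [this]; exact (hP p' hp').2
  have hfib : ∀ n ∈ Nn, ((F.filter (fun q => primePart P q = n)).card : ℝ) ≤ Q * (n : ℝ)⁻¹ := by
    intro n hn
    have hsub : F.filter (fun q => primePart P q = n) ⊆ (Ioc 0 ⌊Q⌋₊).filter (fun q => n ∣ q) := by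
      intro q hq
      obtain ⟨hq', rfl⟩ := mem_filter.1 hq
      obtain ⟨h0, h1⟩ := mem_Icc.1 (mem_filter.1 hq').1
      exact mem_filter.2 ⟨mem_Ioc.2 ⟨h0, h1⟩, hpp q h0⟩
    have hcard := card_le_card hsub
    rw [Nat.Ioc_filter_dvd_card_eq_div] at hcard
    refine (Nat.cast_le.2 hcard).trans (Nat.cast_div_le.trans ?_)
    rw [← div_eq_mul_inv]
    gcongr
    exact Nat.floor_le hQ
  rw [card_eq_sum_card_fiberwise hmap, Nat.cast_sum]
  exact (sum_le_sum hfib).trans ((mul_sum _ _ _).symm.le.trans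
    (mul_le_mul_of_nonneg_left (hC s P₀ ⌊Q⌋₊ T hs hs2 hT) hQ))

end Vale.Agent.P028
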