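import Mathlib

/-! Weak inhomogeneous Duffin–Schaeffer: shared definitions and interfaces.

Level `l` stands for the radius `4⁻ˡ`. Each level carries an approximating fraction `(A l)/(B l)` of
`γ`; at the primes `p` with `det` one residue class of numerators is forbidden, at the other primes
the arcs carry the weight `1 - 1/p` instead. -/

namespace Vale.Agent.P028

open MeasureTheory Finset

/-- `(A l, B l)` approximates `γ` at level `l`. -/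
def IsCls (γ : ℝ) (A : ℕ → ℤ) (B : ℕ → ℕ) : Prop :=
  ∀ l, 1 ≤ B l ∧ B l ≤ 2 ^ l ∧ IsCoprime (A l) (B l : ℤ) ∧ |(B l : ℝ) * γ - A l| < ((2 : ℝ) ^ l)⁻¹

noncomputable def eps (γ : ℝ) (A : ℕ → ℤ) (B : ℕ → ℕ) (l : ℕ) : ℝ := (B l : ℝ) * γ - A l

noncomputable def rad (l : ℕ) : ℝ := ((4 : ℝ) ^ l)⁻¹

/-- `p` carries a forbidden class at level `l`. -/
def Det (γ : ℝ) (A : ℕ → ℤ) (B : ℕ → ℕ) (l p : ℕ) : Prop :=
  ¬ p ∣ B l ∧ |eps γ A B l| * p ≤ 4 * (4 : ℝ) ^ l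

/-- The numerator `a` is admissible for the denominator `q` at level `l`. -/
def Good (γ : ℝ) (A : ℕ → ℤ) (B : ℕ → ℕ) (l q : ℕ) (a : ℤ) : Prop :=
  ∀ p ∈ q.primeFactors, Det γ A B l p → ¬ (p : ℤ) ∣ (B l : ℤ) * a + A l

def arcs (γ : ℝ) (A : ℕ → ℤ) (B : ℕ → ℕ) (l q : ℕ) : Set ℝ :=
  {x | ∃ a : ℤ, Good γ A B l q a ∧ |(q : ℝ) * x - a - γ| < rad l}

open Classical in
noncomputable def cwt (γ : ℝ) (A : ℕ → ℤ) (B : ℕ → ℕ) (l q : ℕ) : ℝ :=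
  ∏ p ∈ q.primeFactors.filter (fun p => ¬ Det γ A B l p), (1 - (p : ℝ)⁻¹)

noncomputable def phiR (q : ℕ) : ℝ := (Nat.totient q : ℝ) / q

/-- Half the weighted measure of the arcs. -/
noncomputable def mass (l q : ℕ) : ℝ := rad l * phiR q

/-- `q` divided by its gcd with `r`. -/
def red (q r : ℕ) : ℕ := q / Nat.gcd q r

noncomputable def dgap (l L q r : ℕ) : ℝ :=
  max ((red r q : ℝ) * rad l) ((red q r : ℝ) * rad L)

/-- The possible values of `a * red r q - b * red q r`. -/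
noncomputable def nRange (γ : ℝ) (l L q r : ℕ) : Finset ℤ :=
  Finset.Icc ⌈-γ * ((red r q : ℝ) - red q r) - 2 * dgap l L q r⌉
    ⌊-γ * ((red r q : ℝ) - red q r) + 2 * dgap l L q r⌋

/-- The linear form whose prime divisors are the coinciding forbidden classes. -/
def coinForm (A : ℕ → ℤ) (B : ℕ → ℕ) (l L q r : ℕ) (n : ℤ) : ℤ :=
  (B l : ℤ) * B L * n + A l * B L * red r q - A L * B l * red q r

open Classical in
noncomputable def rhoLeft (γ : ℝ) (A : ℕ → ℤ) (B : ℕ → ℕ) (l q r : ℕ) (n : ℤ) : ℝ :=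
  ∏ p ∈ (red q r).primeFactors.filter (fun p => Det γ A B l p),
    if (p : ℤ) ∣ (B l : ℤ) * n + A l * red r q then 0 else (p : ℝ) / (p - 1)

open Classical in
noncomputable def rhoBoth (γ : ℝ) (A : ℕ → ℤ) (B : ℕ → ℕ) (l L q r : ℕ) (n : ℤ) : ℝ :=
  ∏ p ∈ (Nat.gcd q r).primeFactors.filter (fun p => Det γ A B l p ∧ Det γ A B L p ∧
      ¬ p ∣ red q r ∧ ¬ p ∣ red r q),
    if (p : ℤ) ∣ coinForm A B l L q r n then (p : ℝ) / (p - 1) else 1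

noncomputable def rho (γ : ℝ) (A : ℕ → ℤ) (B : ℕ → ℕ) (l L q r : ℕ) (n : ℤ) : ℝ :=
  rhoLeft γ A B l q r n * rhoLeft γ A B L r q (-n) * rhoBoth γ A B l L q r n

/-- Periodic geometry and residue counting for two families of arcs. -/
def OverlapStmt : Prop :=
  ∀ (γ : ℝ) (A : ℕ → ℤ) (B : ℕ → ℕ), IsCls γ A B → ∀ l L q r : ℕ, 1 ≤ l → 1 ≤ L → 0 < q → 0 < r →
    q ≠ r →
    cwt γ A B l q * cwt γ A B L r *
        volume.real (arcs γ A B l q ∩ arcs γ A B L r ∩ Set.Ioc 0 1) ≤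
      2 * mass l q * mass L r / dgap l L q r * ∑ n ∈ nRange γ l L q r, rho γ A B l L q r n

/-- One family of arcs: total weighted measure and share of an interval. -/
def SingleStmt : Prop :=
  ∀ (γ : ℝ) (A : ℕ → ℤ) (B : ℕ → ℕ), IsCls γ A B → ∀ l q : ℕ, 1 ≤ l → 0 < q →
    MeasurableSet (arcs γ A B l q) ∧
    (∀ x : ℝ, x + 1 ∈ arcs γ A B l q ↔ x ∈ arcs γ A B l q) ∧
    cwt γ A B l q * volume.real (arcs γ A B l q ∩ Set.Ioc 0 1) ≤ 2 * mass l q ∧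
    ∀ u v : ℝ, 0 ≤ u → u ≤ v → v ≤ 1 →
      2 * mass l q * (v - u) - 2 * rad l * ((2 : ℝ) ^ q.primeFactors.card + 2) / q ≤
        cwt γ A B l q * volume.real (arcs γ A B l q ∩ Set.Ioc u v)

/-- Zero-one law from weighted first and second moments of the tails. -/
def WeakLimitStmt : Prop :=
  ∀ (E : ℕ → Set ℝ), (∀ q, MeasurableSet (E q)) → (∀ q x, x + 1 ∈ E q ↔ x ∈ E q) →
  ∀ (S : ℕ → Finset ℕ) (wt : ℕ → ℕ → ℝ), (∀ Q, ∀ q ∈ S Q, Q ≤ q) → (∀ Q q, 0 ≤ wt Q q) →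
  ∀ (C c₀ : ℝ), 0 < c₀ →
    (∀ Q, ∑ q ∈ S Q, ∑ r ∈ S Q, wt Q q * wt Q r * volume.real (E q ∩ E r ∩ Set.Ioc 0 1) ≤ C) →
    (∀ u v : ℝ, 0 ≤ u → u < v → v ≤ 1 → ∀ η : ℝ, 0 < η → ∃ Q₀, ∀ Q, Q₀ ≤ Q →
      c₀ * (v - u) - η ≤ ∑ q ∈ S Q, wt Q q * volume.real (E q ∩ Set.Ioc u v)) →
    ∀ᵐ x : ℝ, ∀ Q : ℕ, ∃ q, Q ≤ q ∧ x ∈ E q

open Classical in
/-- Numbers of solutions along one progression, away from the exact line of the approximation. -/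
def LatticeStmt : Prop :=
  ∃ K : ℝ, ∀ (γ : ℝ) (A : ℤ) (B X c : ℕ) (D Q : ℝ), IsCoprime A (B : ℤ) → 1 ≤ B → 1 ≤ X → 0 < D →
    1 ≤ Q → (c : ℝ) ≤ Q →
    (((Finset.Icc 1 ⌊Q / X⌋₊).filter (fun t : ℕ => ∃ n : ℤ,
        |(n : ℝ) + γ * ((c : ℝ) - (X : ℝ) * t)| ≤ 2 * D ∧
          (B : ℤ) * n + A * ((c : ℤ) - (X : ℤ) * t) ≠ 0)).card : ℝ) ≤
      K * (Q / X) * (D + (Nat.gcd X B : ℝ) * min (B : ℝ)⁻¹ D
        + X * (|(B : ℝ) * γ - A| + (1 + B * D) / Q))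

end Vale.Agent.P028
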