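import Vale.Agent.P028.Counts

/-! Rare events on the reduced pairs of two levels. -/

namespace Vale.Agent.P028

open Finset Real
open scoped Classical

theorem poly_le_exp (k : ℕ) {c : ℝ} (hc : 0 < c) :
    ∃ C : ℝ, 0 ≤ C ∧ ∀ x : ℝ, 0 ≤ x → (1 + x) ^ k ≤ C * Real.exp (c * x) := by
  refine ⟨k.factorial / c ^ k * Real.exp c, by positivity, fun x hx => ?_⟩
  have h := Real.pow_div_factorial_le_exp (c * (1 + x)) (by positivity) k
  rw [div_le_iff₀ (by positivity), mul_pow, mul_add, mul_one, Real.exp_add] at h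
  calc (1 + x) ^ k = c ^ k * (1 + x) ^ k / c ^ k := by field_simp
    _ ≤ Real.exp c * Real.exp (c * x) * k.factorial / c ^ k := by gcongr
    _ = _ := by ring

theorem poly_mul_two_pow_le (k : ℕ) {c : ℝ} (hc : 0 < c) :
    ∃ C : ℝ, 0 ≤ C ∧ ∀ x : ℝ, 0 ≤ x → (1 + x) ^ k * (2 : ℝ) ^ (-(c * x)) ≤ C := by
  obtain ⟨C, hC, h⟩ := poly_le_exp k (mul_pos hc (Real.log_pos one_lt_two))
  refine ⟨C, hC, fun x hx => ?_⟩
  rw [rpow_def_of_pos two_pos]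
  refine (mul_le_mul_of_nonneg_right (h x hx) (Real.exp_nonneg _)).trans_eq ?_
  rw [mul_assoc, ← Real.exp_add, show c * Real.log 2 * x + Real.log 2 * -(c * x) = 0 by ring, Real.exp_zero,
    mul_one]

/-- The primes up to a threshold. -/
noncomputable def smallPrimes (p₀ : ℕ) : Finset ℕ := (range (p₀ + 1)).filter Nat.Prime

theorem smallPrimes_prime {p₀ p : ℕ} (h : p ∈ smallPrimes p₀) : p.Prime := (mem_filter.1 h).2

theorem smallPrimes_le {p₀ p : ℕ} (h : p ∈ smallPrimes p₀) : p ≤ p₀ := by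
  have := mem_range.1 (mem_filter.1 h).1; omega

theorem big_of_notMem_smallPrimes {p₀ p : ℕ} (hp : p.Prime) (h : p ∉ smallPrimes p₀) : p₀ < p := by
  by_contra h'
  exact h (mem_filter.2 ⟨mem_range.2 (by omega), hp⟩)

/-- The parameters of mode I. -/
structure Params1 (θ κ : ℝ) : Prop where
  hθ : 1 / 2 < θ
  hθ3 : θ ≤ 2 / 3
  hκ : 0 < κ
  hκ4 : κ ≤ (1 - θ) / 4
  hκdir : 1 - θ < θ * ((1 - θ - κ) / (1 - θ))

noncomputable def gEv (D : ℝ) (l L : ℕ) (a b : ℕ) : ℝ :=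
  if (a : ℝ) ≤ D * (4 : ℝ) ^ L ∧ (b : ℝ) ≤ D * (4 : ℝ) ^ l ∧ Ev D a then 1 else 0

theorem ev_num {θ κ η : ℝ} (hθ : 1 / 2 < θ) (hθ1 : θ < 1) (hκ : 0 < κ) (hη : 0 < η) (N : ℕ) {Ce : ℝ}
    (hCe : 1 ≤ Ce) {l L Λ i : ℕ} (hl : l ≤ Λ) (hL : L ≤ Λ) (hΛ : 1 ≤ Λ)
    (hΛi : (Λ : ℝ) ^ η ≤ (2 : ℝ) ^ i) :
    (1 + Real.log ((2 : ℝ) ^ i)) ^ N * (((2 : ℝ) ^ i) ^ (2 - 2 * θ) *
        (1 + Real.log ((2 : ℝ) ^ i) + 2 * (l + L)) ^ 3 *
        (Ce * Real.exp (-√(ytail ((2 : ℝ) ^ i)) / 2)) ^ κ) * ((2 : ℝ) ^ (i : ℝ) * (Λ : ℝ) ^ 2) ≤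
      Ce ^ κ * 6 ^ 5 * Real.exp ((N + 7 + 5 / η : ℝ) ^ 2 / κ) := by
  set c : ℝ := N + 7 + 5 / η with hc
  set D : ℝ := (2 : ℝ) ^ i with hD
  have hD1 : 1 ≤ D := one_le_pow₀ one_le_two
  have hlog : 0 ≤ Real.log D := Real.log_nonneg hD1
  set b := Ce * Real.exp (-√(ytail D) / 2) with hb
  have hl2 : Real.log 2 ≤ 1 := by linarith [Real.log_two_lt_d9]
  have hl20 : 0 < Real.log 2 := Real.log_pos one_lt_two
  set x : ℝ := Real.log D with hx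
  have hxi : x = i * Real.log 2 := by rw [hx, hD, Real.log_pow]
  have hDexp : D = Real.exp x := (Real.exp_log (by positivity)).symm
  have h1 : (1 + x) ^ N ≤ Real.exp (N * x) := by
    rw [Real.exp_nat_mul]; exact pow_le_pow_left₀ (by linarith) (by linarith [Real.add_one_le_exp x]) N
  have h2 : D ^ (2 - 2 * θ) ≤ Real.exp x := by
    rw [← hDexp]; exact (rpow_le_rpow_of_exponent_le hD1 (by linarith)).trans_eq (rpow_one D)
  have hΛ' : (Λ : ℝ) ≤ Real.exp (x / η) := by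
    have h := rpow_le_rpow (by positivity) hΛi (by positivity : 0 ≤ 1 / η)
    rw [← rpow_mul (Nat.cast_nonneg _), mul_one_div_cancel hη.ne', rpow_one] at h
    refine h.trans_eq ?_
    rw [hDexp, ← Real.exp_mul]; ring_nf
  have hΛ1 : (1 : ℝ) ≤ Λ := by exact_mod_cast hΛ
  have h3 : (1 + x + 2 * ((l : ℝ) + L)) ^ 3 * (Λ : ℝ) ^ 2 ≤ 6 ^ 5 * Real.exp (5 * x + 5 / η * x) := by
    have hbase : 1 + x + 2 * ((l : ℝ) + L) ≤ 6 * (Real.exp x * Λ) := by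
      have he : 1 + x ≤ Real.exp x := by linarith [Real.add_one_le_exp x]
      have : (l : ℝ) ≤ Λ := by exact_mod_cast hl
      have : (L : ℝ) ≤ Λ := by exact_mod_cast hL
      linarith [le_mul_of_one_le_right (Real.exp_nonneg x) hΛ1,
        le_mul_of_one_le_left (show (0 : ℝ) ≤ Λ by linarith) (Real.one_le_exp hlog)]
    calc (1 + x + 2 * ((l : ℝ) + L)) ^ 3 * (Λ : ℝ) ^ 2
        ≤ (6 * (Real.exp x * Λ)) ^ 3 * (6 * (Real.exp x * Λ)) ^ 2 := by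
          gcongr
          linarith [le_mul_of_one_le_left (show (0 : ℝ) ≤ Λ by linarith) (Real.one_le_exp hlog)]
      _ = 6 ^ 5 * (Real.exp x ^ 5 * (Λ : ℝ) ^ 5) := by ring
      _ ≤ 6 ^ 5 * (Real.exp x ^ 5 * Real.exp (x / η) ^ 5) := by gcongr
      _ = _ := by rw [← Real.exp_nat_mul, ← Real.exp_nat_mul, ← Real.exp_add]; push_cast; ring_nf
  have h4 : b ^ κ ≤ Ce ^ κ * Real.exp (-(κ * x ^ 2 / 2)) := by
    rw [hb, mul_rpow (by linarith) (Real.exp_nonneg _), ← Real.exp_mul]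
    refine mul_le_mul_of_nonneg_left (Real.exp_le_exp.2 ?_) (by positivity)
    have hsq : √(ytail D) = (1 + x) ^ (40 : ℕ) := by
      rw [ytail, show (80 : ℕ) = 40 * 2 from rfl, pow_mul, Real.sqrt_sq (by positivity)]
    have : x ^ 2 ≤ (1 + x) ^ (40 : ℕ) :=
      le_trans (by nlinarith) (pow_le_pow_right₀ (by linarith) (by norm_num : 2 ≤ 40))
    rw [hsq]; linarith [mul_le_mul_of_nonneg_left this hκ.le]
  have h5 : (2 : ℝ) ^ (i : ℝ) = Real.exp x := by rw [rpow_natCast, ← hD, hDexp]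
  have hDθ : 0 ≤ D ^ (2 - 2 * θ) := rpow_nonneg (by linarith) _
  have hA0 : 0 ≤ (1 + x + 2 * ((l : ℝ) + L)) ^ 3 * (Λ : ℝ) ^ 2 := by positivity
  have hE0 : 0 ≤ Real.exp (N * x) * Real.exp x * Real.exp x := by positivity
  have hb0' : 0 ≤ b ^ κ := rpow_nonneg (mul_nonneg (by linarith) (Real.exp_nonneg _)) _
  have hE1 : 0 ≤ Real.exp (N * x) * Real.exp x * Real.exp x *
      (6 ^ 5 * Real.exp (5 * x + 5 / η * x)) := by positivity
  calc (1 + x) ^ N * (D ^ (2 - 2 * θ) * (1 + x + 2 * (l + L)) ^ 3 * b ^ κ) * ((2 : ℝ) ^ (i : ℝ) * (Λ : ℝ) ^ 2)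
      = (1 + x) ^ N * D ^ (2 - 2 * θ) * (2 : ℝ) ^ (i : ℝ) *
          ((1 + x + 2 * (l + L)) ^ 3 * (Λ : ℝ) ^ 2) * b ^ κ := by ring
    _ ≤ Real.exp (N * x) * Real.exp x * Real.exp x * (6 ^ 5 * Real.exp (5 * x + 5 / η * x)) *
          (Ce ^ κ * Real.exp (-(κ * x ^ 2 / 2))) := by
        rw [h5]
        exact mul_le_mul (mul_le_mul (mul_le_mul_of_nonneg_right (mul_le_mul h1 h2 hDθ (Real.exp_nonneg _))
          (Real.exp_nonneg _)) h3 hA0 hE0) h4 hb0' hE1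
    _ = Ce ^ κ * 6 ^ 5 * Real.exp (c * x - κ * x ^ 2 / 2) := by
        rw [show c * x - κ * x ^ 2 / 2 = N * x + x + x + (5 * x + 5 / η * x) + -(κ * x ^ 2 / 2) by
          rw [hc]; ring]
        simp only [Real.exp_add]
        ring
    _ ≤ _ := by
        gcongr
        rw [le_div_iff₀ hκ]
        nlinarith [sq_nonneg (κ * x - c), sq_nonneg c]

theorem evBound {θ κ : ℝ} (hpar : Params1 θ κ) {η : ℝ} (hη : 0 < η) (N : ℕ) :
    ∃ C : ℝ, 0 ≤ C ∧ ∀ (V W : Finset ℕ), (∀ v ∈ V, 0 < v) → (∀ w ∈ W, 0 < w) →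
      ∀ (M : ℝ), 1 ≤ M → ∀ (l L Λ i : ℕ), l ≤ Λ → L ≤ Λ → 1 ≤ Λ → (Λ : ℝ) ^ η ≤ (2 : ℝ) ^ i →
        ∑ v ∈ V, mass l v ≤ M → ∑ w ∈ W, mass L w ≤ M →
        (1 + Real.log ((2 : ℝ) ^ i)) ^ N * pairW l L V W (gEv ((2 : ℝ) ^ i) l L) ≤
          C * (2 : ℝ) ^ (-(i : ℝ)) * ((Λ : ℝ) ^ 2)⁻¹ * M ^ 2 := by
  obtain ⟨hθ, hθ3, hκ, hκ4, hκdir⟩ := hpar
  obtain ⟨p₀, C₁, cP, hC₁, hcP, hI⟩ := levelI divisorSum hθ hθ3 hκ hκ4 hκdir
  obtain ⟨Ce, hCe, hcount⟩ := ev_count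
  set c : ℝ := N + 7 + 5 / η with hc
  have hc0 : 0 ≤ c := by positivity
  set P := smallPrimes p₀
  set Co := C₁ * cP ^ P.card * (Ce ^ κ * 6 ^ 5 * Real.exp (c ^ 2 / κ)) with hCo
  refine ⟨Co, by positivity, fun V W hV hW M hM l L Λ i hl hL hΛ hΛi hmV hmW => ?_⟩
  set D : ℝ := (2 : ℝ) ^ i with hD
  have hD1 : 1 ≤ D := one_le_pow₀ one_le_two
  set b := Ce * Real.exp (-√(ytail D) / 2) with hb
  have hb0 : 0 ≤ b := by positivity
  have hsupp : ∀ q r, gEv D l L q r ≠ 0 → (q : ℝ) ≤ D * (4 : ℝ) ^ L ∧ (r : ℝ) ≤ D * (4 : ℝ) ^ l := by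
    intro q r h
    unfold gEv at h
    split at h
    · next hh => exact ⟨hh.1, hh.2.1⟩
    · exact absurd rfl h
  have hg : ∀ q r, 0 ≤ gEv D l L q r ∧ gEv D l L q r ≤ 1 := fun q r => by
    unfold gEv; split <;> norm_num
  have hcnt : ∀ X r : ℕ, 0 < X → ∑ t ∈ Icc 1 ⌊D * (4 : ℝ) ^ L / X⌋₊, gEv D l L (X * t) r ≤
      D * (4 : ℝ) ^ L / X * (0 * primePart P X + b * X) := by
    intro X r hX
    rw [zero_mul, zero_add]
    refine le_trans (sum_indicator_le_card (fun t => Ev D (X * t)) fun t _ => ?_)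
      (hcount D _ X hD1 (by positivity) hX)
    unfold gEv; split
    · next h => rw [if_pos h.2.2]
    · split <;> norm_num
  have hmain := hI P (fun p hp => smallPrimes_prime hp) V W hV hW
    (fun x _ p hp hpP => big_of_notMem_smallPrimes (Nat.prime_of_mem_primeFactors hp) hpP)
    l L D 0 b (by positivity) le_rfl hb0 (gEv D l L) hg hsupp hcnt
  rw [zero_rpow (by linarith : (1 - θ) / 4 ≠ 0), zero_add, max_eq_right hD1] at hmain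
  have hmass := mul_rpow_le_sq (θ := θ) (sum_nonneg fun v _ => mass_nonneg l v)
    (sum_nonneg fun w _ => mass_nonneg L w) hmV hmW hM (by linarith) (by linarith)
  have hlog : 0 ≤ Real.log D := Real.log_nonneg hD1
  have hθ1 : θ < 1 := by linarith
  refine (mul_le_mul_of_nonneg_left (hmain.trans (mul_le_mul_of_nonneg_left hmass (by positivity)))
    (by positivity)).trans ?_
  have hnum := ev_num hθ hθ1 hκ hη N hCe hl hL hΛ hΛi
  rw [← hD, ← hb, ← hc] at hnum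
  rw [hCo, rpow_neg zero_le_two]
  calc (1 + Real.log D) ^ N * (C₁ * cP ^ P.card * D ^ (2 - 2 * θ) *
        (1 + Real.log D + 2 * (l + L)) ^ 3 * b ^ κ * M ^ 2)
      = C₁ * cP ^ P.card * ((1 + Real.log D) ^ N * (D ^ (2 - 2 * θ) *
          (1 + Real.log D + 2 * (l + L)) ^ 3 * b ^ κ) * ((2 : ℝ) ^ (i : ℝ) * (Λ : ℝ) ^ 2)) *
          ((2 : ℝ) ^ (i : ℝ))⁻¹ * ((Λ : ℝ) ^ 2)⁻¹ * M ^ 2 := by
        have : (0 : ℝ) < (2 : ℝ) ^ (i : ℝ) := by positivity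
        have : (0 : ℝ) < (Λ : ℝ) := by exact_mod_cast hΛ
        field_simp
    _ ≤ _ := by gcongr

noncomputable def gK (D : ℝ) (k l L : ℕ) (a b : ℕ) : ℝ :=
  if (a : ℝ) ≤ D * (4 : ℝ) ^ L ∧ (b : ℝ) ≤ D * (4 : ℝ) ^ l ∧ k ∣ a then 1 else 0

theorem k_num {θ κ : ℝ} (hθ : 1 / 2 < θ) (hθ1 : θ < 1) (hκ : 0 < κ) {N K : ℕ} {C₂ C₃ : ℝ} (hC₂ : 0 ≤ C₂)
    (hpi : ∀ x : ℝ, 0 ≤ x → (1 + x) ^ (N + 3) * (2 : ℝ) ^ (-((2 * θ - 1) / 2 * x)) ≤ C₂)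
    (hpL : ∀ x : ℝ, 0 ≤ x → (1 + x) ^ (N + 3 + K + 2) * (2 : ℝ) ^ (-(κ / 2 * x)) ≤ C₃)
    {l L k i : ℕ} (hl : l ≤ L) (hL2 : L ≤ 2 * l) (hL1 : 1 ≤ L) (hk0 : 0 < k) (hk : 2 ^ l ≤ 4 * k) :
    ((L : ℝ) + Real.log (2 + (2 : ℝ) ^ i / (8 * (L : ℝ) ^ K))) ^ N / ((2 : ℝ) ^ i / (8 * (L : ℝ) ^ K)) *
        (((2 : ℝ) ^ i / (8 * (L : ℝ) ^ K)) ^ (2 - 2 * θ) *
          (1 + Real.log (max 1 ((2 : ℝ) ^ i / (8 * (L : ℝ) ^ K))) + 2 * (l + L)) ^ 3 * ((k : ℝ)⁻¹) ^ κ) ≤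
      8 * 8 ^ (N + 3) * C₂ * (4 ^ κ * C₃) * (2 : ℝ) ^ (-((2 * θ - 1) / 2 * i)) * ((L : ℝ) ^ 2)⁻¹ := by
  have hL1' : (1 : ℝ) ≤ L := by exact_mod_cast hL1
  set D : ℝ := (2 : ℝ) ^ i / (8 * (L : ℝ) ^ K) with hD
  have hD0 : 0 < D := by positivity
  set b : ℝ := (k : ℝ)⁻¹ with hb
  have hlogM : 0 ≤ Real.log (max 1 D) := Real.log_nonneg (le_max_left _ _)
  have hi0 : (0 : ℝ) ≤ i := Nat.cast_nonneg i
  have hDi : D ≤ (2 : ℝ) ^ i := by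
    refine div_le_self (by positivity) ?_
    nlinarith [one_le_pow₀ (n := K) hL1']
  have hlogi : Real.log (max 1 D) ≤ i := by
    calc Real.log (max 1 D) ≤ Real.log ((2 : ℝ) ^ i) :=
          Real.log_le_log (by positivity) (max_le (one_le_pow₀ one_le_two) hDi)
      _ = i * Real.log 2 := Real.log_pow _ _
      _ ≤ i := mul_le_of_le_one_right hi0 (by linarith [Real.log_two_lt_d9])
  have hlog2 : Real.log (2 + D) ≤ 2 + i := by
    have h3 : 2 + D ≤ 3 * max 1 D := by linarith [le_max_left 1 D, le_max_right 1 D]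
    have h := Real.log_le_log (by positivity) h3
    rw [Real.log_mul (by norm_num) (by positivity)] at h
    have : Real.log 3 ≤ 2 := by
      have := Real.log_le_sub_one_of_pos (show (0 : ℝ) < 3 by norm_num); linarith
    linarith
  have hbase1 : (L : ℝ) + Real.log (2 + D) ≤ 8 * (L * (1 + i)) := by nlinarith
  have hbase2 : 1 + Real.log (max 1 D) + 2 * ((l : ℝ) + L) ≤ 8 * (L * (1 + i)) := by
    have : (l : ℝ) ≤ L := by exact_mod_cast hl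
    nlinarith
  have hpolys : ((L : ℝ) + Real.log (2 + D)) ^ N * (1 + Real.log (max 1 D) + 2 * ((l : ℝ) + L)) ^ 3 ≤
      8 ^ (N + 3) * (L : ℝ) ^ (N + 3) * (1 + (i : ℝ)) ^ (N + 3) := by
    have h0 : 0 ≤ (L : ℝ) + Real.log (2 + D) :=
      add_nonneg (Nat.cast_nonneg _) (Real.log_nonneg (by linarith))
    refine (mul_le_mul (pow_le_pow_left₀ h0 hbase1 N) (pow_le_pow_left₀ (by positivity) hbase2 3)
      (by positivity) (by positivity)).trans_eq ?_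
    rw [← pow_add, mul_pow, mul_pow]; ring
  have hDpow : D ^ (2 - 2 * θ) / D ≤ 8 * (L : ℝ) ^ K * (2 : ℝ) ^ (-((2 * θ - 1) * i)) := by
    rw [← rpow_sub_one hD0.ne', hD, div_rpow (by positivity) (by positivity), ← rpow_natCast 2 i,
      ← rpow_mul zero_le_two, show (i : ℝ) * (2 - 2 * θ - 1) = -((2 * θ - 1) * i) by ring, div_eq_mul_inv,
      ← rpow_neg (by positivity), mul_comm]
    refine mul_le_mul_of_nonneg_right ?_ (by positivity)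
    exact (rpow_le_rpow_of_exponent_le (by nlinarith [one_le_pow₀ (n := K) hL1']) (by linarith)).trans_eq
      (rpow_one _)
  have hbpow : b ^ κ ≤ 4 ^ κ * (2 : ℝ) ^ (-(κ / 2 * L)) := by
    have hk' : (2 : ℝ) ^ l ≤ 4 * k := by exact_mod_cast hk
    have hb4 : b ≤ 4 * (2 : ℝ) ^ (-(l : ℝ)) := by
      rw [hb, rpow_neg zero_le_two, rpow_natCast, ← div_eq_mul_inv, inv_le_iff_one_le_mul₀ (by exact_mod_cast hk0),
        div_mul_eq_mul_div, one_le_div (by positivity)]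
      exact hk'
    refine (rpow_le_rpow (by positivity) hb4 hκ.le).trans ?_
    rw [mul_rpow (by norm_num) (by positivity), ← rpow_mul zero_le_two]
    refine mul_le_mul_of_nonneg_left (rpow_le_rpow_of_exponent_le one_le_two ?_) (by positivity)
    have : (L : ℝ) ≤ 2 * l := by exact_mod_cast hL2
    nlinarith
  have hfi : (1 + (i : ℝ)) ^ (N + 3) * (2 : ℝ) ^ (-((2 * θ - 1) * i)) ≤
      C₂ * (2 : ℝ) ^ (-((2 * θ - 1) / 2 * i)) := by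
    rw [show -((2 * θ - 1) * (i : ℝ)) = -((2 * θ - 1) / 2 * i) + -((2 * θ - 1) / 2 * i) by ring,
      rpow_add two_pos, ← mul_assoc]
    exact mul_le_mul_of_nonneg_right (hpi _ hi0) (by positivity)
  have hfL : (L : ℝ) ^ (N + 3) * (L : ℝ) ^ K * (2 : ℝ) ^ (-(κ / 2 * L)) ≤ C₃ * ((L : ℝ) ^ 2)⁻¹ := by
    rw [← div_eq_mul_inv, le_div_iff₀ (by positivity)]
    refine le_trans (le_of_eq ?_) ((mul_le_mul_of_nonneg_right
      (pow_le_pow_left₀ (Nat.cast_nonneg _) (by linarith : (L : ℝ) ≤ 1 + L) (N + 3 + K + 2)) (by positivity)).trans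
        (hpL _ (Nat.cast_nonneg _)))
    ring
  calc ((L : ℝ) + Real.log (2 + D)) ^ N / D * (D ^ (2 - 2 * θ) *
        (1 + Real.log (max 1 D) + 2 * (l + L)) ^ 3 * b ^ κ)
      = (((L : ℝ) + Real.log (2 + D)) ^ N *
          (1 + Real.log (max 1 D) + 2 * (l + L)) ^ 3) * (D ^ (2 - 2 * θ) / D) * b ^ κ := by ring
    _ ≤ (8 ^ (N + 3) * (L : ℝ) ^ (N + 3) * (1 + (i : ℝ)) ^ (N + 3)) *
          (8 * (L : ℝ) ^ K * (2 : ℝ) ^ (-((2 * θ - 1) * i))) * (4 ^ κ * (2 : ℝ) ^ (-(κ / 2 * L))) := by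
        gcongr
    _ = 8 * 8 ^ (N + 3) * 4 ^ κ * ((1 + (i : ℝ)) ^ (N + 3) * (2 : ℝ) ^ (-((2 * θ - 1) * i))) *
          ((L : ℝ) ^ (N + 3) * (L : ℝ) ^ K * (2 : ℝ) ^ (-(κ / 2 * L))) := by ring
    _ ≤ 8 * 8 ^ (N + 3) * 4 ^ κ * (C₂ * (2 : ℝ) ^ (-((2 * θ - 1) / 2 * i))) *
          (C₃ * ((L : ℝ) ^ 2)⁻¹) := by gcongr
    _ = _ := by ring

theorem kBound {θ κ : ℝ} (hpar : Params1 θ κ) (N K : ℕ) :
    ∃ C : ℝ, 0 ≤ C ∧ ∀ (V W : Finset ℕ), (∀ v ∈ V, 0 < v) → (∀ w ∈ W, 0 < w) →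
      ∀ (M : ℝ), 1 ≤ M → ∀ (l L k i : ℕ), l ≤ L → L ≤ 2 * l → 1 ≤ L → 2 ^ l ≤ 4 * k →
        ∑ v ∈ V, mass l v ≤ M → ∑ w ∈ W, mass L w ≤ M →
        ((L : ℝ) + Real.log (2 + (2 : ℝ) ^ i / (8 * (L : ℝ) ^ K))) ^ N / ((2 : ℝ) ^ i / (8 * (L : ℝ) ^ K)) *
            pairW l L V W (gK ((2 : ℝ) ^ i / (8 * (L : ℝ) ^ K)) k l L) ≤
          C * (2 : ℝ) ^ (-((2 * θ - 1) / 2 * i)) * ((L : ℝ) ^ 2)⁻¹ * M ^ 2 := by
  obtain ⟨hθ, hθ3, hκ, hκ4, hκdir⟩ := hpar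
  obtain ⟨p₀, C₁, cP, hC₁, hcP, hI⟩ := levelI divisorSum hθ hθ3 hκ hκ4 hκdir
  obtain ⟨C₂, hC₂, hpi⟩ := poly_mul_two_pow_le (N + 3) (show 0 < (2 * θ - 1) / 2 by linarith)
  obtain ⟨C₃, hC₃, hpL⟩ := poly_mul_two_pow_le (N + 3 + K + 2) (show 0 < κ / 2 by positivity)
  set P := smallPrimes p₀
  refine ⟨C₁ * cP ^ P.card * (8 * 8 ^ (N + 3) * C₂ * (4 ^ κ * C₃)), by positivity,
    fun V W hV hW M hM l L k i hl hL2 hL1 hk hmV hmW => ?_⟩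
  have hL1' : (1 : ℝ) ≤ L := by exact_mod_cast hL1
  set D : ℝ := (2 : ℝ) ^ i / (8 * (L : ℝ) ^ K) with hD
  have hD0 : 0 < D := by positivity
  have hk0 : 0 < k := by
    by_contra h
    have : k = 0 := by omega
    subst this
    simp at hk
  set b : ℝ := (k : ℝ)⁻¹ with hb
  have hsupp : ∀ q r, gK D k l L q r ≠ 0 → (q : ℝ) ≤ D * (4 : ℝ) ^ L ∧ (r : ℝ) ≤ D * (4 : ℝ) ^ l := by
    intro q r h
    unfold gK at h
    split at h
    · next hh => exact ⟨hh.1, hh.2.1⟩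
    · exact absurd rfl h
  have hg : ∀ q r, 0 ≤ gK D k l L q r ∧ gK D k l L q r ≤ 1 := fun q r => by
    unfold gK; split <;> norm_num
  have hcnt : ∀ X r : ℕ, 0 < X → ∑ t ∈ Icc 1 ⌊D * (4 : ℝ) ^ L / X⌋₊, gK D k l L (X * t) r ≤
      D * (4 : ℝ) ^ L / X * (0 * primePart P X + b * X) := by
    intro X r hX
    rw [zero_mul, zero_add]
    refine le_trans (sum_indicator_le_card (fun t => k ∣ X * t) fun t _ => ?_)
      (dvd_count hk0 hX (by positivity))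
    unfold gK; split
    · next h => rw [if_pos h.2.2]
    · split <;> norm_num
  have hmain := hI P (fun p hp => smallPrimes_prime hp) V W hV hW
    (fun x _ p hp hpP => big_of_notMem_smallPrimes (Nat.prime_of_mem_primeFactors hp) hpP)
    l L D 0 b hD0 le_rfl (by positivity) (gK D k l L) hg hsupp hcnt
  rw [zero_rpow (by linarith : (1 - θ) / 4 ≠ 0), zero_add] at hmain
  have hmass := mul_rpow_le_sq (θ := θ) (sum_nonneg fun v _ => mass_nonneg l v)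
    (sum_nonneg fun w _ => mass_nonneg L w) hmV hmW hM (by linarith) (by linarith)
  have hlogM : 0 ≤ Real.log (max 1 D) := Real.log_nonneg (le_max_left _ _)
  refine (mul_le_mul_of_nonneg_left (hmain.trans (mul_le_mul_of_nonneg_left hmass (by positivity)))
    (div_nonneg (pow_nonneg (add_nonneg (Nat.cast_nonneg _) (Real.log_nonneg (by linarith))) _) hD0.le)).trans ?_
  have hnum := k_num hθ (by linarith) hκ hC₂ hpi hpL hl hL2 hL1 hk0 hk (i := i)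
  rw [← hD, ← hb] at hnum
  calc ((L : ℝ) + Real.log (2 + D)) ^ N / D * (C₁ * cP ^ P.card * D ^ (2 - 2 * θ) *
        (1 + Real.log (max 1 D) + 2 * (l + L)) ^ 3 * b ^ κ * M ^ 2)
      = C₁ * cP ^ P.card * (((L : ℝ) + Real.log (2 + D)) ^ N / D * (D ^ (2 - 2 * θ) *
          (1 + Real.log (max 1 D) + 2 * (l + L)) ^ 3 * b ^ κ)) * M ^ 2 := by ring
    _ ≤ C₁ * cP ^ P.card * (8 * 8 ^ (N + 3) * C₂ * (4 ^ κ * C₃) *
          (2 : ℝ) ^ (-((2 * θ - 1) / 2 * i)) * ((L : ℝ) ^ 2)⁻¹) * M ^ 2 := by gcongr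
    _ = _ := by ring

end Vale.Agent.P028
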