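import Vale.Agent.P028.Defs

/-! Interfaces of the second moment bound for weak inhomogeneous Duffin–Schaeffer. -/

namespace Vale.Agent.P028

open MeasureTheory Finset

noncomputable def rhoSum (γ : ℝ) (A : ℕ → ℤ) (B : ℕ → ℕ) (l L q r : ℕ) : ℝ :=
  ∑ n ∈ nRange γ l L q r, rho γ A B l L q r n

/-- The two levels carry the same approximating fraction. -/
def SameCls (A : ℕ → ℤ) (B : ℕ → ℕ) (l L : ℕ) : Prop := A l = A L ∧ B l = B L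

def kdiv (B : ℕ → ℕ) (l L : ℕ) : ℕ := B L / Nat.gcd (B l) (B L)

/-- The vanishing of the coincidence form between different classes forces this. -/
def KEv (A : ℕ → ℤ) (B : ℕ → ℕ) (l L m : ℕ) : Prop := ¬ SameCls A B l L ∧ kdiv B l L ∣ m

/-- Lower end of the prime range of `Ev`. -/
noncomputable def ytail (D₀ : ℝ) : ℝ := (1 + Real.log D₀) ^ (80 : ℕ)

open Classical in
noncomputable def evPrimes (D₀ : ℝ) : Finset ℕ :=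
  (Finset.range (⌊D₀⌋₊ + 1)).filter (fun p => p.Prime ∧ ytail D₀ < (p : ℝ))

/-- `m` has unusually many prime divisors in `(ytail D₀, D₀]`. -/
def Ev (D₀ : ℝ) (m : ℕ) : Prop :=
  1 / 2 < ∑ p ∈ (evPrimes D₀).filter (fun p => p ∣ m), (p : ℝ)⁻¹

open Classical in
/-- Pointwise bounds for the sum of the coincidence weights of one pair. -/
def AnatStmt : Prop :=
  ∃ N : ℕ, ∃ C : ℝ, ∀ (γ : ℝ) (A : ℕ → ℤ) (B : ℕ → ℕ), IsCls γ A B → ∀ l L q r : ℕ,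
    1 ≤ l → l ≤ L → 4 * L ≤ 5 * l → 0 < q → 0 < r → q ≠ r →
    (¬ SameCls A B l L → l < L ∧ 2 ^ l ≤ 4 * kdiv B l L ∧ 2 ^ l ≤ 2 * B L) ∧
    rhoSum γ A B l L q r ≤
      C * (1 + dgap l L q r) *
          (1 + Real.log ((L : ℝ) + 1) + Real.log (2 + dgap l L q r)) ^ N +
        C * ((L : ℝ) + Real.log (2 + dgap l L q r)) ^ N *
          (if KEv A B l L (red q r) then 1 else 0) ∧
    (dgap l L q r < 1 / 8 → rhoSum γ A B l L q r ≠ 0 →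
      (∃ n : ℤ, |(n : ℝ) + γ * ((red r q : ℝ) - red q r)| ≤ 2 * dgap l L q r ∧
          (B L : ℤ) * n + A L * ((red r q : ℤ) - red q r) ≠ 0 ∧
          ((2 : ℝ) ^ L)⁻¹ ≤ 3 * dgap l L q r) ∨
      (¬ SameCls A B l L ∧ red r q = 1 ∧ red q r ≠ 1 ∧ (B L : ℤ) ∣ (red q r : ℤ) - 1))

open Classical in
/-- Pointwise bound when many numerators contribute. -/
def AnatLargeStmt : Prop :=
  ∃ N : ℕ, ∀ η : ℝ, 0 < η → ∃ C : ℝ, ∀ (γ : ℝ) (A : ℕ → ℤ) (B : ℕ → ℕ), IsCls γ A B →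
    ∀ l L q r : ℕ, 1 ≤ l → l ≤ L → 4 * L ≤ 5 * l → 0 < q → 0 < r → q ≠ r →
    ∀ D₀ : ℝ, dgap l L q r ≤ D₀ → D₀ ≤ 2 * dgap l L q r → (L : ℝ) ^ η ≤ dgap l L q r →
      rhoSum γ A B l L q r ≤
        C * D₀ * (1 + (1 + Real.log D₀) ^ N *
            ((if Ev D₀ (red q r) then 1 else 0) + (if Ev D₀ (red r q) then 1 else 0))) +
          C * ((L : ℝ) + Real.log (2 + D₀)) ^ N *
            (if KEv A B l L (red q r) then 1 else 0)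

open Classical in
/-- The weight of all pairs with bounded gap, whatever their levels. -/
def PairsScaleStmt : Prop :=
  ∀ θ : ℝ, 1 / 2 < θ → θ ≤ 3 / 4 → ∃ C : ℝ, 0 ≤ C ∧ ∀ (lv : ℕ → ℕ) (S : Finset ℕ), (∀ q ∈ S, 0 < q) →
    ∀ D : ℝ, 0 < D →
      (∑ q ∈ S, ∑ r ∈ S, if dgap (lv q) (lv r) q r ≤ D then mass (lv q) q * mass (lv r) r else 0) ≤
        C * D ^ (2 - 2 * θ) * (∑ q ∈ S, mass (lv q) q) ^ (2 * θ)

/-- Second moment on a short block of levels. -/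
def MainStmt : Prop :=
  ∀ ε : ℝ, 0 < ε → ∃ ν : ℝ, 0 < ν ∧ ∃ C : ℝ, ∀ (γ : ℝ) (A : ℕ → ℤ) (B : ℕ → ℕ), IsCls γ A B →
    ∀ (lv : ℕ → ℕ) (S : Finset ℕ) (l₀ : ℕ), 1 ≤ l₀ →
      (∀ q ∈ S, 0 < q ∧ l₀ ≤ lv q ∧ (lv q : ℝ) ≤ (1 + ν) * l₀) →
      1 ≤ ∑ q ∈ S, mass (lv q) q → (l₀ : ℝ) ^ ε ≤ ∑ q ∈ S, mass (lv q) q →
      ∑ q ∈ S, ∑ r ∈ S, cwt γ A B (lv q) q * cwt γ A B (lv r) r *
          volume.real (arcs γ A B (lv q) q ∩ arcs γ A B (lv r) r ∩ Set.Ioc 0 1) ≤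
        C * (∑ q ∈ S, mass (lv q) q) ^ 2

/-- The conclusion of the weak inhomogeneous theorem. -/
def WeakIDSStmt : Prop :=
  ∀ (γ : ℝ) (ψ : ℕ → ℝ) (ε : ℝ), (∀ q, 0 ≤ ψ q) → 0 < ε →
    ¬ Summable (fun q : ℕ => (Nat.totient q : ℝ) * ψ q /
      ((q : ℝ) * (Real.log (3 + 1 / ψ q)) ^ ε)) →
    ∀ᵐ x : ℝ, {q : ℕ | 0 < q ∧ ∃ a : ℤ, |(q : ℝ) * x - a - γ| < ψ q}.Infinite

end Vale.Agent.P028
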