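import Vale.Agent.P028.Modes
import Vale.Agent.P028.Stmts

/-! Pairs between two levels. -/

namespace Vale.Agent.P028

open Finset Real

/-- The gap as a function of the reduced pair. -/
noncomputable def gap (l L a b : ℕ) : ℝ := max ((b : ℝ) * rad l) ((a : ℝ) * rad L)

theorem dgap_eq_gap (l L q r : ℕ) : dgap l L q r = gap l L (red q r) (red r q) := rfl

theorem rad_pos (l : ℕ) : 0 < rad l := inv_pos.2 (pow_pos (by norm_num) l)

theorem cast_le_of_gap_le {l L a b : ℕ} {D : ℝ} (h : gap l L a b ≤ D) :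
    (a : ℝ) ≤ D * (4 : ℝ) ^ L ∧ (b : ℝ) ≤ D * (4 : ℝ) ^ l := by
  obtain ⟨h1, h2⟩ := max_le_iff.1 h
  rw [rad, ← div_eq_mul_inv, div_le_iff₀ (by positivity)] at h1 h2
  exact ⟨h2, h1⟩

theorem phiR_pos {q : ℕ} (hq : 0 < q) : 0 < phiR q :=
  div_pos (by exact_mod_cast Nat.totient_pos.2 hq) (by exact_mod_cast hq)

theorem phiR_le_one (q : ℕ) : phiR q ≤ 1 :=
  div_le_one_of_le₀ (by exact_mod_cast Nat.totient_le q) (Nat.cast_nonneg q)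

theorem phiR_nonneg (q : ℕ) : 0 ≤ phiR q := div_nonneg (Nat.cast_nonneg _) (Nat.cast_nonneg _)

theorem mass_nonneg (l q : ℕ) : 0 ≤ mass l q := mul_nonneg (rad_pos l).le (phiR_nonneg q)

/-- The weighted pairs of two levels. -/
noncomputable def pairW (l L : ℕ) (V W : Finset ℕ) (g : ℕ → ℕ → ℝ) : ℝ :=
  ∑ v ∈ V, ∑ w ∈ W, mass l v * mass L w * g (red v w) (red w v)

theorem pairW_mono {l L : ℕ} {V W : Finset ℕ} {g g' : ℕ → ℕ → ℝ}
    (h : ∀ v ∈ V, ∀ w ∈ W, g (red v w) (red w v) ≤ g' (red v w) (red w v)) :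
    pairW l L V W g ≤ pairW l L V W g' :=
  sum_le_sum fun v hv => sum_le_sum fun w hw =>
    mul_le_mul_of_nonneg_left (h v hv w hw) (mul_nonneg (mass_nonneg l v) (mass_nonneg L w))

theorem pairW_swap (l L : ℕ) (V W : Finset ℕ) (g : ℕ → ℕ → ℝ) :
    pairW l L V W g = pairW L l W V (fun a b => g b a) := by
  rw [pairW, pairW, sum_comm]
  exact sum_congr rfl fun w _ => sum_congr rfl fun v _ => by ring

theorem pairW_eq (l L : ℕ) (V W : Finset ℕ) (g : ℕ → ℕ → ℝ) :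
    pairW l L V W g =
      rad l * rad L * ∑ v ∈ V, ∑ w ∈ W, phiR v * phiR w * g (red v w) (red w v) := by
  rw [pairW, mul_sum]
  refine sum_congr rfl fun v _ => ?_
  rw [mul_sum]
  exact sum_congr rfl fun w _ => by simp only [mass]; ring

theorem rad_mul_rpow {θ D : ℝ} (hD' : 0 < D) (l L : ℕ) {sV sW : ℝ} (hV : 0 ≤ sV) (hW : 0 ≤ sW) :
    rad l * rad L * ((D * (4 : ℝ) ^ L * (D * (4 : ℝ) ^ l)) ^ (1 - θ) * (sV * sW) ^ θ) =
      D ^ (2 - 2 * θ) * (rad l * sV * (rad L * sW)) ^ θ := by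
  have hP : (0 : ℝ) < (4 : ℝ) ^ L * (4 : ℝ) ^ l := by positivity
  have hD := hD'.le
  have hr : rad l * rad L = ((4 : ℝ) ^ L * (4 : ℝ) ^ l)⁻¹ := by rw [rad, rad, mul_inv, mul_comm]
  rw [show D * (4 : ℝ) ^ L * (D * (4 : ℝ) ^ l) = D * D * ((4 : ℝ) ^ L * (4 : ℝ) ^ l) by ring,
    show rad l * sV * (rad L * sW) = rad l * rad L * (sV * sW) by ring, hr,
    mul_rpow (mul_nonneg hD hD) hP.le, mul_rpow (inv_nonneg.2 hP.le) (mul_nonneg hV hW),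
    mul_rpow hD hD, inv_rpow hP.le]
  rw [show (2 : ℝ) - 2 * θ = (1 - θ) + (1 - θ) by ring, rpow_add hD', rpow_sub hP, rpow_one]
  field_simp

theorem mul_sum_phiR (l : ℕ) (V : Finset ℕ) : rad l * ∑ v ∈ V, phiR v = ∑ v ∈ V, mass l v := by
  rw [mul_sum]; exact sum_congr rfl fun v _ => rfl

theorem log_max_le {D : ℝ} (hD : 0 < D) (l L : ℕ) :
    Real.log (max (D * (4 : ℝ) ^ L) (D * (4 : ℝ) ^ l)) ≤ Real.log (max 1 D) + 2 * (l + L) := by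
  have h4 : Real.log 4 ≤ 2 := by
    have : Real.log 4 = 2 * Real.log 2 := by
      rw [show (4 : ℝ) = 2 ^ (2 : ℕ) by norm_num, Real.log_pow]; norm_num
    have := Real.log_two_lt_d9
    linarith
  have hmax : max (D * (4 : ℝ) ^ L) (D * (4 : ℝ) ^ l) ≤ max 1 D * (4 : ℝ) ^ (l + L) := by
    refine max_le ?_ ?_ <;> refine mul_le_mul (le_max_right _ _) ?_ (by positivity) (by positivity)
    · exact pow_le_pow_right₀ (by norm_num) (Nat.le_add_left L l)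
    · exact pow_le_pow_right₀ (by norm_num) (Nat.le_add_right l L)
  have h := Real.log_le_log (lt_max_of_lt_left (by positivity)) hmax
  rw [Real.log_mul (by positivity) (by positivity), Real.log_pow] at h
  push_cast at h
  nlinarith [(Nat.cast_nonneg l : (0 : ℝ) ≤ l), (Nat.cast_nonneg L : (0 : ℝ) ≤ L)]

/-- Mode I between two levels. -/
theorem levelI (hdiv : DivisorSumStmt) {θ κ : ℝ} (hθ : 1 / 2 < θ) (hθ3 : θ ≤ 2 / 3) (hκ : 0 < κ)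
    (hκ4 : κ ≤ (1 - θ) / 4) (hκdir : 1 - θ < θ * ((1 - θ - κ) / (1 - θ))) :
    ∃ (p₀ : ℕ) (C cP : ℝ), 0 ≤ C ∧ 1 ≤ cP ∧ ∀ (P : Finset ℕ), (∀ p ∈ P, p.Prime) →
      ∀ (V W : Finset ℕ), (∀ v ∈ V, 0 < v) → (∀ w ∈ W, 0 < w) →
        (∀ x ∈ V ∪ W, ∀ p ∈ x.primeFactors, p ∉ P → p₀ < p) →
      ∀ (l L : ℕ) (D a b : ℝ), 0 < D → 0 ≤ a → 0 ≤ b →
      ∀ (g : ℕ → ℕ → ℝ), (∀ q r, 0 ≤ g q r ∧ g q r ≤ 1) →
        (∀ q r, g q r ≠ 0 → (q : ℝ) ≤ D * (4 : ℝ) ^ L ∧ (r : ℝ) ≤ D * (4 : ℝ) ^ l) →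
        (∀ X r : ℕ, 0 < X → ∑ t ∈ Icc 1 ⌊D * (4 : ℝ) ^ L / X⌋₊, g (X * t) r ≤
          D * (4 : ℝ) ^ L / X * (a * primePart P X + b * X)) →
      pairW l L V W g ≤
        C * cP ^ P.card * D ^ (2 - 2 * θ) * (1 + Real.log (max 1 D) + 2 * (l + L)) ^ 3 *
          (a ^ ((1 - θ) / 4) + b ^ κ) *
          ((∑ v ∈ V, mass l v) * ∑ w ∈ W, mass L w) ^ θ := by
  obtain ⟨p₀, C, hC, h⟩ := bilinear_modeI hdiv hθ (by linarith) hκ hθ3 hκ4 hκdir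
  set cP := 2 / (1 - (2 : ℝ) ^ (-((1 - θ) / 2))) with hcP
  have hρ : (2 : ℝ) ^ (-((1 - θ) / 2)) < 1 := rpow_lt_one_of_one_lt_of_neg (by norm_num) (by linarith)
  have hρ0 : (0 : ℝ) < (2 : ℝ) ^ (-((1 - θ) / 2)) := by positivity
  have hcP1 : 1 ≤ cP := by rw [hcP, le_div_iff₀ (by linarith)]; linarith
  refine ⟨p₀, C, cP, hC, hcP1, fun P hP V W hV hW hbig l L D a b hD ha hb g hg hsupp hcount => ?_⟩
  have hM0 : 0 ≤ (∑ v ∈ V, mass l v) * ∑ w ∈ W, mass L w :=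
    mul_nonneg (sum_nonneg fun v _ => mass_nonneg l v) (sum_nonneg fun w _ => mass_nonneg L w)
  have hlog : 0 ≤ Real.log (max 1 D) := Real.log_nonneg (le_max_left _ _)
  by_cases hQS : 1 ≤ D * (4 : ℝ) ^ L ∧ 1 ≤ D * (4 : ℝ) ^ l
  swap
  · refine le_trans (le_of_eq (?_ : pairW l L V W g = 0)) (by positivity)
    refine sum_eq_zero fun v hv => sum_eq_zero fun w hw => ?_
    by_contra hne
    obtain ⟨h1, h2⟩ := hsupp _ _ (right_ne_zero_of_mul hne)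
    have h3 : (1 : ℝ) ≤ red v w := by exact_mod_cast red_pos (hV v hv)
    have h4 : (1 : ℝ) ≤ red w v := by exact_mod_cast red_pos (hW w hw)
    exact hQS ⟨by linarith, by linarith⟩
  obtain ⟨hQ, hS⟩ := hQS
  set Q := D * (4 : ℝ) ^ L with hQdef
  set S := D * (4 : ℝ) ^ l with hSdef
  have hb' := h P hP V W hV hW hbig phiR phiR (fun v hv => ⟨phiR_pos (hV v hv), phiR_le_one v⟩)
    (fun w hw => ⟨phiR_pos (hW w hw), phiR_le_one w⟩) g hg Q S a b hQ hS ha hb hsupp hcount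
  rw [pairW_eq]
  refine (mul_le_mul_of_nonneg_left hb' (mul_nonneg (rad_pos l).le (rad_pos L).le)).trans ?_
  have hLg0 : 0 ≤ Real.log (max Q S) := Real.log_nonneg (hQ.trans (le_max_left _ _))
  have hLg := log_max_le hD l L
  rw [← hQdef, ← hSdef] at hLg
  have hlog3 : ((1 + Real.log (max Q S)) ^ 3) ^ (1 - θ) ≤
      (1 + Real.log (max 1 D) + 2 * (l + L)) ^ 3 := by
    have h1 : 1 ≤ 1 + Real.log (max Q S) := by linarith
    calc ((1 + Real.log (max Q S)) ^ 3) ^ (1 - θ) ≤ ((1 + Real.log (max Q S)) ^ 3) ^ (1 : ℝ) :=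
          rpow_le_rpow_of_exponent_le (one_le_pow₀ h1) (by linarith)
      _ = (1 + Real.log (max Q S)) ^ 3 := rpow_one _
      _ ≤ _ := pow_le_pow_left₀ (by linarith) (by linarith) 3
  have hsV : 0 ≤ ∑ v ∈ V, phiR v := sum_nonneg fun v _ => phiR_nonneg v
  have hsW : 0 ≤ ∑ w ∈ W, phiR w := sum_nonneg fun v _ => phiR_nonneg v
  have key := rad_mul_rpow (θ := θ) hD l L hsV hsW
  rw [mul_sum_phiR, mul_sum_phiR, ← hQdef, ← hSdef] at key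
  calc rad l * rad L * (C * cP ^ P.card * (Q * S * (1 + Real.log (max Q S)) ^ 3) ^ (1 - θ) *
        (a ^ ((1 - θ) / 4) + b ^ κ) * ((∑ v ∈ V, phiR v) * ∑ w ∈ W, phiR w) ^ θ)
      = C * cP ^ P.card * ((1 + Real.log (max Q S)) ^ 3) ^ (1 - θ) * (a ^ ((1 - θ) / 4) + b ^ κ) *
          (rad l * rad L * ((Q * S) ^ (1 - θ) * ((∑ v ∈ V, phiR v) * ∑ w ∈ W, phiR w) ^ θ)) := by
        rw [mul_rpow (by positivity) (by positivity)]; ring
    _ = C * cP ^ P.card * ((1 + Real.log (max Q S)) ^ 3) ^ (1 - θ) * (a ^ ((1 - θ) / 4) + b ^ κ) *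
          (D ^ (2 - 2 * θ) * ((∑ v ∈ V, mass l v) * ∑ w ∈ W, mass L w) ^ θ) := by rw [key]
    _ ≤ C * cP ^ P.card * (1 + Real.log (max 1 D) + 2 * (l + L)) ^ 3 * (a ^ ((1 - θ) / 4) + b ^ κ) *
          (D ^ (2 - 2 * θ) * ((∑ v ∈ V, mass l v) * ∑ w ∈ W, mass L w) ^ θ) := by gcongr
    _ = _ := by ring

/-- Mode II between two levels. -/
theorem levelII (hdiv : DivisorSumStmt) {θ κ : ℝ} (hθ : 1 / 2 < θ) (hθ1 : θ < 1) (hκ : 0 < κ)
    (hκ2 : κ ≤ (1 - θ) / 2) :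
    ∃ (p₀ : ℕ) (C cτ : ℝ), 0 ≤ C ∧ 0 < cτ ∧ ∀ (P₀ L' : ℕ), p₀ < P₀ →
        4 * (L' + 1) * (2 * L' + 1) * (cτ * powT ((1 - θ - κ) / (1 - θ)) P₀) ^ (2 * θ - 1) ≤ 1 →
      ∀ (P : Finset ℕ), (∀ p ∈ P, p.Prime) →
      ∀ (V W : Finset ℕ), (∀ v ∈ V, 0 < v) → (∀ w ∈ W, 0 < w) →
        (∀ x ∈ V ∪ W, ∀ p ∈ x.primeFactors, p ∉ P → P₀ < p) →
      ∀ (l L : ℕ) (D T b : ℝ), 0 < D → 0 ≤ T → 0 ≤ b →
        D * (4 : ℝ) ^ L * (D * (4 : ℝ) ^ l) ≤ (2 : ℝ) ^ L' →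
      ∀ (g : ℕ → ℕ → ℝ), (∀ q r, 0 ≤ g q r ∧ g q r ≤ 1) →
        (∀ q r, g q r ≠ 0 → (q : ℝ) ≤ D * (4 : ℝ) ^ L ∧ (r : ℝ) ≤ D * (4 : ℝ) ^ l) →
        (∀ q r, g q r ≠ 0 → (primePart P q : ℝ) ≤ T ∧ (primePart P r : ℝ) ≤ T) →
        (∀ q, g q 0 = 0) →
        (∀ X r : ℕ, 0 < X → ∑ t ∈ Icc 1 ⌊D * (4 : ℝ) ^ L / X⌋₊, g (X * t) r ≤
          D * (4 : ℝ) ^ L / X * (b * X)) →
      pairW l L V W g ≤
        C * T ^ 4 * D ^ (2 - 2 * θ) * (1 + Real.log (max 1 D) + 2 * (l + L)) ^ 3 * b ^ κ *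
          ((∑ v ∈ V, mass l v) * ∑ w ∈ W, mass L w) ^ θ := by
  obtain ⟨p₀, C, cτ, hC, hcτ, h⟩ := bilinear_modeII hdiv hθ hθ1 hκ hκ2
  refine ⟨p₀, C, cτ, hC, hcτ, fun P₀ L' hP₀ hsmall P hP V W hV hW hbig l L D T b hD hT hb hQS' g hg
    hsupp hsm hzero hcount => ?_⟩
  have hM0 : 0 ≤ (∑ v ∈ V, mass l v) * ∑ w ∈ W, mass L w :=
    mul_nonneg (sum_nonneg fun v _ => mass_nonneg l v) (sum_nonneg fun w _ => mass_nonneg L w)
  have hlog : 0 ≤ Real.log (max 1 D) := Real.log_nonneg (le_max_left _ _)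
  by_cases hQS : 1 ≤ D * (4 : ℝ) ^ L ∧ 1 ≤ D * (4 : ℝ) ^ l
  swap
  · refine le_trans (le_of_eq (?_ : pairW l L V W g = 0)) (by positivity)
    refine sum_eq_zero fun v hv => sum_eq_zero fun w hw => ?_
    by_contra hne
    obtain ⟨h1, h2⟩ := hsupp _ _ (right_ne_zero_of_mul hne)
    have h3 : (1 : ℝ) ≤ red v w := by exact_mod_cast red_pos (hV v hv)
    have h4 : (1 : ℝ) ≤ red w v := by exact_mod_cast red_pos (hW w hw)
    exact hQS ⟨by linarith, by linarith⟩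
  obtain ⟨hQ, hS⟩ := hQS
  set Q := D * (4 : ℝ) ^ L with hQdef
  set S := D * (4 : ℝ) ^ l with hSdef
  have hb' := h P₀ L' hP₀ hsmall P hP V W hV hW hbig phiR phiR
    (fun v hv => ⟨phiR_pos (hV v hv), phiR_le_one v⟩) (fun w hw => ⟨phiR_pos (hW w hw), phiR_le_one w⟩)
    g hg Q S T b hQ hS hT hb hQS' hsupp hsm hzero hcount
  rw [pairW_eq]
  refine (mul_le_mul_of_nonneg_left hb' (mul_nonneg (rad_pos l).le (rad_pos L).le)).trans ?_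
  have hLg0 : 0 ≤ Real.log (max Q S) := Real.log_nonneg (hQ.trans (le_max_left _ _))
  have hLg := log_max_le hD l L
  rw [← hQdef, ← hSdef] at hLg
  have hlog3 : ((1 + Real.log (max Q S)) ^ 3) ^ (1 - θ) ≤
      (1 + Real.log (max 1 D) + 2 * (l + L)) ^ 3 := by
    have h1 : 1 ≤ 1 + Real.log (max Q S) := by linarith
    calc ((1 + Real.log (max Q S)) ^ 3) ^ (1 - θ) ≤ ((1 + Real.log (max Q S)) ^ 3) ^ (1 : ℝ) :=
          rpow_le_rpow_of_exponent_le (one_le_pow₀ h1) (by linarith)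
      _ = (1 + Real.log (max Q S)) ^ 3 := rpow_one _
      _ ≤ _ := pow_le_pow_left₀ (by linarith) (by linarith) 3
  have hsV : 0 ≤ ∑ v ∈ V, phiR v := sum_nonneg fun v _ => phiR_nonneg v
  have hsW : 0 ≤ ∑ w ∈ W, phiR w := sum_nonneg fun v _ => phiR_nonneg v
  have key := rad_mul_rpow (θ := θ) hD l L hsV hsW
  rw [mul_sum_phiR, mul_sum_phiR, ← hQdef, ← hSdef] at key
  calc rad l * rad L * (C * T ^ 4 * (Q * S * (1 + Real.log (max Q S)) ^ 3) ^ (1 - θ) * b ^ κ *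
        ((∑ v ∈ V, phiR v) * ∑ w ∈ W, phiR w) ^ θ)
      = C * T ^ 4 * ((1 + Real.log (max Q S)) ^ 3) ^ (1 - θ) * b ^ κ *
          (rad l * rad L * ((Q * S) ^ (1 - θ) * ((∑ v ∈ V, phiR v) * ∑ w ∈ W, phiR w) ^ θ)) := by
        rw [mul_rpow (by positivity) (by positivity)]; ring
    _ = C * T ^ 4 * ((1 + Real.log (max Q S)) ^ 3) ^ (1 - θ) * b ^ κ *
          (D ^ (2 - 2 * θ) * ((∑ v ∈ V, mass l v) * ∑ w ∈ W, mass L w) ^ θ) := by rw [key]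
    _ ≤ C * T ^ 4 * (1 + Real.log (max 1 D) + 2 * (l + L)) ^ 3 * b ^ κ *
          (D ^ (2 - 2 * θ) * ((∑ v ∈ V, mass l v) * ∑ w ∈ W, mass L w) ^ θ) := by gcongr
    _ = _ := by ring

theorem red_mul_gcd (v w : ℕ) : Nat.gcd v w * red v w = v := Nat.mul_div_cancel' (Nat.gcd_dvd_left v w)

/-- Pairs whose reduced ratio lies in a given finite set. -/
theorem pairW_le_card (l L : ℕ) {V W : Finset ℕ} (hV : ∀ v ∈ V, 0 < v) (hW : ∀ w ∈ W, 0 < w)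
    (F : Finset (ℕ × ℕ)) {g : ℕ → ℕ → ℝ} (hg : ∀ a b, 0 ≤ g a b ∧ g a b ≤ 1)
    (hF : ∀ v ∈ V, ∀ w ∈ W, g (red v w) (red w v) ≠ 0 → (red v w, red w v) ∈ F) :
    pairW l L V W g ≤ (F.card : ℝ) *
      (√(rad l * ∑ v ∈ V, mass l v) * √(rad L * ∑ w ∈ W, mass L w)) := by
  classical
  set R := √(rad l * ∑ v ∈ V, mass l v) * √(rad L * ∑ w ∈ W, mass L w) with hR
  set Pz := (V ×ˢ W).filter (fun x => g (red x.1 x.2) (red x.2 x.1) ≠ 0) with hPz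
  have h0 : pairW l L V W g ≤ ∑ x ∈ Pz, mass l x.1 * mass L x.2 := by
    rw [pairW, ← sum_product', hPz, sum_filter]
    refine sum_le_sum fun x hx => ?_
    split
    · exact mul_le_of_le_one_right (mul_nonneg (mass_nonneg _ _) (mass_nonneg _ _)) (hg _ _).2
    · next h => rw [not_not] at h; rw [h, mul_zero]
  refine h0.trans ?_
  have hmap : ∀ x ∈ Pz, (red x.1 x.2, red x.2 x.1) ∈ F := fun x hx => by
    obtain ⟨hx, hne⟩ := mem_filter.1 hx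
    exact hF _ (mem_product.1 hx).1 _ (mem_product.1 hx).2 hne
  rw [← sum_fiberwise_of_maps_to hmap (fun x => mass l x.1 * mass L x.2), ← nsmul_eq_mul, ← sum_const]
  refine sum_le_sum fun c _ => ?_
  set Z := Pz.filter (fun x => (red x.1 x.2, red x.2 x.1) = c) with hZ
  have hZm : ∀ x ∈ Z, 0 < x.1 ∧ 0 < x.2 ∧ x.1 ∈ V ∧ x.2 ∈ W ∧
      Nat.gcd x.1 x.2 * c.1 = x.1 ∧ Nat.gcd x.1 x.2 * c.2 = x.2 := by
    intro x hx
    obtain ⟨hx, hc⟩ := mem_filter.1 hx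
    obtain ⟨h1, h2⟩ := mem_product.1 (mem_filter.1 hx).1
    refine ⟨hV _ h1, hW _ h2, h1, h2, ?_, ?_⟩
    · rw [← hc]; exact red_mul_gcd _ _
    · rw [← hc, Nat.gcd_comm]; exact red_mul_gcd _ _
  have hinj : ∀ x ∈ Z, ∀ y ∈ Z, (x.1 = y.1 ∨ x.2 = y.2) → x = y := by
    intro x hx y hy h
    obtain ⟨hx1, hx2, -, -, hxa, hxb⟩ := hZm x hx
    obtain ⟨hy1, hy2, -, -, hya, hyb⟩ := hZm y hy
    have hg' : Nat.gcd x.1 x.2 = Nat.gcd y.1 y.2 := by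
      rcases h with h | h
      · refine Nat.eq_of_mul_eq_mul_right (m := c.1) (Nat.pos_of_ne_zero ?_) (by rw [hxa, hya, h])
        rintro h0; rw [h0, mul_zero] at hxa; omega
      · refine Nat.eq_of_mul_eq_mul_right (m := c.2) (Nat.pos_of_ne_zero ?_) (by rw [hxb, hyb, h])
        rintro h0; rw [h0, mul_zero] at hxb; omega
    exact Prod.ext (by rw [← hxa, ← hya, hg']) (by rw [← hxb, ← hyb, hg'])
  have hsq : ∀ (k : ℕ) (U : Finset ℕ) (f : ℕ × ℕ → ℕ), (∀ x ∈ Z, f x ∈ U) →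
      (∀ x ∈ Z, ∀ y ∈ Z, f x = f y → x = y) →
      ∑ x ∈ Z, mass k (f x) ^ 2 ≤ rad k * ∑ u ∈ U, mass k u := by
    intro k U f hf hfi
    rw [← sum_image (f := fun u => mass k u ^ 2) (g := f) (fun x hx y hy h => hfi x hx y hy h), mul_sum]
    refine (sum_le_sum fun u _ => (?_ : mass k u ^ 2 ≤ rad k * mass k u)).trans
      (sum_le_sum_of_subset_of_nonneg (image_subset_iff.2 hf) fun u _ _ =>
        mul_nonneg (rad_pos k).le (mass_nonneg k u))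
    rw [sq]
    exact mul_le_mul_of_nonneg_right (mul_le_of_le_one_right (rad_pos k).le (phiR_le_one u)) (mass_nonneg k u)
  refine (Real.sum_mul_le_sqrt_mul_sqrt Z _ _).trans (mul_le_mul ?_ ?_ (sqrt_nonneg _) (sqrt_nonneg _))
  · exact sqrt_le_sqrt (hsq l V Prod.fst (fun x hx => (hZm x hx).2.2.1)
      fun x hx y hy h => hinj x hx y hy (Or.inl h))
  · exact sqrt_le_sqrt (hsq L W Prod.snd (fun x hx => (hZm x hx).2.2.2.1)
      fun x hx y hy h => hinj x hx y hy (Or.inr h))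

/-- Powers of the two masses below the square of their common majorant. -/
theorem mul_rpow_le_sq {x y M θ : ℝ} (hx : 0 ≤ x) (hy : 0 ≤ y) (hxM : x ≤ M) (hyM : y ≤ M) (hM : 1 ≤ M)
    (hθ : 0 ≤ θ) (hθ1 : θ ≤ 1) : (x * y) ^ θ ≤ M ^ 2 := by
  refine (rpow_le_rpow (mul_nonneg hx hy) (mul_le_mul hxM hyM hy (by linarith)) hθ).trans ?_
  refine (rpow_le_rpow_of_exponent_le (one_le_mul_of_one_le_of_one_le hM hM) hθ1).trans_eq ?_
  rw [rpow_one, sq]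

end Vale.Agent.P028
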