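import Mathlib

/-! Generic measure theory: quasi-independence on every short interval gives full measure. -/

namespace Vale.Agent.P028

open MeasureTheory Filter Topology Set

/-- Chung–Erdős inequality for a finite family. -/
theorem chung_erdos {Ω : Type*} [MeasurableSpace Ω] (μ : Measure Ω) [IsFiniteMeasure μ]
    {ι : Type*} (S : Finset ι) (E : ι → Set Ω) (hE : ∀ i ∈ S, MeasurableSet (E i)) :
    (∑ i ∈ S, μ.real (E i)) ^ 2 ≤
      μ.real (⋃ i ∈ S, E i) * ∑ i ∈ S, ∑ j ∈ S, μ.real (E i ∩ E j) := by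
  set U := ⋃ i ∈ S, E i with hU
  have hUm : MeasurableSet U := S.measurableSet_biUnion hE
  set s : Ω → ℝ := fun x => ∑ i ∈ S, (E i).indicator (fun _ => (1 : ℝ)) x with hs
  have hint : ∀ A : Set Ω, MeasurableSet A → Integrable (A.indicator fun _ => (1 : ℝ)) μ :=
    fun A hA => (integrable_const 1).indicator hA
  have hsI : Integrable s μ := integrable_finsetSum S fun i hi => hint _ (hE i hi)
  have hprod : ∀ i j x, (E i).indicator (fun _ => (1 : ℝ)) x * (E j).indicator (fun _ => (1 : ℝ)) x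
      = (E i ∩ E j).indicator (fun _ => (1 : ℝ)) x := by
    intro i j x
    by_cases h1 : x ∈ E i <;> by_cases h2 : x ∈ E j <;> simp [h1, h2]
  have hs2 : ∀ x, s x ^ 2 = ∑ i ∈ S, ∑ j ∈ S, (E i ∩ E j).indicator (fun _ => (1 : ℝ)) x := by
    intro x; rw [sq, hs]; simp only [Finset.sum_mul_sum, hprod]
  have hs2I : Integrable (fun x => s x ^ 2) μ := by
    simp_rw [hs2]
    exact integrable_finsetSum S fun i hi =>
      integrable_finsetSum S fun j hj => hint _ ((hE i hi).inter (hE j hj))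
  have h1 : ∫ x, s x ∂μ = ∑ i ∈ S, μ.real (E i) := by
    rw [hs, integral_finsetSum S fun i hi => hint _ (hE i hi)]
    exact Finset.sum_congr rfl fun i hi => integral_indicator_one (hE i hi)
  have h2 : ∫ x, s x ^ 2 ∂μ = ∑ i ∈ S, ∑ j ∈ S, μ.real (E i ∩ E j) := by
    simp_rw [hs2]
    rw [integral_finsetSum S fun i hi =>
      integrable_finsetSum S fun j hj => hint _ ((hE i hi).inter (hE j hj))]
    refine Finset.sum_congr rfl fun i hi => ?_
    rw [integral_finsetSum S fun j hj => hint _ ((hE i hi).inter (hE j hj))]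
    exact Finset.sum_congr rfl fun j hj => integral_indicator_one ((hE i hi).inter (hE j hj))
  have key : ∀ t : ℝ, 0 ≤ μ.real U * (t * t) + (-(2 * ∫ x, s x ∂μ)) * t + ∫ x, s x ^ 2 ∂μ := by
    intro t
    have hpt : ∀ x, 2 * t * s x ≤ t * t * U.indicator (fun _ => (1 : ℝ)) x + s x ^ 2 := by
      intro x
      by_cases hx : x ∈ U
      · rw [indicator_of_mem hx]; nlinarith [sq_nonneg (s x - t)]
      · have h0 : s x = 0 := Finset.sum_eq_zero fun i hi =>
          indicator_of_notMem (fun h => hx (mem_biUnion hi h)) _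
        rw [indicator_of_notMem hx, h0]; simp
    have h3 := integral_mono (hsI.const_mul (2 * t)) (((hint U hUm).const_mul (t * t)).add hs2I) hpt
    simp only [Pi.add_apply] at h3
    rw [integral_add ((hint U hUm).const_mul (t * t)) hs2I, integral_const_mul, integral_const_mul,
      show ∫ x, U.indicator (fun _ => (1 : ℝ)) x ∂μ = μ.real U from integral_indicator_one hUm] at h3
    linarith
  have hd := discrim_le_zero key
  rw [discrim, h1, h2] at hd
  nlinarith

/-- A measurable set with a uniform share of every short interval is full. -/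
theorem full_of_local {A : Set ℝ} (hA : MeasurableSet A) {c : ℝ} (hc : 0 < c)
    (h : ∀ a b : ℝ, a < b → b ≤ a + 1 → c * (b - a) ≤ volume.real (A ∩ Icc a b)) :
    ∀ᵐ x : ℝ, x ∈ A := by
  have hd := Besicovitch.ae_tendsto_measure_inter_div_of_measurableSet (volume : Measure ℝ) hA
  filter_upwards [hd] with x hx
  by_contra hxA
  rw [indicator_of_notMem hxA] at hx
  have hev := hx.eventually_lt_const (show (0 : ENNReal) < ENNReal.ofReal c by simpa using hc)
  obtain ⟨r, hr1, hr0, hr2⟩ := (hev.and ((eventually_mem_nhdsWithin (a := (0 : ℝ))).and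
    (eventually_nhdsWithin_of_eventually_nhds (eventually_lt_nhds (show (0 : ℝ) < 1 / 2 by norm_num))))).exists
  simp only [mem_Ioi] at hr0
  have hab := h (x - r) (x + r) (by linarith) (by linarith)
  rw [← Real.closedBall_eq_Icc] at hab
  rw [ENNReal.div_lt_iff (Or.inl (by simpa [Real.volume_closedBall] using hr0))
    (Or.inl (by rw [Real.volume_closedBall]; exact ENNReal.ofReal_ne_top)), Real.volume_closedBall,
    ← ENNReal.ofReal_mul hc.le] at hr1
  have : volume.real (A ∩ Metric.closedBall x r) < c * (2 * r) := by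
    rw [measureReal_def]
    exact (ENNReal.toReal_lt_toReal (ne_top_of_lt hr1) ENNReal.ofReal_ne_top).mpr hr1 |>.trans_eq
      (ENNReal.toReal_ofReal (by positivity))
  linarith

/-- The points lying in `E q` for arbitrarily large `q`. -/
theorem measurableSet_io {E : ℕ → Set ℝ} (hE : ∀ q, MeasurableSet (E q)) :
    MeasurableSet {x : ℝ | ∀ Q : ℕ, ∃ q, Q ≤ q ∧ x ∈ E q} := by
  have : {x : ℝ | ∀ Q : ℕ, ∃ q, Q ≤ q ∧ x ∈ E q} = ⋂ Q : ℕ, ⋃ q ≥ Q, E q := by
    ext x; simp
  rw [this]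
  exact MeasurableSet.iInter fun Q => MeasurableSet.iUnion fun q => MeasurableSet.iUnion fun _ => hE q

/-- If tails of the family cover a uniform share of every short interval, almost every point lies
in infinitely many members. -/
theorem io_of_tail_share {E : ℕ → Set ℝ} (hE : ∀ q, MeasurableSet (E q)) {c : ℝ} (hc : 0 < c)
    (h : ∀ a b : ℝ, a < b → b ≤ a + 1 → ∀ Q : ℕ, ∃ S : Finset ℕ, (∀ q ∈ S, Q ≤ q) ∧
      c * (b - a) ≤ volume.real ((⋃ q ∈ S, E q) ∩ Icc a b)) :
    ∀ᵐ x : ℝ, ∀ Q : ℕ, ∃ q, Q ≤ q ∧ x ∈ E q := by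
  refine full_of_local (measurableSet_io hE) hc fun a b hab hb1 => ?_
  set T : ℕ → Set ℝ := fun Q => (⋃ q ≥ Q, E q) ∩ Icc a b with hT
  have hTm : ∀ Q, MeasurableSet (T Q) := fun Q =>
    (MeasurableSet.iUnion fun q => MeasurableSet.iUnion fun _ => hE q).inter measurableSet_Icc
  have hfin : ∀ Q, volume (T Q) ≠ ⊤ := fun Q =>
    ne_top_of_le_ne_top measure_Icc_lt_top.ne (measure_mono inter_subset_right)
  have hanti : Antitone T := fun P Q hPQ =>
    inter_subset_inter_left _ (iUnion₂_mono' fun q hq => ⟨q, hPQ.trans hq, subset_rfl⟩)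
  have hlim := tendsto_measure_iInter_atTop (μ := (volume : Measure ℝ))
    (fun Q => (hTm Q).nullMeasurableSet) hanti ⟨0, hfin 0⟩
  have hI : (⋂ Q, T Q) = {x : ℝ | ∀ Q : ℕ, ∃ q, Q ≤ q ∧ x ∈ E q} ∩ Icc a b := by
    ext x; simp [hT, forall_and]
  rw [hI] at hlim
  have hlim' := (ENNReal.tendsto_toReal (ne_top_of_le_ne_top measure_Icc_lt_top.ne
    (measure_mono inter_subset_right))).comp hlim
  refine ge_of_tendsto hlim' (Eventually.of_forall fun Q => ?_)
  obtain ⟨S, hS, hSv⟩ := h a b hab hb1 Q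
  refine hSv.trans (ENNReal.toReal_mono (hfin Q) (measure_mono ?_))
  exact inter_subset_inter_left _ (iUnion₂_subset fun q hq =>
    subset_iUnion₂ (s := fun q (_ : q ≥ Q) => E q) q (hS q hq))

/-- Quasi-independence on every short interval gives full measure. -/
theorem io_of_quasi_independent {E : ℕ → Set ℝ} (hE : ∀ q, MeasurableSet (E q)) {C : ℝ} (hC : 0 < C)
    (h : ∀ a b : ℝ, a < b → b ≤ a + 1 → ∀ Q : ℕ, ∃ S : Finset ℕ, (∀ q ∈ S, Q ≤ q) ∧
      0 < ∑ q ∈ S, volume.real (E q ∩ Icc a b) ∧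
      (b - a) * ∑ q ∈ S, ∑ r ∈ S, volume.real (E q ∩ E r ∩ Icc a b)
        ≤ C * (∑ q ∈ S, volume.real (E q ∩ Icc a b)) ^ 2) :
    ∀ᵐ x : ℝ, ∀ Q : ℕ, ∃ q, Q ≤ q ∧ x ∈ E q := by
  refine io_of_tail_share hE (inv_pos.mpr hC) fun a b hab hb1 Q => ?_
  obtain ⟨S, hS, hpos, hq⟩ := h a b hab hb1 Q
  refine ⟨S, hS, ?_⟩
  have : IsFiniteMeasure (volume.restrict (Icc a b)) :=
    isFiniteMeasure_restrict.mpr measure_Icc_lt_top.ne
  have hce := chung_erdos (volume.restrict (Icc a b)) S E fun i _ => hE i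
  simp only [measureReal_restrict_apply' measurableSet_Icc] at hce
  set M := ∑ q ∈ S, volume.real (E q ∩ Icc a b) with hM
  set D := ∑ q ∈ S, ∑ r ∈ S, volume.real (E q ∩ E r ∩ Icc a b) with hD
  set U := volume.real ((⋃ q ∈ S, E q) ∩ Icc a b) with hU
  have hU0 : 0 ≤ U := measureReal_nonneg
  have h1 : (b - a) * M ^ 2 ≤ U * (C * M ^ 2) := by
    calc (b - a) * M ^ 2 ≤ (b - a) * (U * D) := mul_le_mul_of_nonneg_left hce (by linarith)
      _ = U * ((b - a) * D) := by ring
      _ ≤ U * (C * M ^ 2) := mul_le_mul_of_nonneg_left hq hU0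
  have h2 : b - a ≤ U * C := le_of_mul_le_mul_right (h1.trans_eq (by ring)) (by positivity : 0 < M ^ 2)
  rw [inv_mul_le_iff₀ hC]
  linarith

end Vale.Agent.P028
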