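import Vale.Agent.P028.EventBound

/-! The pairs on the exact line of a new approximation. -/

namespace Vale.Agent.P028

open Finset Real
open scoped Classical

theorem sqrt_rad_mul_le {l : ℕ} {S M : ℝ} (hSM : S ≤ M) :
    √(rad l * S) ≤ ((2 : ℝ) ^ l)⁻¹ * √M := by
  have h : rad l = (((2 : ℝ) ^ l)⁻¹) ^ 2 := by rw [rad, inv_pow, ← pow_mul, mul_comm, pow_mul]; norm_num
  rw [h, Real.sqrt_mul (sq_nonneg _), Real.sqrt_sq (by positivity)]
  exact mul_le_mul_of_nonneg_left (Real.sqrt_le_sqrt hSM) (by positivity)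

theorem sqrt_mass_le {l L : ℕ} {V W : Finset ℕ} {M : ℝ} (hM : 1 ≤ M) (hV : ∑ v ∈ V, mass l v ≤ M)
    (hW : ∑ w ∈ W, mass L w ≤ M) :
    √(rad l * ∑ v ∈ V, mass l v) * √(rad L * ∑ w ∈ W, mass L w) ≤
      ((2 : ℝ) ^ l)⁻¹ * ((2 : ℝ) ^ L)⁻¹ * M ^ 2 := by
  refine (mul_le_mul (sqrt_rad_mul_le hV) (sqrt_rad_mul_le hW) (sqrt_nonneg _) (by positivity)).trans ?_
  rw [mul_mul_mul_comm, Real.mul_self_sqrt (by linarith)]
  exact mul_le_mul_of_nonneg_left (by nlinarith) (by positivity)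

noncomputable def lineSet (B L : ℕ) : Finset ℕ :=
  (Icc 2 (4 ^ L)).filter (fun a => (B : ℤ) ∣ (a : ℤ) - 1)

/-- The bound for `1 / gap` on the line. -/
noncomputable def gLine (B L : ℕ) (a b : ℕ) : ℝ :=
  if b = 1 ∧ a ∈ lineSet B L then (4 : ℝ) ^ L / a else 0

theorem sum_inv_lineSet {B L : ℕ} (hB : 0 < B) :
    ∑ a ∈ lineSet B L, (a : ℝ)⁻¹ ≤ (B : ℝ)⁻¹ * (1 + 2 * L) := by
  have hj : ∀ a ∈ lineSet B L, ∃ j : ℕ, a = 1 + B * j ∧ j ∈ Icc 1 (4 ^ L) := by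
    intro a ha
    obtain ⟨ha1, j, hj⟩ := mem_filter.1 ha
    obtain ⟨h2, h4⟩ := mem_Icc.1 ha1
    have hj0 : 0 < j := by
      by_contra h
      have : (B : ℤ) * j ≤ 0 := mul_nonpos_of_nonneg_of_nonpos (Nat.cast_nonneg B) (not_lt.1 h)
      omega
    have hje : (a : ℤ) = 1 + B * (j.toNat : ℤ) := by rw [Int.toNat_of_nonneg hj0.le]; omega
    have hje' : a = 1 + B * j.toNat := by exact_mod_cast hje
    refine ⟨j.toNat, hje', mem_Icc.2 ⟨by omega, ?_⟩⟩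
    have : j.toNat ≤ B * j.toNat := Nat.le_mul_of_pos_left _ hB
    omega
  calc ∑ a ∈ lineSet B L, (a : ℝ)⁻¹ ≤ ∑ a ∈ lineSet B L, (B : ℝ)⁻¹ * (((a - 1) / B : ℕ) : ℝ)⁻¹ := by
        refine sum_le_sum fun a ha => ?_
        obtain ⟨j, rfl, hj⟩ := hj a ha
        rw [Nat.add_sub_cancel_left, Nat.mul_div_cancel_left _ hB, ← mul_inv]
        have : (1 : ℝ) ≤ j := by exact_mod_cast (mem_Icc.1 hj).1
        have : (0 : ℝ) < B := by exact_mod_cast hB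
        refine inv_anti₀ (by positivity) ?_
        push_cast; linarith
    _ ≤ (B : ℝ)⁻¹ * ∑ j ∈ Icc (1 : ℕ) (4 ^ L), (j : ℝ)⁻¹ := by
        rw [← mul_sum]
        refine mul_le_mul_of_nonneg_left ?_ (by positivity)
        rw [← sum_image (f := fun j : ℕ => (j : ℝ)⁻¹) (g := fun a => (a - 1) / B)]
        · refine sum_le_sum_of_subset_of_nonneg (image_subset_iff.2 fun a ha => ?_) fun _ _ _ => by positivity
          obtain ⟨j, rfl, hj⟩ := hj a ha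
          rwa [Nat.add_sub_cancel_left, Nat.mul_div_cancel_left _ hB]
        · intro x hx y hy hxy
          obtain ⟨j, rfl, -⟩ := hj x hx
          obtain ⟨k, rfl, -⟩ := hj y hy
          simp only [Nat.add_sub_cancel_left, Nat.mul_div_cancel_left _ hB] at hxy
          rw [hxy]
    _ ≤ _ := by
        refine mul_le_mul_of_nonneg_left ?_ (by positivity)
        have h := harmonic_le_one_add_log (4 ^ L)
        rw [harmonic_eq_sum_Icc, Rat.cast_sum] at h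
        push_cast at h
        refine h.trans (add_le_add le_rfl ?_)
        rw [Real.log_pow, show (4 : ℝ) = 2 ^ (2 : ℕ) by norm_num, Real.log_pow]
        have := Real.log_two_lt_d9
        push_cast
        nlinarith [(Nat.cast_nonneg L : (0 : ℝ) ≤ L)]

theorem lineBound (N : ℕ) :
    ∃ C : ℝ, 0 ≤ C ∧ ∀ (V W : Finset ℕ), (∀ v ∈ V, 0 < v) → (∀ w ∈ W, 0 < w) →
      ∀ (M : ℝ), 1 ≤ M → ∀ (l L B : ℕ), 4 * L ≤ 5 * l → 1 ≤ L → 2 ^ l ≤ 2 * B →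
        ∑ v ∈ V, mass l v ≤ M → ∑ w ∈ W, mass L w ≤ M →
        (L : ℝ) ^ N * pairW l L V W (gLine B L) ≤ C * ((L : ℝ) ^ 2)⁻¹ * M ^ 2 := by
  obtain ⟨C, hC, hpoly⟩ := poly_mul_two_pow_le (N + 3) (show (0 : ℝ) < 3 / 5 by norm_num)
  refine ⟨4 * C, by positivity, fun V W hV hW M hM l L B h45 hL hB hmV hmW => ?_⟩
  have hB0 : 0 < B := by
    by_contra h
    have : B = 0 := by omega
    subst this
    simp at hB
  set f : ℕ → ℕ → ℕ → ℝ := fun a₀ a b => if (a, b) = (a₀, 1) then 1 else 0 with hf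
  set R := √(rad l * ∑ v ∈ V, mass l v) * √(rad L * ∑ w ∈ W, mass L w) with hR
  have hsplit : pairW l L V W (gLine B L) = ∑ a₀ ∈ lineSet B L, (4 : ℝ) ^ L / a₀ * pairW l L V W (f a₀) := by
    simp only [pairW, mul_sum]
    rw [sum_comm (s := lineSet B L)]
    refine sum_congr rfl fun v _ => ?_
    rw [sum_comm (s := lineSet B L)]
    refine sum_congr rfl fun w _ => ?_
    have : gLine B L (red v w) (red w v) =
        ∑ a₀ ∈ lineSet B L, (4 : ℝ) ^ L / a₀ * f a₀ (red v w) (red w v) := by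
      simp only [hf, gLine, Prod.mk.injEq, mul_ite, mul_one, mul_zero]
      by_cases hb : red w v = 1
      · simp [hb]
      · simp [hb]
    rw [this, mul_sum]
    exact sum_congr rfl fun _ _ => by ring
  have hone : ∀ a₀, pairW l L V W (f a₀) ≤ R := fun a₀ => by
    refine (pairW_le_card l L hV hW {(a₀, 1)} (fun a b => ?_) (fun v _ w _ hne => ?_)).trans_eq ?_
    · simp only [hf]; split <;> norm_num
    · simp only [hf, ne_eq, ite_eq_right_iff, Classical.not_imp] at hne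
      exact mem_singleton.2 hne.1
    · rw [card_singleton, Nat.cast_one, one_mul]
  have hsum : pairW l L V W (gLine B L) ≤ (4 : ℝ) ^ L * ((B : ℝ)⁻¹ * (1 + 2 * L)) *
      (((2 : ℝ) ^ l)⁻¹ * ((2 : ℝ) ^ L)⁻¹ * M ^ 2) := by
    rw [hsplit]
    calc ∑ a₀ ∈ lineSet B L, (4 : ℝ) ^ L / a₀ * pairW l L V W (f a₀)
        ≤ ∑ a₀ ∈ lineSet B L, (4 : ℝ) ^ L / a₀ * R :=
          sum_le_sum fun a₀ _ => mul_le_mul_of_nonneg_left (hone a₀) (by positivity)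
      _ = (4 : ℝ) ^ L * (∑ a₀ ∈ lineSet B L, (a₀ : ℝ)⁻¹) * R := by
          rw [mul_sum, sum_mul]; exact sum_congr rfl fun _ _ => by ring
      _ ≤ _ := mul_le_mul (mul_le_mul_of_nonneg_left (sum_inv_lineSet hB0) (by positivity))
          (sqrt_mass_le hM hmV hmW) (by positivity) (by positivity)
  refine (mul_le_mul_of_nonneg_left hsum (by positivity)).trans ?_
  have hL1 : (1 : ℝ) ≤ L := by exact_mod_cast hL
  have hBinv : (B : ℝ)⁻¹ ≤ 2 * ((2 : ℝ) ^ l)⁻¹ := by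
    have : (2 : ℝ) ^ l ≤ 2 * B := by exact_mod_cast hB
    rw [← div_eq_mul_inv, inv_le_iff_one_le_mul₀ (by exact_mod_cast hB0), div_mul_eq_mul_div,
      one_le_div (by positivity)]
    exact this
  have hexp : (4 : ℝ) ^ L * (((2 : ℝ) ^ l)⁻¹ * (((2 : ℝ) ^ l)⁻¹ * ((2 : ℝ) ^ L)⁻¹)) ≤
      (2 : ℝ) ^ (-(3 / 5 * (L : ℝ))) := by
    rw [show (4 : ℝ) = 2 * 2 by norm_num, mul_pow, ← rpow_natCast 2 L, ← rpow_natCast 2 l,
      ← rpow_neg zero_le_two, ← rpow_neg zero_le_two, ← rpow_add two_pos, ← rpow_add two_pos,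
      ← rpow_add two_pos, ← rpow_add two_pos]
    refine rpow_le_rpow_of_exponent_le one_le_two ?_
    have : 4 * (L : ℝ) ≤ 5 * l := by exact_mod_cast h45
    linarith
  calc (L : ℝ) ^ N * ((4 : ℝ) ^ L * ((B : ℝ)⁻¹ * (1 + 2 * L)) * (((2 : ℝ) ^ l)⁻¹ * ((2 : ℝ) ^ L)⁻¹ * M ^ 2))
      ≤ (L : ℝ) ^ N * ((4 : ℝ) ^ L * (2 * ((2 : ℝ) ^ l)⁻¹ * (2 * (1 + L))) *
          (((2 : ℝ) ^ l)⁻¹ * ((2 : ℝ) ^ L)⁻¹ * M ^ 2)) := by gcongr; linarith
    _ = 4 * ((L : ℝ) ^ N * (1 + L) * ((4 : ℝ) ^ L *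
          (((2 : ℝ) ^ l)⁻¹ * (((2 : ℝ) ^ l)⁻¹ * ((2 : ℝ) ^ L)⁻¹)))) * M ^ 2 := by ring
    _ ≤ 4 * ((L : ℝ) ^ N * (1 + L) * (2 : ℝ) ^ (-(3 / 5 * (L : ℝ)))) * M ^ 2 := by gcongr
    _ = 4 * ((L : ℝ) ^ (N + 2) * (1 + L) * (2 : ℝ) ^ (-(3 / 5 * (L : ℝ)))) * ((L : ℝ) ^ 2)⁻¹ * M ^ 2 := by
        have : (L : ℝ) ^ 2 ≠ 0 := by positivity
        field_simp
        ring
    _ ≤ _ := by
        gcongr
        refine le_trans ?_ (hpoly (L : ℝ) (Nat.cast_nonneg L))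
        rw [pow_succ _ (N + 2)]
        gcongr
        linarith

end Vale.Agent.P028
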