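import Vale.Agent.P028.MainPoint

/-! All events of one pair of levels. -/

namespace Vale.Agent.P028

open Finset Real
open scoped Classical

theorem pairW_add (l L : ℕ) (V W : Finset ℕ) (g h : ℕ → ℕ → ℝ) :
    pairW l L V W (fun a b => g a b + h a b) = pairW l L V W g + pairW l L V W h := by
  simp only [pairW, mul_add, sum_add_distrib]

theorem pairW_mul (l L : ℕ) (V W : Finset ℕ) (c : ℝ) (g : ℕ → ℕ → ℝ) :
    pairW l L V W (fun a b => c * g a b) = c * pairW l L V W g := by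
  simp only [pairW, mul_sum]
  exact sum_congr rfl fun v _ => sum_congr rfl fun w _ => by ring

theorem pairW_sum (l L : ℕ) (V W : Finset ℕ) {ι : Type*} (I : Finset ι) (g : ι → ℕ → ℕ → ℝ) :
    pairW l L V W (fun a b => ∑ i ∈ I, g i a b) = ∑ i ∈ I, pairW l L V W (g i) := by
  simp only [pairW, mul_sum]
  exact (sum_congr rfl fun v _ => sum_comm).trans sum_comm

theorem pairW_ite (l L : ℕ) (V W : Finset ℕ) (c : Prop) [Decidable c] (g : ℕ → ℕ → ℝ) :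
    pairW l L V W (fun a b => if c then g a b else 0) = if c then pairW l L V W g else 0 := by
  split
  · rfl
  · simp [pairW]

theorem params1_base : Params1 (1 / 2 + 1 / 1600000) (99999 / 80000000000) := by
  constructor <;> norm_num

theorem sum_geom_le {ρ : ℝ} (h0 : 0 ≤ ρ) (h1 : ρ < 1) (J : ℕ) : ∑ i ∈ range J, ρ ^ i ≤ (1 - ρ)⁻¹ := by
  rw [range_eq_Ico]
  refine (geom_sum_Ico_le_of_lt_one h0 h1).trans_eq ?_
  rw [pow_zero, one_div]

theorem evLevels (N : ℕ) {η : ℝ} (hη : 0 < η) : ∃ C : ℝ, 0 ≤ C ∧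
    ∀ (V W : Finset ℕ), (∀ v ∈ V, 0 < v) → (∀ w ∈ W, 0 < w) →
      ∀ (M : ℝ), 1 ≤ M → ∀ l L J : ℕ, l ≤ L → 1 ≤ L →
        ∑ v ∈ V, mass l v ≤ M → ∑ w ∈ W, mass L w ≤ M →
        pairW l L V W (TEv η N J l L) ≤ C * ((L : ℝ) ^ 2)⁻¹ * M ^ 2 := by
  obtain ⟨C, hC, h⟩ := evBound params1_base hη N
  refine ⟨4 * C, by positivity, fun V W hV hW M hM l L J hl hL hmV hmW => ?_⟩
  have hterm : ∀ i ∈ range J, pairW l L V W (fun a b => if (L : ℝ) ^ η ≤ (2 : ℝ) ^ i then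
      (1 + Real.log ((2 : ℝ) ^ i)) ^ N * (gEv ((2 : ℝ) ^ i) l L a b + gEv ((2 : ℝ) ^ i) L l b a) else 0) ≤
      2 * C * ((L : ℝ) ^ 2)⁻¹ * M ^ 2 * (2⁻¹ : ℝ) ^ i := by
    intro i _
    rw [pairW_ite, pairW_mul, pairW_add]
    split
    · next hi =>
      have e : (2 : ℝ) ^ (-(i : ℝ)) = (2⁻¹ : ℝ) ^ i := by rw [rpow_neg zero_le_two, rpow_natCast, inv_pow]
      have h1 := h V W hV hW M hM l L L i hl le_rfl hL hi hmV hmW
      have h2 := h W V hW hV M hM L l L i le_rfl hl hL hi hmW hmV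
      rw [← pairW_swap L l W V (gEv ((2 : ℝ) ^ i) L l)] at *
      rw [e] at h1 h2
      rw [mul_add]
      linarith
    · positivity
  rw [show TEv η N J l L = fun a b => ∑ i ∈ range J, _ from rfl, pairW_sum]
  refine (sum_le_sum hterm).trans ?_
  rw [← mul_sum]
  refine (mul_le_mul_of_nonneg_left (sum_geom_le (by norm_num) (by norm_num) J) (by positivity)).trans_eq ?_
  ring

theorem kLevels (N K : ℕ) : ∃ C : ℝ, 0 ≤ C ∧
    ∀ (γ : ℝ) (A : ℕ → ℤ) (B : ℕ → ℕ), IsCls γ A B →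
    ∀ (V W : Finset ℕ), (∀ v ∈ V, 0 < v) → (∀ w ∈ W, 0 < w) →
      ∀ (M : ℝ), 1 ≤ M → ∀ l L J : ℕ, l ≤ L → 4 * L ≤ 5 * l → 1 ≤ L →
        ∑ v ∈ V, mass l v ≤ M → ∑ w ∈ W, mass L w ≤ M →
        pairW l L V W (TK N K J A B l L) ≤ C * ((L : ℝ) ^ 2)⁻¹ * M ^ 2 := by
  obtain ⟨C, hC, h⟩ := kBound params1_base N K
  set ρ : ℝ := (2 : ℝ) ^ (-((2 * (1 / 2 + 1 / 1600000 : ℝ) - 1) / 2)) with hρ
  have hρ0 : 0 ≤ ρ := by positivity
  have hρ1 : ρ < 1 := rpow_lt_one_of_one_lt_of_neg one_lt_two (by norm_num)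
  refine ⟨C * (1 - ρ)⁻¹, mul_nonneg hC (inv_nonneg.2 (by linarith)),
    fun γ A B hcls V W hV hW M hM l L J hl h45 hL hmV hmW => ?_⟩
  by_cases hd : SameCls A B l L
  · rw [show TK N K J A B l L = fun _ _ => 0 from funext₂ fun a b => if_pos hd]
    simp only [pairW, mul_zero, sum_const_zero]
    exact mul_nonneg (mul_nonneg (mul_nonneg hC (inv_nonneg.2 (by linarith))) (by positivity)) (sq_nonneg M)
  · rw [show TK N K J A B l L = fun a b => ∑ j ∈ range J, ((L : ℝ) + Real.log (2 + kGrid K L j)) ^ N /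
      kGrid K L j * gK (kGrid K L j) (kdiv B l L) l L a b from funext₂ fun a b => if_neg hd, pairW_sum]
    have hk := (cls_diff hcls hl hd).2.1
    refine (sum_le_sum fun j _ => (?_ : _ ≤ C * ((L : ℝ) ^ 2)⁻¹ * M ^ 2 * ρ ^ j)).trans ?_
    · rw [pairW_mul]
      refine (h V W hV hW M hM l L (kdiv B l L) j hl (by omega) hL hk hmV hmW).trans_eq ?_
      rw [hρ, ← rpow_natCast _ j, ← rpow_mul zero_le_two, neg_mul]
      ring
    · rw [← mul_sum]
      refine (mul_le_mul_of_nonneg_left (sum_geom_le hρ0 hρ1 J) (by positivity)).trans_eq ?_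
      ring

theorem lineLevels (N : ℕ) : ∃ C : ℝ, 0 ≤ C ∧
    ∀ (γ : ℝ) (A : ℕ → ℤ) (B : ℕ → ℕ), IsCls γ A B →
    ∀ (V W : Finset ℕ), (∀ v ∈ V, 0 < v) → (∀ w ∈ W, 0 < w) →
      ∀ (M : ℝ), 1 ≤ M → ∀ l L : ℕ, l ≤ L → 4 * L ≤ 5 * l → 1 ≤ L →
        ∑ v ∈ V, mass l v ≤ M → ∑ w ∈ W, mass L w ≤ M →
        pairW l L V W (TLine N A B l L) ≤ C * ((L : ℝ) ^ 2)⁻¹ * M ^ 2 := by
  obtain ⟨C, hC, h⟩ := lineBound N
  refine ⟨C, hC, fun γ A B hcls V W hV hW M hM l L hl h45 hL hmV hmW => ?_⟩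
  by_cases hd : SameCls A B l L
  · rw [show TLine N A B l L = fun _ _ => 0 from funext₂ fun a b => if_pos hd]
    simp only [pairW, mul_zero, sum_const_zero]; positivity
  · rw [show TLine N A B l L = fun a b => (L : ℝ) ^ N * gLine (B L) L a b from
      funext₂ fun a b => if_neg hd, pairW_mul]
    exact h V W hV hW M hM l L (B L) h45 hL (cls_diff hcls hl hd).2.2.1 hmV hmW

theorem nearLevels (N : ℕ) : ∃ K : ℕ, 1 ≤ K ∧ ∃ C : ℝ, 0 ≤ C ∧
    ∀ (γ : ℝ) (A : ℕ → ℤ) (B : ℕ → ℕ), IsCls γ A B →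
    ∀ (V W : Finset ℕ), (∀ v ∈ V, 0 < v) → (∀ w ∈ W, 0 < w) →
      ∀ (M : ℝ), 1 ≤ M → ∀ l L J : ℕ, l ≤ L → 1 ≤ L → (99999 / 100000 : ℝ) * L ≤ l →
        ∑ v ∈ V, mass l v ≤ M → ∑ w ∈ W, mass L w ≤ M →
        pairW l L V W (TNear N K J γ A B l L) ≤ C * ((L : ℝ) ^ 2)⁻¹ * M ^ 2 := by
  obtain ⟨K, C, hK, hC, h⟩ := nearBound N
  refine ⟨K, hK, 4 * C, by positivity, fun γ A B hcls V W hV hW M hM l L J hl hL hlν hmV hmW => ?_⟩
  rw [show TNear N K J γ A B l L = fun a b => ∑ i ∈ range J, _ from rfl, pairW_sum]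
  refine (sum_le_sum fun i _ => (?_ : _ ≤ if i < L + 3 then C * ((L : ℝ) ^ 3)⁻¹ * M ^ 2 else 0)).trans ?_
  · rw [pairW_ite, pairW_mul]
    split
    · next hc =>
      have hi : i < L + 3 := by
        by_contra hcon
        have h8 : (2 : ℝ) ^ (L + 3) ≤ (2 : ℝ) ^ i := pow_le_pow_right₀ one_le_two (by omega)
        have h2 : ((2 : ℝ) ^ i)⁻¹ ≤ ((2 : ℝ) ^ L * 2 ^ 3)⁻¹ := inv_anti₀ (by positivity) (by rwa [← pow_add])
        rw [mul_inv] at h2
        have : (0 : ℝ) < ((2 : ℝ) ^ L)⁻¹ := by positivity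
        linarith [hc.1]
      rw [if_pos hi]
      exact h γ A B hcls V W hV hW M hM l L _ hL hl hlν (by positivity)
        (inv_le_one_of_one_le₀ (one_le_pow₀ one_le_two)) hc.1 hc.2 hmV hmW
    · split <;> positivity
  · rw [← sum_filter]
    refine (sum_le_sum_of_subset_of_nonneg (t := range (L + 3)) (fun i hi => mem_range.2 (mem_filter.1 hi).2)
      fun _ _ _ => by positivity).trans ?_
    rw [sum_const, card_range, nsmul_eq_mul]
    have hL1 : (1 : ℝ) ≤ L := by exact_mod_cast hL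
    have e : ((L + 3 : ℕ) : ℝ) * (C * ((L : ℝ) ^ 3)⁻¹ * M ^ 2) =
        ((L + 3 : ℕ) : ℝ) / L * (C * ((L : ℝ) ^ 2)⁻¹ * M ^ 2) := by
      field_simp
    rw [e, mul_assoc 4 C, mul_assoc 4]
    refine mul_le_mul_of_nonneg_right ((div_le_iff₀ (by linarith)).2 ?_) (by positivity)
    push_cast; linarith

/-- The events of one pair of levels. -/
theorem levelBound : LevelBoundStmt := by
  intro N
  obtain ⟨K, hK, C₃, hC₃, h3⟩ := nearLevels N
  refine ⟨K, hK, fun η hη => ?_⟩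
  obtain ⟨C₁, hC₁, h1⟩ := evLevels N hη
  obtain ⟨C₂, hC₂, h2⟩ := kLevels N K
  obtain ⟨C₄, hC₄, h4⟩ := lineLevels N
  refine ⟨C₁ + C₂ + C₃ + C₄, by positivity,
    fun γ A B hcls V W hV hW M hM l L J hl1 hl h45 hlν hmV hmW => ?_⟩
  have hL : 1 ≤ L := hl1.trans hl
  rw [show TAll η N K J γ A B l L = fun a b => TEv η N J l L a b + TK N K J A B l L a b +
    TNear N K J γ A B l L a b + TLine N A B l L a b from rfl, pairW_add, pairW_add, pairW_add]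
  have e1 := h1 V W hV hW M hM l L J hl hL hmV hmW
  have e2 := h2 γ A B hcls V W hV hW M hM l L J hl h45 hL hmV hmW
  have e3 := h3 γ A B hcls V W hV hW M hM l L J hl hL hlν hmV hmW
  have e4 := h4 γ A B hcls V W hV hW M hM l L hl h45 hL hmV hmW
  linarith

end Vale.Agent.P028
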