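import Vale.Agent.P028.Stmts
import Vale.Agent.P028.Bounds
import Vale.Agent.P028.ScaleLeaf

/-! Proof of `PairsScaleStmt`: the weight of all pairs with bounded gap, whatever their levels. -/

namespace Vale.Agent.P028

open Finset Real

theorem rad_scale_pos (l : ℕ) : 0 < rad l := inv_pos.2 (by positivity)

theorem mass_pos_of_pos {q : ℕ} (hq : 0 < q) (l : ℕ) : 0 < mass l q :=
  mul_pos (rad_scale_pos l) (div_pos (by exact_mod_cast Nat.totient_pos.2 hq) (by exact_mod_cast hq))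

/-- The dyadic scale of `q` over its radius. -/
def scaleOf (lv : ℕ → ℕ) (q : ℕ) : ℕ := Nat.log 2 (q * 4 ^ lv q)

theorem scaleOf_spec (lv : ℕ → ℕ) {q : ℕ} (hq : 0 < q) :
    rad (lv q) * (2 : ℝ) ^ scaleOf lv q ≤ q ∧
      (q : ℝ) < 2 * (2 : ℝ) ^ scaleOf lv q * rad (lv q) := by
  have h4 : (0 : ℝ) < (4 : ℝ) ^ lv q := by positivity
  have h1 : (2 : ℝ) ^ scaleOf lv q ≤ (q : ℝ) * (4 : ℝ) ^ lv q := by
    exact_mod_cast Nat.pow_log_le_self 2 (by positivity : q * 4 ^ lv q ≠ 0)
  have h2 : (q : ℝ) * (4 : ℝ) ^ lv q < (2 : ℝ) ^ (scaleOf lv q + 1) := by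
    exact_mod_cast Nat.lt_pow_succ_log_self (by norm_num : 1 < 2) (q * 4 ^ lv q)
  rw [pow_succ] at h2
  constructor
  · rw [rad, inv_mul_le_iff₀ h4]; linarith
  · rw [rad, ← div_eq_mul_inv, lt_div_iff₀ h4]; linarith

/-- With prescribed scales one side of the gap bounds the other. -/
theorem red_rad_le_of_scale (lv : ℕ → ℕ) {v w : ℕ} (hv : 0 < v) (hw : 0 < w) {D : ℝ}
    (h : (red w v : ℝ) * rad (lv v) ≤ D) :
    (red v w : ℝ) * rad (lv w) ≤
      D * (2 * (2 : ℝ) ^ scaleOf lv v / (2 : ℝ) ^ scaleOf lv w) := by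
  obtain ⟨-, hv2⟩ := scaleOf_spec lv hv
  obtain ⟨hw1, -⟩ := scaleOf_spec lv hw
  have hg0 : (0 : ℝ) < (Nat.gcd v w : ℕ) := by exact_mod_cast Nat.gcd_pos_of_pos_left _ hv
  have e1 : (red v w : ℝ) = (v : ℝ) / (Nat.gcd v w : ℕ) :=
    Nat.cast_div (Nat.gcd_dvd_left v w) hg0.ne'
  have e2 : (red w v : ℝ) = (w : ℝ) / (Nat.gcd v w : ℕ) := by
    rw [red, Nat.gcd_comm w v]; exact Nat.cast_div (Nat.gcd_dvd_right v w) hg0.ne'
  rw [e2, div_mul_eq_mul_div, div_le_iff₀ hg0] at h
  rw [e1, div_mul_eq_mul_div, div_le_iff₀ hg0]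
  have hT : (0 : ℝ) < (2 : ℝ) ^ scaleOf lv w := by positivity
  have hS : (0 : ℝ) ≤ 2 * (2 : ℝ) ^ scaleOf lv v := by positivity
  have hstep : (v : ℝ) * rad (lv w) * (2 : ℝ) ^ scaleOf lv w ≤
      2 * (2 : ℝ) ^ scaleOf lv v * (D * (Nat.gcd v w : ℕ)) := by
    calc (v : ℝ) * rad (lv w) * (2 : ℝ) ^ scaleOf lv w
        = (v : ℝ) * (rad (lv w) * (2 : ℝ) ^ scaleOf lv w) := by ring
      _ ≤ (2 * (2 : ℝ) ^ scaleOf lv v * rad (lv v)) * w :=
          mul_le_mul hv2.le hw1 (mul_nonneg (rad_scale_pos _).le hT.le) (mul_nonneg hS (rad_scale_pos _).le)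
      _ = 2 * (2 : ℝ) ^ scaleOf lv v * ((w : ℝ) * rad (lv v)) := by ring
      _ ≤ _ := mul_le_mul_of_nonneg_left h hS
  rw [show D * (2 * (2 : ℝ) ^ scaleOf lv v / (2 : ℝ) ^ scaleOf lv w) * (Nat.gcd v w : ℕ)
      = 2 * (2 : ℝ) ^ scaleOf lv v * (D * (Nat.gcd v w : ℕ)) / (2 : ℝ) ^ scaleOf lv w by ring,
    le_div_iff₀ hT]
  exact hstep

theorem two_pow_ratio_mul_min {s t : ℕ} {D : ℝ} (hD : 0 ≤ D) :
    D * min 1 (2 * (2 : ℝ) ^ s / (2 : ℝ) ^ t) * (D * min 1 (2 * (2 : ℝ) ^ t / (2 : ℝ) ^ s)) ≤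
      2 * D ^ 2 * (1 / 2 : ℝ) ^ Nat.dist s t := by
  have key : ∀ a b : ℕ, a ≤ b → 2 * (2 : ℝ) ^ a / (2 : ℝ) ^ b = 2 * (1 / 2 : ℝ) ^ (b - a) := by
    intro a b hab
    obtain ⟨c, rfl⟩ := Nat.exists_eq_add_of_le hab
    rw [Nat.add_sub_cancel_left, pow_add, one_div, inv_pow]
    field_simp
  rcases le_total s t with h | h
  · rw [show Nat.dist s t = t - s from Nat.dist_eq_sub_of_le h, key s t h]
    calc _ ≤ D * (2 * (1 / 2 : ℝ) ^ (t - s)) * (D * 1) := by
          gcongr
          · exact min_le_right _ _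
          · exact min_le_left _ _
      _ = _ := by ring
  · rw [show Nat.dist s t = s - t from Nat.dist_eq_sub_of_le_right h, key t s h]
    calc _ ≤ D * 1 * (D * (2 * (1 / 2 : ℝ) ^ (s - t))) := by
          gcongr
          · exact min_le_left _ _
          · exact min_le_right _ _
      _ = _ := by ring

theorem pairsScale : PairsScaleStmt := by
  classical
  intro θ hθ hθ34
  have hθ1 : θ < 1 := by linarith
  set e : ℝ := 1 - θ with hedef
  have he : 0 < e := by linarith
  obtain ⟨η, hη, hη2, hηθ, pA, hpA⟩ := exists_params hθ hθ1 he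
  have hee : e / (1 - θ) = 1 := div_self (by linarith)
  obtain ⟨pB, hpB, hpB'⟩ := exists_absorb (e₁ := e) (e₂ := e) hθ hθ1 he le_rfl
    (by rw [hee]; linarith) (by rw [hee]; linarith) (by rw [hee]; linarith)
  set p₀ := max pA pB with hp₀
  set P := (Finset.range (p₀ + 1)).filter Nat.Prime with hPdef
  set b : ℝ := 2 / (1 - (2 : ℝ) ^ (-e)) with hb
  have hb0 : 0 ≤ b := by
    have : (2 : ℝ) ^ (-e) < 1 := rpow_lt_one_of_one_lt_of_neg (by norm_num) (by linarith)
    exact div_nonneg (by norm_num) (by linarith)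
  set Cl : ℝ := (16 * Real.exp 1 * Real.exp 1) ^ e * (1 / (1 - ((4 : ℝ)⁻¹) ^ e)) with hCl
  have hCl0 : 0 ≤ Cl := by
    have : ((4 : ℝ)⁻¹) ^ e < 1 := rpow_lt_one (by norm_num) (by norm_num) he
    exact mul_nonneg (by positivity) (div_nonneg zero_le_one (by linarith))
  set ρ : ℝ := (1 / 2 : ℝ) ^ e with hρ
  have hρ1 : ρ < 1 := rpow_lt_one (by norm_num) (by norm_num) he
  have hρ0 : 0 ≤ ρ := rpow_nonneg (by norm_num) _
  set K₀ : ℝ := 2 * Cl * ∏ _p ∈ P, b with hK₀
  have hK₀0 : 0 ≤ K₀ := mul_nonneg (mul_nonneg zero_le_two hCl0) (prod_nonneg fun _ _ => hb0)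
  refine ⟨K₀ * (2 : ℝ) ^ e * (2 / (1 - ρ)),
    mul_nonneg (mul_nonneg hK₀0 (by positivity)) (div_nonneg zero_le_two (by linarith)), ?_⟩
  intro lv S hS D hD
  set ψ : ℕ → ℝ := fun q => rad (lv q) with hψ
  set m : ℕ → ℝ := fun q => mass (lv q) q with hm
  have hm0 : ∀ q ∈ S, 0 < m q := fun q hq => mass_pos_of_pos (hS q hq) _
  set f : ℕ → ℕ → ℝ := fun q r =>
    if dgap (lv q) (lv r) q r ≤ D then m q * m r else 0 with hf
  set I := S.image (scaleOf lv) with hI
  set Cls : ℕ → Finset ℕ := fun s => S.filter (fun q => scaleOf lv q = s) with hCls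
  -- one pair of scales
  have hblock : ∀ s t : ℕ, ∑ v ∈ Cls s, ∑ w ∈ Cls t, f v w ≤
      K₀ * ((2 : ℝ) ^ e * (D ^ 2) ^ e) *
        (((∑ v ∈ Cls s, m v) * ∑ w ∈ Cls t, m w) ^ θ * ρ ^ Nat.dist s t) := by
    intro s t
    set D₁ := D * min 1 (2 * (2 : ℝ) ^ s / (2 : ℝ) ^ t) with hD₁
    set D₂ := D * min 1 (2 * (2 : ℝ) ^ t / (2 : ℝ) ^ s) with hD₂
    have hD₁0 : 0 < D₁ := mul_pos hD (lt_min one_pos (by positivity))
    have hD₂0 : 0 < D₂ := mul_pos hD (lt_min one_pos (by positivity))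
    have hsub : ∀ s, Cls s ⊆ S := fun s => filter_subset _ _
    have hpos : ∀ s, ∀ v ∈ Cls s, 0 < v := fun s v hv => hS v (hsub s hv)
    have hmain : ∑ v ∈ Cls s, ∑ w ∈ Cls t, f v w ≤
        2 * Cl * (D₁ * D₂) ^ e * (∏ _p ∈ P, b) *
          ((∑ v ∈ Cls s, m v) * ∑ w ∈ Cls t, m w) ^ θ := by
      refine sum_pairs_le_of_patterns P (Cls s) (Cls t) m m f (powT e) (powT e) hθ.le
        (fun v hv => (hm0 v (hsub s hv)).le) (fun v hv => (hm0 v (hsub t hv)).le) (by positivity)
        (fun p _ => powT_nonneg _ _) (fun p _ => powT_nonneg _ _) (fun _ => b)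
        (fun p hp J i => (sum_expKer_powT_le he le_rfl (mem_filter.1 hp).2.two_le J i).1)
        (fun p hp J i => (sum_expKer_powT_le he le_rfl (mem_filter.1 hp).2.two_le J i).2) ?_
      intro V' hV' W' hW' cV cW v₀ hv₀ w₀ hw₀
      set T₀ := ((V' ∪ W').biUnion Nat.primeFactors) \ P with hT₀
      have hT₀p : ∀ p ∈ T₀, p.Prime ∧ p₀ < p := by
        intro p hp
        obtain ⟨hp1, hp2⟩ := mem_sdiff.1 hp
        obtain ⟨x, hx, hpx⟩ := mem_biUnion.1 hp1
        have hpp := Nat.prime_of_mem_primeFactors hpx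
        refine ⟨hpp, ?_⟩
        by_contra hle
        exact hp2 (mem_filter.2 ⟨mem_range.2 (by omega), hpp⟩)
      have hok : ∀ p ∈ T₀, PrimeOK θ η e e p := fun p hp =>
        hpA p (lt_of_le_of_lt (le_max_left _ _) (hT₀p p hp).2) e
      let G : GcdSys :=
        { θ := θ, η := η, t₁ := powT e, t₂ := powT e, R₀ := P, T₀ := T₀
          C₀ := Cl * (D₁ * D₂) ^ e * shiftWt (powT e) (powT e) P v₀ w₀
          V₀ := V', W₀ := W', α := m, β := m
          k := fun v w => if v ∈ V' ∧ w ∈ W' then f v w else 0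
          hθ := hθ, hθ1 := hθ1, hη := hη, hη2 := hη2, hηθ := hηθ
          hC₀ := mul_nonneg (mul_nonneg hCl0 (by positivity))
            (prod_nonneg fun p _ => expKer_nonneg (powT_nonneg _ _) (powT_nonneg _ _) _ _)
          hα := fun v hv => hm0 v (hsub s (hV' hv))
          hβ := fun w hw => hm0 w (hsub t (hW' hw))
          hk := fun v w => by
            split
            · next h =>
              simp only [hf]
              split
              · exact (mul_pos (hm0 v (hsub s (hV' h.1))) (hm0 w (hsub t (hW' h.2)))).le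
              · exact le_rfl
            · exact le_rfl
          ht₂ := fun p _ => powT_nonneg _ _
          ht₂₁ := fun p _ => le_rfl
          ht₁ := fun p hp => (hok p hp).t₁
          hsmall₁ := fun p hp => (hok p hp).small₁
          hsmall₂ := fun p hp => (hok p hp).small₂
          cover := fun x hx p hp => by
            by_cases h : p ∈ P
            · exact mem_union_left _ h
            · exact mem_union_right _ (mem_sdiff.2 ⟨mem_biUnion.2 ⟨x, hx, hp⟩, h⟩) }
      have hconf : G.Conf V' W' P T₀ :=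
        ⟨subset_rfl, subset_rfl, subset_rfl, subset_rfl, disjoint_sdiff, cV, cW, G.cover,
          subset_union_left⟩
      have habs : G.Absorbs := by
        refine GcdSys.absorbs_of_sum ?_ ?_
        · intro p hp
          exact hpB p (lt_of_le_of_lt (le_max_right _ _) (hT₀p p hp).2)
        · exact hpB' T₀ fun p hp => lt_of_le_of_lt (le_max_right _ _) (hT₀p p hp).2
      have hleaf : G.Leaf := by
        intro V'' W'' R hV'' hW'' hR hRsub cV'' cW'' N v hv w hw
        have hRp : ∀ p ∈ R, p.Prime := fun p hp => by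
          rcases mem_union.1 (hRsub hp) with h | h
          · exact (mem_filter.1 h).2
          · exact (hT₀p p h).1
        have hVs : ∀ x ∈ V'', x ∈ Cls s := fun x hx => hV' (hV'' hx)
        have hWt : ∀ x ∈ W'', x ∈ Cls t := fun x hx => hW' (hW'' hx)
        have h := scale_leaf hRp (fun x hx => hpos s x (hVs x hx)) (fun x hx => hpos t x (hWt x hx))
          cV'' cW'' N ψ ψ (S₁ := (2 : ℝ) ^ s) (S₂ := (2 : ℝ) ^ t) (θ := θ) (by positivity)
          (by positivity) hD₁0 hD₂0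
          (fun x hx => by
            have hs := (mem_filter.1 (hVs x hx)).2
            rw [← hs]; exact scaleOf_spec lv (hpos s x (hVs x hx)))
          (fun x hx => by
            have hs := (mem_filter.1 (hWt x hx)).2
            rw [← hs]; exact scaleOf_spec lv (hpos t x (hWt x hx)))
          hθ hθ1 hv hw
        refine le_trans (sum_le_sum fun x hx => sum_le_sum fun y hy => ?_) (h.trans_eq ?_)
        · simp only [G, if_pos (And.intro (hV'' hx) (hW'' hy)), hf]
          by_cases hap : Apart R N x y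
          swap
          · simp only [hap, false_and, if_false, le_refl]
          rw [if_pos hap]
          by_cases hd : dgap (lv x) (lv y) x y ≤ D
          swap
          · rw [if_neg hd]
            split
            · exact mul_nonneg (hm0 x (hsub s (hVs x hx))).le (hm0 y (hsub t (hWt y hy))).le
            · exact le_rfl
          rw [if_pos hd]
          have ha : (red y x : ℝ) * rad (lv x) ≤ D := le_trans (le_max_left _ _) hd
          have hb' : (red x y : ℝ) * rad (lv y) ≤ D := le_trans (le_max_right _ _) hd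
          have hs := (mem_filter.1 (hVs x hx)).2
          have ht := (mem_filter.1 (hWt y hy)).2
          have h1 : (red x y : ℝ) * ψ y ≤ D₁ := by
            have := red_rad_le_of_scale lv (hpos s x (hVs x hx)) (hpos t y (hWt y hy)) ha
            rw [hs, ht] at this
            rw [hD₁, mul_min_of_nonneg _ _ hD.le, mul_one]
            exact le_min hb' this
          have h2 : (red y x : ℝ) * ψ x ≤ D₂ := by
            have := red_rad_le_of_scale lv (hpos t y (hWt y hy)) (hpos s x (hVs x hx)) hb'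
            rw [hs, ht] at this
            rw [hD₂, mul_min_of_nonneg _ _ hD.le, mul_one]
            exact le_min ha this
          rw [if_pos ⟨hap, h1, h2⟩]
          exact le_of_eq (by simp only [hm, hψ, mass])
        · have hX := resolvedPart_pos hRp v w
          have hY := resolvedPart_pos hRp w v
          have hcongr : shiftWt (powT e) (powT e) P v w = shiftWt (powT e) (powT e) P v₀ w₀ :=
            shiftWt_congr cV cW (hV'' hv) hv₀ (hW'' hw) hw₀
          simp only [GcdSys.mV, GcdSys.mW, GcdSys.shift, G, hm, hψ, mass]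
          rw [div_rpow (by positivity) (by positivity), mul_rpow (x := ((resolvedPart R v w : ℕ) : ℝ))
              (by positivity) (by positivity), div_eq_mul_inv _ (_ * _), mul_inv,
            ← rpow_neg (Nat.cast_nonneg _), ← rpow_neg (Nat.cast_nonneg _),
            ← shiftWt_powT hRp, shiftWt_split hR, hcongr]
          ring
      have hfin := GcdSys.pairs_le_of hleaf habs V' W' P T₀ hconf v₀ hv₀ w₀ hw₀
      simp only [GcdSys.pairs, GcdSys.mV, GcdSys.mW, GcdSys.shift, G, sdiff_self, shiftWt] at hfin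
      rw [Finset.bot_eq_empty, prod_empty, mul_one] at hfin
      refine le_trans (le_of_eq (sum_congr rfl fun x hx => sum_congr rfl fun y hy => ?_))
        (hfin.trans_eq ?_)
      · rw [if_pos (And.intro hx hy)]
      · simp only [shiftWt]; ring
    refine hmain.trans ?_
    have hle : (D₁ * D₂) ^ e ≤ (2 : ℝ) ^ e * (D ^ 2) ^ e * ρ ^ Nat.dist s t := by
      have h := rpow_le_rpow (by positivity) (two_pow_ratio_mul_min (s := s) (t := t) hD.le) he.le
      refine h.trans_eq ?_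
      rw [mul_rpow (by positivity) (by positivity), mul_rpow (by norm_num) (by positivity),
        ← rpow_pow_comm (x := (1 / 2 : ℝ)) (by norm_num)]
    have hX : 0 ≤ ((∑ v ∈ Cls s, m v) * ∑ w ∈ Cls t, m w) ^ θ :=
      rpow_nonneg (mul_nonneg (sum_nonneg fun v hv => (hm0 v (hsub s hv)).le)
        (sum_nonneg fun v hv => (hm0 v (hsub t hv)).le)) _
    calc 2 * Cl * (D₁ * D₂) ^ e * (∏ _p ∈ P, b) * ((∑ v ∈ Cls s, m v) * ∑ w ∈ Cls t, m w) ^ θ
        = K₀ * (D₁ * D₂) ^ e * ((∑ v ∈ Cls s, m v) * ∑ w ∈ Cls t, m w) ^ θ := by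
          rw [hK₀]; ring
      _ ≤ K₀ * ((2 : ℝ) ^ e * (D ^ 2) ^ e * ρ ^ Nat.dist s t) *
            ((∑ v ∈ Cls s, m v) * ∑ w ∈ Cls t, m w) ^ θ :=
          mul_le_mul_of_nonneg_right (mul_le_mul_of_nonneg_left hle hK₀0) hX
      _ = _ := by ring
  -- sum over the scales
  set M := ∑ q ∈ S, m q with hM
  have hM0 : 0 ≤ M := sum_nonneg fun q hq => (hm0 q hq).le
  have hx0 : ∀ s, 0 ≤ ∑ v ∈ Cls s, m v := fun s =>
    sum_nonneg fun v hv => (hm0 v (filter_subset _ _ hv)).le
  have hxsum : ∑ s ∈ I, ∑ v ∈ Cls s, m v ≤ M :=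
    le_of_eq (sum_fiberwise_of_maps_to (fun q hq => mem_image_of_mem _ hq) _)
  have hker := sum_kernel_le I I (fun s => ∑ v ∈ Cls s, m v) (fun s => ∑ v ∈ Cls s, m v)
    (fun s t => ρ ^ Nat.dist s t) (R := 2 / (1 - ρ)) hθ.le (fun s _ => hx0 s) (fun s _ => hx0 s)
    hxsum hxsum (fun s _ t _ => pow_nonneg hρ0 _) (div_nonneg zero_le_two (by linarith))
    (fun s _ => sum_pow_dist_le_const hρ0 hρ1 I s)
    (fun t _ => (sum_congr rfl fun s _ => by rw [Nat.dist_comm]).trans_le
      (sum_pow_dist_le_const hρ0 hρ1 I t))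
  have hdec : (∑ q ∈ S, ∑ r ∈ S, f q r) = ∑ s ∈ I, ∑ t ∈ I, ∑ v ∈ Cls s, ∑ w ∈ Cls t, f v w := by
    rw [← sum_fiberwise_of_maps_to (t := I) (g := scaleOf lv) (fun q hq => mem_image_of_mem _ hq)]
    refine sum_congr rfl fun s _ => ?_
    rw [sum_comm (s := I)]
    refine sum_congr rfl fun v _ => ?_
    rw [← sum_fiberwise_of_maps_to (t := I) (g := scaleOf lv) (fun q hq => mem_image_of_mem _ hq)]
  have hKD : 0 ≤ K₀ * ((2 : ℝ) ^ e * (D ^ 2) ^ e) := mul_nonneg hK₀0 (by positivity)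
  change (∑ q ∈ S, ∑ r ∈ S, f q r) ≤ _
  rw [hdec]
  refine (sum_le_sum fun s _ => sum_le_sum fun t _ => hblock s t).trans ?_
  simp only [← mul_sum]
  refine (mul_le_mul_of_nonneg_left hker hKD).trans_eq ?_
  have e1 : (D ^ 2) ^ e = D ^ (2 - 2 * θ) := by
    rw [← rpow_natCast D 2, ← rpow_mul hD.le]; congr 1; rw [hedef]; push_cast; ring
  have e2 : (M * M) ^ θ = M ^ (2 * θ) := by
    rw [two_mul, rpow_add' hM0 (by linarith), mul_rpow hM0 hM0]
  rw [e1, e2]
  simp only [hM, hm]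
  ring

end Vale.Agent.P028
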