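import Vale.Agent.P028.Defs

/-! Zero–one law from weighted first and second moments. -/

namespace Vale.Agent.P028

open MeasureTheory Filter Topology Set

/-- A weighted family has second moment at least the square of its mass on a set, over the part of
the set it can meet. -/
theorem sq_sum_le {ι : Type*} (S : Finset ι) (E : ι → Set ℝ) (wt : ι → ℝ)
    (hE : ∀ i, MeasurableSet (E i)) (hw : ∀ i, 0 ≤ wt i) (U Z : Set ℝ)
    (hU : MeasurableSet U) (hZ : MeasurableSet Z) (hU1 : U ⊆ Ioc 0 1)
    (hdisj : ∀ i ∈ S, Disjoint Z (E i)) :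
    (∑ i ∈ S, wt i * volume.real (E i ∩ U)) ^ 2 ≤
      volume.real (U \ Z) *
        ∑ i ∈ S, ∑ j ∈ S, wt i * wt j * volume.real (E i ∩ E j ∩ Ioc 0 1) := by
  set μ := (volume : Measure ℝ).restrict (Ioc 0 1) with hμdef
  have hfin : IsFiniteMeasure μ := isFiniteMeasure_restrict.mpr measure_Ioc_lt_top.ne
  have hμ : ∀ A : Set ℝ, μ.real A = volume.real (A ∩ Ioc 0 1) := fun A =>
    measureReal_restrict_apply' measurableSet_Ioc
  set V := U \ Z with hV
  have hVm : MeasurableSet V := hU.diff hZ
  set s : ℝ → ℝ := fun x => ∑ i ∈ S, wt i * (E i).indicator (fun _ => (1 : ℝ)) x with hs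
  have hint : ∀ A : Set ℝ, MeasurableSet A → Integrable (A.indicator fun _ => (1 : ℝ)) μ :=
    fun A hA => (integrable_const 1).indicator hA
  have hprod : ∀ A B : Set ℝ, ∀ x, A.indicator (fun _ => (1 : ℝ)) x *
      B.indicator (fun _ => (1 : ℝ)) x = (A ∩ B).indicator (fun _ => (1 : ℝ)) x := by
    intro A B x
    by_cases h1 : x ∈ A <;> by_cases h2 : x ∈ B <;> simp [h1, h2]
  set f : ℝ → ℝ := fun x => s x * V.indicator (fun _ => (1 : ℝ)) x with hf
  have hf' : f = fun x => ∑ i ∈ S, wt i * (E i ∩ V).indicator (fun _ => (1 : ℝ)) x := by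
    funext x; simp only [hf, hs, Finset.sum_mul, mul_assoc, hprod]
  have hfI : Integrable f μ := by
    rw [hf']; exact integrable_finsetSum S fun i _ => (hint _ ((hE i).inter hVm)).const_mul _
  have hs2 : ∀ x, s x ^ 2 = ∑ i ∈ S, ∑ j ∈ S,
      wt i * wt j * (E i ∩ E j).indicator (fun _ => (1 : ℝ)) x := by
    intro x
    simp only [hs, sq, Finset.sum_mul_sum]
    refine Finset.sum_congr rfl fun i _ => Finset.sum_congr rfl fun j _ => ?_
    rw [← hprod]; ring
  have hs2I : Integrable (fun x => s x ^ 2) μ := by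
    simp_rw [hs2]
    exact integrable_finsetSum S fun i _ => integrable_finsetSum S fun j _ =>
      (hint _ ((hE i).inter (hE j))).const_mul _
  have h2 : ∫ x, s x ^ 2 ∂μ =
      ∑ i ∈ S, ∑ j ∈ S, wt i * wt j * volume.real (E i ∩ E j ∩ Ioc 0 1) := by
    simp_rw [hs2]
    rw [integral_finsetSum S fun i _ => integrable_finsetSum S fun j _ =>
      (hint _ ((hE i).inter (hE j))).const_mul _]
    refine Finset.sum_congr rfl fun i _ => ?_
    rw [integral_finsetSum S fun j _ => (hint _ ((hE i).inter (hE j))).const_mul _]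
    refine Finset.sum_congr rfl fun j _ => ?_
    rw [integral_const_mul, show ∫ x, (E i ∩ E j).indicator (fun _ => (1 : ℝ)) x ∂μ =
      μ.real (E i ∩ E j) from integral_indicator_one ((hE i).inter (hE j)), hμ]
  have h1 : ∫ x, f x ∂μ = ∑ i ∈ S, wt i * volume.real (E i ∩ U) := by
    rw [hf', integral_finsetSum S fun i _ => (hint _ ((hE i).inter hVm)).const_mul _]
    refine Finset.sum_congr rfl fun i hi => ?_
    rw [integral_const_mul, show ∫ x, (E i ∩ V).indicator (fun _ => (1 : ℝ)) x ∂μ =
      μ.real (E i ∩ V) from integral_indicator_one ((hE i).inter hVm), hμ]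
    congr 2
    ext x
    simp only [hV, mem_inter_iff, Set.mem_sdiff]
    exact ⟨fun h => ⟨h.1.1, h.1.2.1⟩, fun h => ⟨⟨h.1, h.2,
      fun hz => Set.disjoint_left.mp (hdisj i hi) hz h.1⟩, hU1 h.2⟩⟩
  have hVr : μ.real V = volume.real V := by
    rw [hμ, inter_eq_left.mpr (sdiff_subset.trans hU1)]
  have key : ∀ t : ℝ, 0 ≤ volume.real V * (t * t) + (-(2 * ∫ x, f x ∂μ)) * t + ∫ x, s x ^ 2 ∂μ := by
    intro t
    have hpt : ∀ x, 2 * t * f x ≤ t * t * V.indicator (fun _ => (1 : ℝ)) x + s x ^ 2 := by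
      intro x
      simp only [hf]
      by_cases hx : x ∈ V
      · rw [indicator_of_mem hx]; nlinarith [sq_nonneg (s x - t)]
      · rw [indicator_of_notMem hx]; nlinarith [sq_nonneg (s x)]
    have h3 := integral_mono (hfI.const_mul (2 * t)) (((hint V hVm).const_mul (t * t)).add hs2I) hpt
    simp only [Pi.add_apply] at h3
    rw [integral_add ((hint V hVm).const_mul (t * t)) hs2I, integral_const_mul, integral_const_mul,
      show ∫ x, V.indicator (fun _ => (1 : ℝ)) x ∂μ = μ.real V from integral_indicator_one hVm,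
      hVr] at h3
    linarith
  have hd := discrim_le_zero key
  rw [discrim, h1, h2] at hd
  nlinarith

theorem weakLimit : WeakLimitStmt := by
  intro E hE hper S wt hS hw C c₀ hc₀ hC hfirst
  have hm : ∀ P : ℕ, MeasurableSet (⋂ q ≥ P, (E q)ᶜ) := fun P =>
    MeasurableSet.iInter fun q => MeasurableSet.iInter fun _ => (hE q).compl
  have key : ∀ P : ℕ, volume ((⋂ q ≥ P, (E q)ᶜ) ∩ Ioc (0 : ℝ) 1) = 0 := by
    intro P
    by_contra hne
    set Z := (⋂ q ≥ P, (E q)ᶜ) ∩ Ioc (0 : ℝ) 1 with hZ
    have hZm : MeasurableSet Z := (hm P).inter measurableSet_Ioc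
    have hfin : volume Z ≠ ⊤ :=
      ne_top_of_le_ne_top measure_Ioc_lt_top.ne (measure_mono inter_subset_right)
    obtain ⟨K, hKZ, hKc, hKpos⟩ :=
      hZm.exists_lt_isCompact_of_ne_top hfin (pos_iff_ne_zero.mpr hne)
    have hv : 0 < volume.real K := ENNReal.toReal_pos hKpos.ne' hKc.measure_ne_top
    set v := volume.real K with hvdef
    set C' := max C 1 with hC'
    have hC'0 : 0 < C' := lt_max_of_lt_right one_pos
    set δ := (c₀ * v / 2) ^ 2 / (2 * C') with hδ
    have hδ0 : 0 < δ := by positivity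
    have hbdd : ∃ R > 0, volume (Metric.cthickening R K) ≠ ⊤ :=
      ⟨1, one_pos, (hKc.cthickening).measure_lt_top.ne⟩
    have hlim := (ENNReal.tendsto_toReal hKc.measure_ne_top).comp
      (tendsto_measure_cthickening_of_isClosed hbdd hKc.isClosed)
    obtain ⟨r, hr, hball⟩ := Metric.eventually_nhds_iff.mp
      (hlim.eventually_lt_const (show (volume K).toReal < v + δ by
        rw [hvdef, measureReal_def]; linarith))
    obtain ⟨n, hn⟩ := exists_nat_gt (2 / r)
    have hn0 : (0 : ℝ) < n := lt_trans (by positivity) hn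
    have hnr : (1 : ℝ) / n < r := by
      rw [div_lt_iff₀ hn0]; rw [div_lt_iff₀ hr] at hn; linarith
    -- the dyadic cover
    set I := fun i : ℕ => Ioc ((i : ℝ) / n) (((i : ℝ) + 1) / n) with hI
    classical
    set T := (Finset.range n).filter (fun i => (I i ∩ K).Nonempty) with hT
    set U := ⋃ i ∈ T, I i with hU
    have hUm : MeasurableSet U := T.measurableSet_biUnion fun i _ => measurableSet_Ioc
    have hU1 : U ⊆ Ioc 0 1 := by
      refine iUnion₂_subset fun i hi => ?_
      have hin : (i : ℝ) + 1 ≤ n := by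
        exact_mod_cast Finset.mem_range.mp (Finset.mem_filter.mp hi).1
      refine Ioc_subset_Ioc (by positivity) ?_
      rw [div_le_one hn0]; exact hin
    have hKU : K ⊆ U := by
      intro x hx
      obtain ⟨hx0, hx1⟩ := (hKZ hx).2
      obtain ⟨i, hi⟩ : ∃ i : ℕ, ⌈x * n⌉₊ = i + 1 :=
        ⟨⌈x * n⌉₊ - 1, by
          have : 0 < ⌈x * n⌉₊ := Nat.ceil_pos.mpr (by positivity)
          omega⟩
      have h1 := Nat.le_ceil (x * n)
      have h2 := Nat.ceil_lt_add_one (show 0 ≤ x * n by positivity)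
      rw [hi] at h1 h2
      push_cast at h1 h2
      have hxI : x ∈ I i := by
        simp only [hI, Set.mem_Ioc, div_lt_iff₀ hn0, le_div_iff₀ hn0]
        constructor <;> linarith
      have hin : i < n := by
        have : ⌈x * n⌉₊ ≤ n := Nat.ceil_le.mpr (by nlinarith)
        omega
      exact mem_biUnion (Finset.mem_filter.mpr ⟨Finset.mem_range.mpr hin, x, hxI, hx⟩) hxI
    have hUth : U ⊆ Metric.cthickening (1 / (n : ℝ)) K := by
      refine iUnion₂_subset fun i hi x hx => ?_
      obtain ⟨y, hy, hyK⟩ := (Finset.mem_filter.mp hi).2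
      refine Metric.mem_cthickening_of_dist_le x y _ K hyK ?_
      simp only [hI, Set.mem_Ioc] at hx hy
      have e : ((i : ℝ) + 1) / n = i / n + 1 / n := by ring
      rw [Real.dist_eq, abs_le]
      constructor <;> linarith
    have hUv : volume.real (U \ Z) ≤ δ := by
      have h1 : volume.real (Metric.cthickening (1 / (n : ℝ)) K) < v + δ :=
        hball (by rw [Real.dist_eq, sub_zero, abs_of_pos (by positivity)]; exact hnr)
      have hUfin : volume U ≠ ⊤ :=
        ne_top_of_le_ne_top measure_Ioc_lt_top.ne (measure_mono hU1)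
      have h2 : volume.real (U \ Z) ≤ volume.real (U \ K) :=
        measureReal_mono (sdiff_subset_sdiff_right hKZ)
          (ne_top_of_le_ne_top hUfin (measure_mono sdiff_subset))
      have h3 : volume.real (U \ K) = volume.real U - v :=
        measureReal_sdiff hKU hKc.measurableSet hUfin
      have h4 : volume.real U ≤ volume.real (Metric.cthickening (1 / (n : ℝ)) K) :=
        measureReal_mono hUth (hKc.cthickening).measure_lt_top.ne
      linarith
    -- the first moment on the cover
    have hdisjI : (T : Set ℕ).PairwiseDisjoint I := by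
      intro i _ j _ hij
      refine Set.disjoint_left.mpr fun x hxi hxj => hij ?_
      simp only [hI, Set.mem_Ioc, div_lt_iff₀ hn0, le_div_iff₀ hn0] at hxi hxj
      have h1 : (i : ℝ) < (j : ℝ) + 1 := by linarith
      have h2 : (j : ℝ) < (i : ℝ) + 1 := by linarith
      have h1' : i < j + 1 := by exact_mod_cast h1
      have h2' : j < i + 1 := by exact_mod_cast h2
      omega
    have hsum : ∀ q, volume.real (E q ∩ U) = ∑ i ∈ T, volume.real (E q ∩ I i) := by
      intro q
      rw [hU, inter_iUnion₂]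
      exact measureReal_biUnion_finset (fun i hi j hj hij => (hdisjI hi hj hij).mono
        inter_subset_right inter_subset_right) (fun i _ => (hE q).inter measurableSet_Ioc)
        (fun i _ => ne_top_of_le_ne_top measure_Ioc_lt_top.ne (measure_mono inter_subset_right))
    have hUsum : volume.real U = ∑ i ∈ T, (1 / (n : ℝ)) := by
      rw [hU, measureReal_biUnion_finset hdisjI (fun i _ => measurableSet_Ioc)
        (fun i _ => measure_Ioc_lt_top.ne)]
      refine Finset.sum_congr rfl fun i _ => ?_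
      rw [hI]
      simp only
      rw [Real.volume_real_Ioc_of_le (div_le_div_of_nonneg_right (by linarith) hn0.le)]
      ring
    set η := c₀ * v / 4 / (n : ℝ) with hη
    have hQ : ∀ i ∈ T, ∃ Q₀, ∀ Q, Q₀ ≤ Q → c₀ * (1 / n) - η ≤
        ∑ q ∈ S Q, wt Q q * volume.real (E q ∩ I i) := by
      intro i hi
      have hin : (i : ℝ) + 1 ≤ n := by
        exact_mod_cast Finset.mem_range.mp (Finset.mem_filter.mp hi).1
      obtain ⟨Q₀, h⟩ := hfirst ((i : ℝ) / n) (((i : ℝ) + 1) / n) (by positivity)
        (div_lt_div_of_pos_right (by linarith) hn0) (by rw [div_le_one hn0]; exact hin) η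
        (by positivity)
      refine ⟨Q₀, fun Q hQ => le_trans (le_of_eq ?_) (h Q hQ)⟩
      ring
    choose! Q₀ hQ₀ using hQ
    set Q := max P (T.sup Q₀)
    have hlow : c₀ * v - c₀ * v / 4 ≤ ∑ q ∈ S Q, wt Q q * volume.real (E q ∩ U) := by
      simp only [hsum, Finset.mul_sum]
      rw [Finset.sum_comm]
      refine le_trans ?_ (Finset.sum_le_sum fun i hi =>
        hQ₀ i hi Q ((Finset.le_sup hi).trans (le_max_right _ _)))
      rw [Finset.sum_sub_distrib, ← Finset.mul_sum, ← hUsum, Finset.sum_const, nsmul_eq_mul, hη]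
      have hvU : v ≤ volume.real U :=
        measureReal_mono hKU (ne_top_of_le_ne_top measure_Ioc_lt_top.ne (measure_mono hU1))
      have hT' : (T.card : ℝ) ≤ n := by
        exact_mod_cast (Finset.card_filter_le _ _).trans (Finset.card_range n).le
      have h5 : (T.card : ℝ) * (c₀ * v / 4 / n) ≤ c₀ * v / 4 := by
        calc (T.card : ℝ) * (c₀ * v / 4 / n) ≤ n * (c₀ * v / 4 / n) :=
              mul_le_mul_of_nonneg_right hT' (by positivity)
          _ = c₀ * v / 4 := by field_simp
      have h6 := mul_le_mul_of_nonneg_left hvU hc₀.le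
      linarith
    have hcs := sq_sum_le (S Q) E (wt Q) hE (hw Q) U Z hUm hZm hU1 fun q hq =>
      Set.disjoint_left.mpr fun x hx hxE =>
        mem_iInter₂.mp hx.1 q ((le_max_left _ _).trans (hS Q q hq)) hxE
    have h7 : (c₀ * v / 2) ^ 2 ≤ δ * C' := by
      calc (c₀ * v / 2) ^ 2 ≤ (∑ q ∈ S Q, wt Q q * volume.real (E q ∩ U)) ^ 2 := by
            refine pow_le_pow_left₀ (by positivity) ?_ 2
            have : 0 < c₀ * v := by positivity
            linarith
        _ ≤ _ := hcs
        _ ≤ δ * C' := mul_le_mul hUv ((hC Q).trans (le_max_left _ _))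
            (Finset.sum_nonneg fun i _ => Finset.sum_nonneg fun j _ => by
              have := hw Q i; have := hw Q j; positivity) hδ0.le
    rw [hδ] at h7
    field_simp at h7
    nlinarith
  -- periodicity
  have hint : ∀ (q : ℕ) (k : ℤ) (x : ℝ), x + k ∈ E q ↔ x ∈ E q := by
    intro q k x
    induction k using Int.induction_on with
    | zero => simp
    | succ i ih =>
      rw [show x + ((((i : ℤ) + 1) : ℤ) : ℝ) = (x + ((i : ℤ) : ℝ)) + 1 by push_cast; ring, hper]
      exact ih
    | pred i ih =>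
      rw [← hper, show x + (((-(i : ℤ) - 1) : ℤ) : ℝ) + 1 = x + ((-(i : ℤ) : ℤ) : ℝ) by
        push_cast; ring]
      exact ih
  have hnull : ∀ (k : ℤ) (P : ℕ),
      volume ((fun x : ℝ => x + k) ⁻¹' ((⋂ q ≥ P, (E q)ᶜ) ∩ Ioc (0 : ℝ) 1)) = 0 := by
    intro k P
    rw [measure_preimage_add_right]; exact key P
  rw [ae_iff]
  refine measure_mono_null (t := ⋃ k : ℤ, ⋃ P : ℕ,
    (fun x : ℝ => x + k) ⁻¹' ((⋂ q ≥ P, (E q)ᶜ) ∩ Ioc (0 : ℝ) 1)) (fun x hx => ?_)
    (measure_iUnion_null fun k => measure_iUnion_null fun P => hnull k P)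
  simp only [Set.mem_setOf_eq, not_forall, not_exists, not_and] at hx
  obtain ⟨P, hP⟩ := hx
  refine mem_iUnion.mpr ⟨1 - ⌈x⌉, mem_iUnion.mpr ⟨P, ?_, ?_⟩⟩
  · exact mem_iInter₂.mpr fun q hq h => hP q hq ((hint q _ x).mp h)
  · have h1 := Int.le_ceil x
    have h2 := Int.ceil_lt_add_one x
    show x + ((1 - ⌈x⌉ : ℤ) : ℝ) ∈ Ioc (0 : ℝ) 1
    push_cast
    constructor <;> linarith

end Vale.Agent.P028
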