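import Vale.Agent.P028.Stmts
import Vale.Agent.P028.WeakLimit
import Vale.Agent.P028.Single
import Vale.Agent.P028.Arith

/-! From the second moment bound on short blocks of levels to the zero-one conclusion. -/

namespace Vale.Agent.P028

open MeasureTheory Finset

/-- Dirichlet approximations at every level. -/
theorem exists_isCls (γ : ℝ) : ∃ (A : ℕ → ℤ) (B : ℕ → ℕ), IsCls γ A B := by
  have h := fun l : ℕ =>
    Real.exists_rat_abs_sub_le_and_den_le γ (n := 2 ^ l) (by positivity : 0 < 2 ^ l)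
  choose r h1 h2 using h
  refine ⟨fun l => (r l).num, fun l => (r l).den,
    fun l => ⟨(r l).pos, h2 l, (r l).isCoprime_num_den, ?_⟩⟩
  have hden : (0 : ℝ) < ((r l).den : ℝ) := by exact_mod_cast (r l).pos
  have e : ((r l).den : ℝ) * γ - ((r l).num : ℝ)
      = ((r l).den : ℝ) * (γ - ((r l : ℚ) : ℝ)) := by
    rw [Rat.cast_def]; field_simp
  rw [e, abs_mul, abs_of_pos hden]
  calc ((r l).den : ℝ) * |γ - ((r l : ℚ) : ℝ)|
      ≤ ((r l).den : ℝ) * (1 / ((((2 ^ l : ℕ) : ℝ) + 1) * ((r l).den : ℝ))) :=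
        mul_le_mul_of_nonneg_left (h1 l) hden.le
    _ = ((2 : ℝ) ^ l + 1)⁻¹ := by push_cast; field_simp
    _ < ((2 : ℝ) ^ l)⁻¹ := inv_strictAnti₀ (by positivity) (by linarith)

/-- If `ψ` is at least one half infinitely often, almost every point is caught. -/
theorem ae_infinite_of_big (γ : ℝ) (ψ : ℕ → ℝ)
    (hbig : {q : ℕ | 1 / 2 ≤ ψ q}.Infinite) :
    ∀ᵐ x : ℝ, {q : ℕ | 0 < q ∧ ∃ a : ℤ, |(q : ℝ) * x - a - γ| < ψ q}.Infinite := by
  have hne : ∀ᵐ x : ℝ, ∀ q : ℕ, ∀ a : ℤ, 0 < q → x ≠ ((a : ℝ) + γ + 1 / 2) / q := by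
    rw [ae_all_iff]; intro q
    rw [ae_all_iff]; intro a
    filter_upwards [Measure.ae_ne volume (((a : ℝ) + γ + 1 / 2) / q)] with x hx _ using hx
  filter_upwards [hne] with x hx
  refine Set.Infinite.mono ?_ (hbig.sdiff (Set.finite_singleton 0))
  rintro q ⟨hq, hq0⟩
  have hq' : 0 < q := Nat.pos_of_ne_zero hq0
  have hqR : (0 : ℝ) < q := by exact_mod_cast hq'
  set y := (q : ℝ) * x - γ with hy
  have hy' : ∀ a : ℤ, y - a ≠ 1 / 2 := by
    intro a ha
    exact hx q a hq' (by rw [eq_div_iff hqR.ne']; simp only [hy] at ha; linarith)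
  have h1 := abs_sub_round y
  refine ⟨hq', round y, lt_of_lt_of_le ?_ hq⟩
  rw [show (q : ℝ) * x - (round y : ℤ) - γ = y - (round y : ℤ) by rw [hy]; ring]
  refine lt_of_le_of_ne h1 fun heq => ?_
  rcases abs_cases (y - (round y : ℤ)) with ⟨h, -⟩ | ⟨h, -⟩
  · exact hy' (round y) (by linarith)
  · exact hy' (round y - 1) (by push_cast; linarith)

theorem exists_level {y : ℝ} (hy : 0 < y) (hy2 : y < 1 / 2) :
    ∃ l : ℕ, 1 ≤ l ∧ rad l ≤ y ∧ y < 4 * rad l := by
  classical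
  have hex : ∃ l : ℕ, 1 ≤ l ∧ rad l ≤ y := by
    obtain ⟨n, hn⟩ := exists_pow_lt_of_lt_one hy (by norm_num : (1 / 4 : ℝ) < 1)
    refine ⟨n + 1, Nat.le_add_left 1 n, le_trans ?_ hn.le⟩
    rw [rad, ← inv_pow, ← one_div]
    exact pow_le_pow_of_le_one (by norm_num) (by norm_num) (Nat.le_succ n)
  obtain ⟨hl, hr⟩ := Nat.find_spec hex
  refine ⟨Nat.find hex, hl, hr, ?_⟩
  rcases Nat.lt_or_ge 1 (Nat.find hex) with h | h
  · have hmin := Nat.find_min hex (show Nat.find hex - 1 < Nat.find hex by omega)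
    rw [not_and, not_le] at hmin
    refine lt_of_lt_of_le (hmin (by omega)) (le_of_eq ?_)
    obtain ⟨k, hk⟩ : ∃ k, Nat.find hex = k + 1 := ⟨Nat.find hex - 1, by omega⟩
    rw [hk, Nat.add_sub_cancel, rad, rad, pow_succ, mul_inv]
    field_simp
  · rw [show Nat.find hex = 1 by omega, rad]
    norm_num
    linarith

theorem level_le_log {y : ℝ} {l : ℕ} (hy : 0 < y) (hl : 1 ≤ l) (h : y < 4 * rad l) :
    (l : ℝ) / 2 ≤ Real.log (3 + 1 / y) := by
  rcases Nat.lt_or_ge 1 l with h2 | h2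
  · have hlt : (4 : ℝ) ^ (l - 1) ≤ 3 + 1 / y := by
      obtain ⟨k, rfl⟩ : ∃ k, l = k + 1 := ⟨l - 1, by omega⟩
      rw [Nat.add_sub_cancel]
      rw [rad, pow_succ, mul_inv] at h
      have h4 : y < ((4 : ℝ) ^ k)⁻¹ := by linarith
      have := (lt_inv_comm₀ hy (by positivity)).1 h4
      rw [one_div]; linarith
    have hlog := Real.log_le_log (by positivity) hlt
    rw [Real.log_pow] at hlog
    have h4 : (1 : ℝ) ≤ Real.log 4 := by
      rw [Real.le_log_iff_exp_le (by norm_num)]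
      exact Real.exp_one_lt_d9.le.trans (by norm_num)
    have hc : ((l - 1 : ℕ) : ℝ) = (l : ℝ) - 1 := by rw [Nat.cast_sub hl]; simp
    have hl2 : (2 : ℝ) ≤ l := by exact_mod_cast h2
    rw [hc] at hlog
    nlinarith
  · obtain rfl : l = 1 := by omega
    have h3 : (1 : ℝ) ≤ Real.log (3 + 1 / y) := by
      rw [Real.le_log_iff_exp_le (by positivity)]
      have : 0 ≤ 1 / y := by positivity
      linarith [Real.exp_one_lt_d9]
    push_cast; linarith

/-- Some short block of levels carries a large mass, beyond any bound. -/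
theorem exists_block {ψ : ℕ → ℝ} {ε ν : ℝ} (hψ : ∀ q, 0 ≤ ψ q) (hε : 0 < ε) (hν : 0 < ν)
    (hdiv : ¬ Summable (fun q : ℕ => (Nat.totient q : ℝ) * ψ q /
      ((q : ℝ) * (Real.log (3 + 1 / ψ q)) ^ ε)))
    (hsmall : {q : ℕ | 1 / 2 ≤ ψ q}.Finite) (lv : ℕ → ℕ)
    (hlv : ∀ q, 0 < ψ q → ψ q < 1 / 2 → 1 ≤ lv q ∧ rad (lv q) ≤ ψ q ∧ ψ q < 4 * rad (lv q))
    (Q : ℕ) :
    ∃ (S : Finset ℕ) (l₀ : ℕ), 1 ≤ l₀ ∧
      (∀ q ∈ S, Q ≤ q ∧ 0 < q ∧ 0 < ψ q ∧ ψ q < 1 / 2 ∧ l₀ ≤ lv q ∧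
        (lv q : ℝ) ≤ (1 + ν) * l₀) ∧
      1 ≤ ∑ q ∈ S, mass (lv q) q ∧ (l₀ : ℝ) ^ (ε / 2) ≤ ∑ q ∈ S, mass (lv q) q := by
  classical
  by_contra hnot
  apply hdiv
  set T : ℕ → Prop := fun q => Q ≤ q ∧ 0 < q ∧ 0 < ψ q ∧ ψ q < 1 / 2 with hT
  set f : ℕ → ℝ := fun q => if T q then mass (lv q) q / (lv q : ℝ) ^ ε else 0 with hf
  have hmass : ∀ l q, 0 ≤ mass l q := fun l q =>
    mul_nonneg (rad_pos l).le (div_nonneg (Nat.cast_nonneg _) (Nat.cast_nonneg _))
  have hν1 : (1 : ℝ) < 1 + ν := by linarith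
  set r : ℝ := (1 + ν) ^ (-(ε / 2)) with hr
  have hr0 : 0 ≤ r := by positivity
  have hr1 : r < 1 := Real.rpow_lt_one_of_one_lt_of_neg hν1 (by linarith)
  have hgrp : ∀ q, T q → ∃ g : ℕ, (1 + ν) ^ g ≤ (lv q : ℝ) ∧ (lv q : ℝ) < (1 + ν) ^ (g + 1) :=
    fun q hq => exists_nat_pow_near (by exact_mod_cast (hlv q hq.2.2.1 hq.2.2.2).1) hν1
  choose! gr hgr using hgrp
  have hpartial : ∀ u : Finset ℕ, ∑ q ∈ u, f q ≤ 1 / (1 - r) := by
    intro u
    set U := u.filter T with hU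
    have hsum : ∑ q ∈ u, f q = ∑ g ∈ U.image gr, ∑ q ∈ U.filter (fun q => gr q = g),
        mass (lv q) q / (lv q : ℝ) ^ ε := by
      rw [sum_fiberwise_of_maps_to (fun q hq => mem_image_of_mem _ hq)]
      simp only [hf, hU, sum_filter]
    rw [hsum]
    calc ∑ g ∈ U.image gr, ∑ q ∈ U.filter (fun q => gr q = g), mass (lv q) q / (lv q : ℝ) ^ ε
        ≤ ∑ g ∈ U.image gr, r ^ g := by
          refine sum_le_sum fun g hg => ?_
          obtain ⟨q₁, hq₁, hq₁g⟩ := mem_image.1 hg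
          set G := U.filter (fun q => gr q = g) with hG
          obtain ⟨q₀, hq₀, hmin⟩ := G.exists_min_image lv ⟨q₁, mem_filter.2 ⟨hq₁, hq₁g⟩⟩
          have hTG : ∀ q ∈ G, T q ∧ gr q = g := fun q hq =>
            ⟨(mem_filter.1 (mem_filter.1 hq).1).2, (mem_filter.1 hq).2⟩
          obtain ⟨hT0, hg0⟩ := hTG q₀ hq₀
          have hl0 : 1 ≤ lv q₀ := (hlv q₀ hT0.2.2.1 hT0.2.2.2).1
          have hlow : (1 + ν) ^ g ≤ (lv q₀ : ℝ) := by rw [← hg0]; exact (hgr q₀ hT0).1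
          have hl0R : (1 : ℝ) ≤ (lv q₀ : ℝ) := by exact_mod_cast hl0
          set M := ∑ q ∈ G, mass (lv q) q with hM
          have hM0 : M ≤ (lv q₀ : ℝ) ^ (ε / 2) := by
            by_contra hbig
            rw [not_le] at hbig
            refine hnot ⟨G, lv q₀, hl0, fun q hq => ?_, ?_, hbig.le⟩
            · obtain ⟨hq', hqg⟩ := hTG q hq
              refine ⟨hq'.1, hq'.2.1, hq'.2.2.1, hq'.2.2.2, hmin q hq, ?_⟩
              calc (lv q : ℝ) ≤ (1 + ν) ^ (g + 1) := by rw [← hqg]; exact (hgr q hq').2.le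
                _ = (1 + ν) * (1 + ν) ^ g := by ring
                _ ≤ (1 + ν) * lv q₀ := mul_le_mul_of_nonneg_left hlow (by linarith)
            · exact le_trans (Real.one_le_rpow hl0R (by linarith)) hbig.le
          have hpos : (0 : ℝ) < (lv q₀ : ℝ) := by linarith
          calc ∑ q ∈ G, mass (lv q) q / (lv q : ℝ) ^ ε
              ≤ ∑ q ∈ G, mass (lv q) q / (lv q₀ : ℝ) ^ ε := by
                refine sum_le_sum fun q hq => ?_
                exact div_le_div_of_nonneg_left (hmass _ _) (by positivity)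
                  (Real.rpow_le_rpow hpos.le (by exact_mod_cast hmin q hq) hε.le)
            _ = M / (lv q₀ : ℝ) ^ ε := by rw [sum_div]
            _ ≤ (lv q₀ : ℝ) ^ (ε / 2) / (lv q₀ : ℝ) ^ ε :=
                div_le_div_of_nonneg_right hM0 (by positivity)
            _ = (lv q₀ : ℝ) ^ (-(ε / 2)) := by rw [← Real.rpow_sub hpos]; ring_nf
            _ ≤ ((1 + ν) ^ g) ^ (-(ε / 2)) :=
                Real.rpow_le_rpow_of_nonpos (by positivity) hlow (by linarith)
            _ = r ^ g := by rw [hr, ← Real.rpow_pow_comm (by linarith)]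
      _ ≤ 1 / (1 - r) := by
          rw [one_div, ← tsum_geometric_of_lt_one hr0 hr1]
          exact (summable_geometric_of_lt_one hr0 hr1).sum_le_tsum _ fun _ _ => by positivity
  have hf0 : ∀ q, 0 ≤ f q := fun q => by
    simp only [hf]; split_ifs
    · exact div_nonneg (hmass _ _) (by positivity)
    · exact le_rfl
  have hfs : Summable f := summable_of_sum_le hf0 hpartial
  refine Summable.of_norm_bounded_eventually (g := fun q => 4 * (2 : ℝ) ^ ε * f q)
    (hfs.mul_left _) ?_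
  rw [Filter.eventually_cofinite]
  refine ((Set.finite_Iio (max Q 1)).union hsmall).subset fun q hq => ?_
  by_contra hq'
  simp only [Set.mem_union, Set.mem_Iio, Set.mem_ofPred_eq, not_or, not_lt, not_le] at hq'
  obtain ⟨hq1, hq2⟩ := hq'
  apply hq
  simp only [max_le_iff] at hq1
  rcases eq_or_lt_of_le (hψ q) with h0 | h0
  · rw [← h0, mul_zero, zero_div, norm_zero]
    exact mul_nonneg (by positivity) (hf0 q)
  · have hTq : T q := ⟨hq1.1, hq1.2, h0, hq2⟩
    obtain ⟨hl, hlo, hhi⟩ := hlv q h0 hq2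
    have hlog := level_le_log h0 hl hhi
    have hlR : (0 : ℝ) < lv q := by exact_mod_cast hl
    have hlogp : 0 < Real.log (3 + 1 / ψ q) := by linarith
    have hqR : (0 : ℝ) < q := by exact_mod_cast hq1.2
    have hfq : f q = mass (lv q) q / (lv q : ℝ) ^ ε := if_pos hTq
    rw [Real.norm_of_nonneg (by positivity), hfq]
    calc (Nat.totient q : ℝ) * ψ q / ((q : ℝ) * Real.log (3 + 1 / ψ q) ^ ε)
        ≤ (Nat.totient q : ℝ) * (4 * rad (lv q)) / ((q : ℝ) * ((lv q : ℝ) / 2) ^ ε) := by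
          refine div_le_div₀ ?_ ?_ ?_ ?_
          · exact mul_nonneg (Nat.cast_nonneg _) (by linarith [rad_pos (lv q)])
          · exact mul_le_mul_of_nonneg_left hhi.le (Nat.cast_nonneg _)
          · positivity
          · exact mul_le_mul_of_nonneg_left (Real.rpow_le_rpow (by positivity) hlog hε.le) hqR.le
      _ = 4 * (2 : ℝ) ^ ε * (mass (lv q) q / (lv q : ℝ) ^ ε) := by
          rw [Real.div_rpow hlR.le (by norm_num), mass, phiR]
          field_simp

theorem weakIDS_of_main : MainStmt → WeakIDSStmt := by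
  classical
  intro hmain γ ψ ε hψ hε hdiv
  by_cases hbig : {q : ℕ | 1 / 2 ≤ ψ q}.Infinite
  · exact ae_infinite_of_big γ ψ hbig
  rw [Set.not_infinite] at hbig
  obtain ⟨A, B, hcls⟩ := exists_isCls γ
  set lv : ℕ → ℕ := fun q =>
    if h : 0 < ψ q ∧ ψ q < 1 / 2 then (exists_level h.1 h.2).choose else 1 with hlvdef
  have hlv : ∀ q, 0 < ψ q → ψ q < 1 / 2 →
      1 ≤ lv q ∧ rad (lv q) ≤ ψ q ∧ ψ q < 4 * rad (lv q) := by
    intro q h1 h2
    simp only [hlvdef]; rw [dif_pos ⟨h1, h2⟩]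
    exact (exists_level h1 h2).choose_spec
  obtain ⟨ν, hν, C, hC⟩ := hmain (ε / 2) (by linarith)
  choose S l₀ hl₀ hS hM1 hM using
    fun Q => exists_block hψ hε hν hdiv hbig lv hlv Q
  set E : ℕ → Set ℝ := fun q =>
    if 0 < q ∧ 0 < ψ q ∧ ψ q < 1 / 2 then arcs γ A B (lv q) q else ∅ with hE
  set wt : ℕ → ℕ → ℝ := fun Q q => cwt γ A B (lv q) q / ∑ r ∈ S Q, mass (lv r) r with hwt
  have hES : ∀ Q, ∀ q ∈ S Q, E q = arcs γ A B (lv q) q := fun Q q hq =>
    if_pos ⟨(hS Q q hq).2.1, (hS Q q hq).2.2.1, (hS Q q hq).2.2.2.1⟩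
  have hΨ : ∀ Q, 0 < ∑ r ∈ S Q, mass (lv r) r := fun Q => by linarith [hM1 Q]
  have hEm : ∀ q, MeasurableSet (E q) := fun q => by
    simp only [hE]; split_ifs with h
    · exact measurableSet_arcs h.1
    · exact MeasurableSet.empty
  have hEp : ∀ q x, x + 1 ∈ E q ↔ x ∈ E q := fun q x => by
    simp only [hE]; split_ifs
    · exact arcs_periodic _ _ _
    · simp
  have hae := weakLimit E hEm hEp S wt (fun Q q hq => (hS Q q hq).1)
    (fun Q q => div_nonneg (cwt_nonneg _ _) (hΨ Q).le) C 2 two_pos ?_ ?_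
  · filter_upwards [hae] with x hx
    refine Set.infinite_of_forall_exists_gt fun Q => ?_
    obtain ⟨q, hq, hxq⟩ := hx (Q + 1)
    refine ⟨q, ?_, by omega⟩
    simp only [hE] at hxq
    by_cases hcond : 0 < q ∧ 0 < ψ q ∧ ψ q < 1 / 2
    · rw [if_pos hcond] at hxq
      obtain ⟨a, -, ha⟩ := hxq
      exact ⟨hcond.1, a, lt_of_lt_of_le ha (hlv q hcond.2.1 hcond.2.2).2.1⟩
    · rw [if_neg hcond] at hxq
      exact absurd hxq (Set.notMem_empty x)
  · intro Q
    have h := hC γ A B hcls lv (S Q) (l₀ Q) (hl₀ Q)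
      (fun q hq => ⟨(hS Q q hq).2.1, (hS Q q hq).2.2.2.2⟩) (hM1 Q) (hM Q)
    set Ψ := ∑ r ∈ S Q, mass (lv r) r with hΨdef
    calc ∑ q ∈ S Q, ∑ r ∈ S Q, wt Q q * wt Q r * volume.real (E q ∩ E r ∩ Set.Ioc 0 1)
        = (∑ q ∈ S Q, ∑ r ∈ S Q, cwt γ A B (lv q) q * cwt γ A B (lv r) r *
            volume.real (arcs γ A B (lv q) q ∩ arcs γ A B (lv r) r ∩ Set.Ioc 0 1)) / Ψ ^ 2 := by
          simp only [sum_div]
          refine sum_congr rfl fun q hq => sum_congr rfl fun r hr => ?_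
          rw [hES Q q hq, hES Q r hr]
          simp only [hwt, ← hΨdef]
          ring
      _ ≤ C := by rw [div_le_iff₀ (pow_pos (hΨ Q) 2)]; exact h
  · intro u v hu huv hv η hη
    obtain ⟨Q₀, hQ₀⟩ := phiStmt.2 (η / 2) (by linarith)
    refine ⟨Q₀, fun Q hQ => ?_⟩
    set Ψ := ∑ r ∈ S Q, mass (lv r) r with hΨdef
    calc 2 * (v - u) - η = ∑ q ∈ S Q, mass (lv q) q * (2 * (v - u) - η) / Ψ := by
          rw [← sum_div, ← sum_mul, ← hΨdef]
          rw [mul_div_cancel_left₀ _ (hΨ Q).ne']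
      _ ≤ ∑ q ∈ S Q, wt Q q * volume.real (E q ∩ Set.Ioc u v) := by
          refine sum_le_sum fun q hq => ?_
          obtain ⟨hqQ, hq0, h1, h2, -⟩ := hS Q q hq
          obtain ⟨hl, -, -⟩ := hlv q h1 h2
          have hs := (single γ A B hcls (lv q) q hl hq0).2.2.2 u v hu huv.le hv
          have hφ := hQ₀ q (by omega)
          have hqR : (0 : ℝ) < q := by exact_mod_cast hq0
          have herr : 2 * rad (lv q) * ((2 : ℝ) ^ q.primeFactors.card + 2) / q ≤
              η * mass (lv q) q := by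
            calc 2 * rad (lv q) * ((2 : ℝ) ^ q.primeFactors.card + 2) / q
                ≤ 2 * rad (lv q) * (η / 2 * Nat.totient q) / q :=
                  div_le_div_of_nonneg_right
                    (mul_le_mul_of_nonneg_left hφ (by linarith [rad_pos (lv q)])) hqR.le
              _ = η * mass (lv q) q := by rw [mass, phiR]; ring
          rw [hES Q q hq]
          simp only [hwt, ← hΨdef]
          rw [div_mul_eq_mul_div]
          refine div_le_div_of_nonneg_right ?_ (hΨ Q).le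
          linarith

end Vale.Agent.P028
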