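import Vale.Agent.P028.MainPoint
import Vale.Agent.P028.PairsScale
import Vale.Agent.P028.Select
import Vale.Agent.P028.MainLevels

/-! The second moment on a short block of levels, from the bound of one pair and of one level pair. -/

namespace Vale.Agent.P028

open MeasureTheory Finset Real
open scoped Classical

/-- Two arcs, the coarser level first. -/
theorem pair_term_le {γ : ℝ} {A : ℕ → ℤ} {B : ℕ → ℕ} (h : IsCls γ A B) {l L q r : ℕ} (hl : 1 ≤ l)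
    (hlL : l ≤ L) (hq : 0 < q) (hr : 0 < r) (hne : q ≠ r) {X : ℝ}
    (hX : rhoSum γ A B l L q r / dgap l L q r ≤ X) :
    cwt γ A B l q * cwt γ A B L r *
        volume.real (arcs γ A B l q ∩ arcs γ A B L r ∩ Set.Ioc 0 1) ≤
      2 * (mass l q * mass L r * X) := by
  refine (overlap γ A B h l L q r hl (hl.trans hlL) hq hr hne).trans ?_
  rw [← rhoSum]
  refine le_trans (le_of_eq ?_)
    (mul_le_mul_of_nonneg_left (mul_le_mul_of_nonneg_left hX
      (mul_nonneg (mass_nonneg l q) (mass_nonneg L r))) zero_le_two)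
  ring

/-- The middle range of gaps, summed over all pairs. -/
theorem mid_sum_le {θ η η' : ℝ} (hθ : 1 / 2 < θ) (hθ' : θ ≤ 3 / 4) (K : ℕ) (hη : 0 ≤ η) :
    ∃ C : ℝ, 0 ≤ C ∧ ∀ (lv : ℕ → ℕ) (S : Finset ℕ), (∀ q ∈ S, 0 < q) → ∀ l₀ : ℕ, 1 ≤ l₀ →
      ∑ q ∈ S, ∑ r ∈ S, mass (lv q) q * mass (lv r) r * TMid η η' K l₀ (dgap (lv q) (lv r) q r) ≤
        C * ((2 * (l₀ : ℝ)) ^ η + (2 * (l₀ : ℝ)) ^ ((K : ℝ) * (2 * θ - 1))) *
          (2 * (l₀ : ℝ)) ^ η' * (∑ q ∈ S, mass (lv q) q) ^ (2 * θ) := by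
  obtain ⟨Cs, hCs, hscale⟩ := pairsScale θ hθ hθ'
  set e := 2 * θ - 1 with he
  have he0 : 0 < e := by rw [he]; linarith
  set ρ := ((2 : ℝ) ^ e)⁻¹ with hρ
  have hρ1 : ρ < 1 := inv_lt_one_of_one_lt₀ (one_lt_rpow one_lt_two he0)
  have hρ0 : 0 < ρ := by positivity
  refine ⟨Cs + 2 * Cs * ((8 : ℝ) ^ e * (1 - ρ)⁻¹), add_nonneg hCs (mul_nonneg (by linarith)
    (mul_nonneg (by positivity) (inv_nonneg.2 (by linarith)))), fun lv S hS l₀ hl₀ => ?_⟩
  have hl1 : (1 : ℝ) ≤ 2 * (l₀ : ℝ) := by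
    have : (1 : ℝ) ≤ l₀ := by exact_mod_cast hl₀
    linarith
  set u := 2 * (l₀ : ℝ) with hu
  set x := (8 * u ^ K)⁻¹ with hx
  have hx0 : 0 < x := by positivity
  set R := u ^ η with hR
  have hR1 : 1 ≤ R := one_le_rpow hl1 hη
  have hQ : 0 ≤ u ^ η' := rpow_nonneg (by linarith) _
  obtain ⟨I, hI⟩ := pow_unbounded_of_one_lt (2 * R / x) one_lt_two
  rw [div_lt_iff₀ hx0] at hI
  set M := ∑ q ∈ S, mass (lv q) q with hM
  have hM0 : 0 ≤ M := Finset.sum_nonneg fun q _ => mass_nonneg _ _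
  set f : ℝ → ℕ → ℕ → ℝ := fun D q r =>
    if dgap (lv q) (lv r) q r ≤ D then mass (lv q) q * mass (lv r) r else 0 with hf
  have hf0 : ∀ D q r, 0 ≤ f D q r := fun D q r => by
    simp only [f]; split
    · exact mul_nonneg (mass_nonneg _ _) (mass_nonneg _ _)
    · exact le_rfl
  have hfD : ∀ D, 0 < D → ∑ q ∈ S, ∑ r ∈ S, f D q r ≤ Cs * D ^ (2 - 2 * θ) * M ^ (2 * θ) :=
    fun D hD => hscale lv S hS D hD
  have hpt : ∀ q ∈ S, ∀ r ∈ S,
      mass (lv q) q * mass (lv r) r * TMid η η' K l₀ (dgap (lv q) (lv r) q r) ≤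
        u ^ η' * (f R q r + ∑ i ∈ range I, 2 / (2 ^ i * x) * f (2 ^ i * x) q r) := by
    intro q _ r _
    have hsum0 : 0 ≤ ∑ i ∈ range I, 2 / (2 ^ i * x) * f (2 ^ i * x) q r :=
      Finset.sum_nonneg fun i _ => mul_nonneg (by positivity) (hf0 _ _ _)
    unfold TMid
    rw [← hu]
    split_ifs with hD
    · obtain ⟨hD1, hD2⟩ := hD
      rw [← hx] at hD1
      rw [← hR] at hD2
      set D := dgap (lv q) (lv r) q r with hDdef
      have hD0 : 0 < D := lt_of_lt_of_le hx0 hD1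
      obtain ⟨i, hi1, hi2⟩ := exists_dyadic hx0 hD1
      have hiI : i ∈ range I := by
        rw [Finset.mem_range]
        by_contra hcon
        have : (2 : ℝ) ^ I * x ≤ 2 ^ i * x :=
          mul_le_mul_of_nonneg_right (pow_le_pow_right₀ one_le_two (not_lt.1 hcon)) hx0.le
        linarith
      have h1 : f R q r = mass (lv q) q * mass (lv r) r := if_pos hD2
      have h2 : f (2 ^ i * x) q r = mass (lv q) q * mass (lv r) r := if_pos hi1
      have h3 := Finset.single_le_sum (f := fun j : ℕ => 2 / ((2 : ℝ) ^ j * x) * f (2 ^ j * x) q r)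
        (fun j _ => mul_nonneg (by positivity) (hf0 _ q r)) hiI
      have h4 : 1 / D ≤ 2 / (2 ^ i * x) := by
        rw [div_le_div_iff₀ hD0 (by positivity)]; linarith
      have hmm : 0 ≤ mass (lv q) q * mass (lv r) r := mul_nonneg (mass_nonneg _ _) (mass_nonneg _ _)
      rw [h2] at h3
      calc mass (lv q) q * mass (lv r) r * ((1 + 1 / D) * u ^ η')
          = u ^ η' * (mass (lv q) q * mass (lv r) r + 1 / D * (mass (lv q) q * mass (lv r) r)) := by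
            ring
        _ ≤ u ^ η' * (mass (lv q) q * mass (lv r) r +
              2 / (2 ^ i * x) * (mass (lv q) q * mass (lv r) r)) :=
            mul_le_mul_of_nonneg_left (add_le_add le_rfl (mul_le_mul_of_nonneg_right h4 hmm)) hQ
        _ ≤ _ := by
            rw [h1]
            exact mul_le_mul_of_nonneg_left (add_le_add le_rfl h3) hQ
    · rw [mul_zero]; exact mul_nonneg hQ (add_nonneg (hf0 _ _ _) hsum0)
  refine (Finset.sum_le_sum fun q hq => Finset.sum_le_sum fun r hr => hpt q hq r hr).trans ?_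
  have hdec : ∑ q ∈ S, ∑ r ∈ S,
      u ^ η' * (f R q r + ∑ i ∈ range I, 2 / (2 ^ i * x) * f (2 ^ i * x) q r) =
      u ^ η' * ((∑ q ∈ S, ∑ r ∈ S, f R q r) +
        ∑ i ∈ range I, 2 / (2 ^ i * x) * ∑ q ∈ S, ∑ r ∈ S, f (2 ^ i * x) q r) := by
    simp only [← Finset.mul_sum, Finset.sum_add_distrib]
    congr 2
    simp only [Finset.mul_sum]
    rw [Finset.sum_comm (s := range I)]
    exact Finset.sum_congr rfl fun q _ => Finset.sum_comm
  rw [hdec]
  have hMθ : 0 ≤ M ^ (2 * θ) := rpow_nonneg hM0 _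
  have hA : ∑ q ∈ S, ∑ r ∈ S, f R q r ≤ Cs * R * M ^ (2 * θ) := by
    refine (hfD R (by linarith)).trans ?_
    refine mul_le_mul_of_nonneg_right (mul_le_mul_of_nonneg_left ?_ hCs) hMθ
    exact (rpow_le_rpow_of_exponent_le hR1 (by linarith : 2 - 2 * θ ≤ 1)).trans_eq (rpow_one R)
  have hB : ∑ i ∈ range I, 2 / (2 ^ i * x) * ∑ q ∈ S, ∑ r ∈ S, f (2 ^ i * x) q r ≤
      2 * Cs * ((8 : ℝ) ^ e * (1 - ρ)⁻¹) * u ^ ((K : ℝ) * e) * M ^ (2 * θ) := by
    have hterm : ∀ i ∈ range I, 2 / (2 ^ i * x) * ∑ q ∈ S, ∑ r ∈ S, f (2 ^ i * x) q r ≤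
        2 * Cs * ((8 : ℝ) ^ e * u ^ ((K : ℝ) * e)) * M ^ (2 * θ) * ρ ^ i := by
      intro i _
      have hxi : 0 < (2 : ℝ) ^ i * x := by positivity
      refine (mul_le_mul_of_nonneg_left (hfD _ hxi) (by positivity)).trans_eq ?_
      have e1 : ((2 : ℝ) ^ i * x) ^ (2 - 2 * θ) =
          (2 : ℝ) ^ i * x * ((8 : ℝ) ^ e * u ^ ((K : ℝ) * e) * ρ ^ i) := by
        have h1 : ((2 : ℝ) ^ i) ^ (-e) = ρ ^ i := by
          rw [hρ, ← rpow_neg zero_le_two, ← rpow_natCast ((2 : ℝ) ^ (-e)) i, ← rpow_mul zero_le_two,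
            ← rpow_natCast (2 : ℝ) i, ← rpow_mul zero_le_two, mul_comm]
        have h2 : x ^ (-e) = (8 : ℝ) ^ e * u ^ ((K : ℝ) * e) := by
          rw [hx, inv_rpow (by positivity), ← rpow_neg (by positivity), neg_neg,
            mul_rpow (by norm_num) (by positivity), ← rpow_natCast u K, ← rpow_mul (by linarith)]
        rw [show (2 : ℝ) - 2 * θ = 1 + -e by rw [he]; ring, rpow_add hxi, rpow_one,
          mul_rpow (by positivity) hx0.le, h1, h2]
        ring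
      rw [e1]
      field_simp
    refine (Finset.sum_le_sum hterm).trans ?_
    rw [← Finset.mul_sum]
    have hgeo : ∑ i ∈ range I, ρ ^ i ≤ (1 - ρ)⁻¹ := by
      rw [range_eq_Ico]
      refine (geom_sum_Ico_le_of_lt_one hρ0.le hρ1).trans_eq ?_
      rw [pow_zero, one_div]
    refine (mul_le_mul_of_nonneg_left hgeo (by positivity)).trans_eq ?_
    ring
  refine (mul_le_mul_of_nonneg_left (add_le_add hA hB) hQ).trans ?_
  have hz1 : 0 ≤ Cs * u ^ ((K : ℝ) * e) := mul_nonneg hCs (rpow_nonneg (by linarith) _)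
  have hz2 : 0 ≤ 2 * Cs * ((8 : ℝ) ^ e * (1 - ρ)⁻¹) * R :=
    mul_nonneg (mul_nonneg (by linarith) (mul_nonneg (by positivity) (inv_nonneg.2 (by linarith))))
      (by linarith)
  have hz := mul_nonneg (add_nonneg hz1 hz2) (mul_nonneg hQ hMθ)
  linarith

/-- The event terms, summed over all pairs of levels of the block. -/
theorem event_pairs_le {N K : ℕ} {η C : ℝ} (hC : 0 ≤ C)
    (hlev : ∀ (γ : ℝ) (A : ℕ → ℤ) (B : ℕ → ℕ), IsCls γ A B →
      ∀ (V W : Finset ℕ), (∀ v ∈ V, 0 < v) → (∀ w ∈ W, 0 < w) →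
        ∀ (M : ℝ), 1 ≤ M → ∀ l L J : ℕ, 1 ≤ l → l ≤ L → 4 * L ≤ 5 * l →
          (99999 / 100000 : ℝ) * L ≤ l →
          ∑ v ∈ V, mass l v ≤ M → ∑ w ∈ W, mass L w ≤ M →
          pairW l L V W (TAll η N K J γ A B l L) ≤ C * ((L : ℝ) ^ 2)⁻¹ * M ^ 2)
    {γ : ℝ} {A : ℕ → ℤ} {B : ℕ → ℕ} (h : IsCls γ A B) (lv : ℕ → ℕ) (S : Finset ℕ) {l₀ : ℕ}
    (hl₀ : 1 ≤ l₀) (hS : ∀ q ∈ S, 0 < q ∧ l₀ ≤ lv q ∧ (lv q : ℝ) ≤ (1 + 1 / 200000) * l₀)
    (hΨ : 1 ≤ ∑ q ∈ S, mass (lv q) q) (J : ℕ) :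
    ∑ q ∈ S, ∑ r ∈ S, (if lv q ≤ lv r then mass (lv q) q * mass (lv r) r *
        TAll η N K J γ A B (lv q) (lv r) (red q r) (red r q) else 0) ≤
      4 * C * (∑ q ∈ S, mass (lv q) q) ^ 2 := by
  set M := ∑ q ∈ S, mass (lv q) q with hM
  set Iv := S.image lv with hIv
  set G : ℕ → ℕ → ℝ := fun q r => if lv q ≤ lv r then mass (lv q) q * mass (lv r) r *
      TAll η N K J γ A B (lv q) (lv r) (red q r) (red r q) else 0 with hG
  change ∑ q ∈ S, ∑ r ∈ S, G q r ≤ _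
  have hdec : ∑ q ∈ S, ∑ r ∈ S, G q r = ∑ l ∈ Iv, ∑ L ∈ Iv,
      ∑ q ∈ S.filter (fun q => lv q = l), ∑ r ∈ S.filter (fun r => lv r = L), G q r := by
    rw [← Finset.sum_fiberwise_of_maps_to (t := Iv) (g := lv) (fun q hq => Finset.mem_image_of_mem _ hq)]
    refine Finset.sum_congr rfl fun l _ => ?_
    rw [Finset.sum_comm (s := Iv)]
    refine Finset.sum_congr rfl fun v _ => ?_
    rw [← Finset.sum_fiberwise_of_maps_to (t := Iv) (g := lv) (fun q hq => Finset.mem_image_of_mem _ hq)]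
  rw [hdec]
  have hl1 : (1 : ℝ) ≤ l₀ := by exact_mod_cast hl₀
  have hmass : ∀ l, ∑ q ∈ S.filter (fun q => lv q = l), mass l q ≤ M := fun l => by
    rw [Finset.sum_congr rfl (g := fun q => mass (lv q) q)
      (fun q hq => by rw [(Finset.mem_filter.1 hq).2])]
    exact Finset.sum_le_sum_of_subset_of_nonneg (Finset.filter_subset _ _)
      fun q _ _ => mass_nonneg _ _
  have hblock : ∀ l ∈ Iv, ∀ L ∈ Iv,
      ∑ q ∈ S.filter (fun q => lv q = l), ∑ r ∈ S.filter (fun r => lv r = L), G q r ≤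
        C * ((l₀ : ℝ) ^ 2)⁻¹ * M ^ 2 := by
    intro l hl L hL
    obtain ⟨q₁, hq₁, rfl⟩ := Finset.mem_image.1 hl
    obtain ⟨r₁, hr₁, rfl⟩ := Finset.mem_image.1 hL
    obtain ⟨-, hlo, hhi⟩ := hS q₁ hq₁
    obtain ⟨-, hLo, hLhi⟩ := hS r₁ hr₁
    by_cases hle : lv q₁ ≤ lv r₁
    · have hlR : (l₀ : ℝ) ≤ lv q₁ := by exact_mod_cast hlo
      have hLR : (l₀ : ℝ) ≤ lv r₁ := by exact_mod_cast hLo
      have h45 : 4 * lv r₁ ≤ 5 * lv q₁ := by
        have : (4 : ℝ) * lv r₁ ≤ 5 * lv q₁ := by linarith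
        exact_mod_cast this
      refine le_trans ?_ ((hlev γ A B h (S.filter fun q => lv q = lv q₁)
        (S.filter fun r => lv r = lv r₁) (fun v hv => (hS v (Finset.mem_filter.1 hv).1).1)
        (fun w hw => (hS w (Finset.mem_filter.1 hw).1).1) M hΨ (lv q₁) (lv r₁) J (hl₀.trans hlo)
        hle h45 (by linarith) (hmass _) (hmass _)).trans ?_)
      · refine le_of_eq ?_
        unfold pairW
        refine Finset.sum_congr rfl fun q hq => Finset.sum_congr rfl fun r hr => ?_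
        have e1 := (Finset.mem_filter.1 hq).2
        have e2 := (Finset.mem_filter.1 hr).2
        simp only [G, e1, e2, if_pos hle]
      · refine mul_le_mul_of_nonneg_right (mul_le_mul_of_nonneg_left ?_ hC) (sq_nonneg M)
        exact inv_anti₀ (by positivity) (pow_le_pow_left₀ (by positivity) hLR 2)
    · refine le_trans (le_of_eq ?_) (mul_nonneg (mul_nonneg hC (by positivity)) (sq_nonneg M))
      refine Finset.sum_eq_zero fun q hq => Finset.sum_eq_zero fun r hr => ?_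
      simp only [G]
      rw [if_neg]
      rw [(Finset.mem_filter.1 hq).2, (Finset.mem_filter.1 hr).2]; exact hle
  refine (Finset.sum_le_sum fun l hl => Finset.sum_le_sum fun L hL => hblock l hl L hL).trans ?_
  simp only [Finset.sum_const, nsmul_eq_mul]
  have hcard : (Iv.card : ℝ) ≤ 2 * l₀ := by
    have hsub : Iv ⊆ Finset.Icc l₀ (2 * l₀) := by
      intro l hl
      obtain ⟨q, hq, rfl⟩ := Finset.mem_image.1 hl
      obtain ⟨-, hlo, hhi⟩ := hS q hq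
      have : (lv q : ℝ) ≤ 2 * l₀ := by linarith
      exact Finset.mem_Icc.2 ⟨hlo, by exact_mod_cast this⟩
    have hc := Finset.card_le_card hsub
    rw [Nat.card_Icc] at hc
    have : Iv.card ≤ 2 * l₀ := by omega
    exact_mod_cast this
  have hterm : 0 ≤ C * ((l₀ : ℝ) ^ 2)⁻¹ * M ^ 2 := by positivity
  refine (mul_le_mul hcard (mul_le_mul_of_nonneg_right hcard hterm) (by positivity)
    (by positivity)).trans_eq ?_
  field_simp
  ring

theorem main_of_levels (hlev : LevelBoundStmt) : MainStmt := by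
  intro ε hε
  obtain ⟨N, hpoint⟩ := point_bound
  obtain ⟨K, hK, hlevN⟩ := hlev N
  set ε₀ := min ε (1 / 4) with hε₀
  have hε₀0 : 0 < ε₀ := lt_min hε (by norm_num)
  have hε₀1 : ε₀ ≤ 1 / 4 := min_le_right _ _
  have hε₀ε : ε₀ ≤ ε := min_le_left _ _
  set η := ε₀ / 16 with hη
  have hη0 : 0 < η := by positivity
  have hK0 : (1 : ℝ) ≤ K := by exact_mod_cast hK
  set θ := 1 / 2 + ε₀ / (16 * K) with hθdef
  have hδ : 0 < ε₀ / (16 * K) := by positivity
  have hδ4 : ε₀ / (16 * K) ≤ 1 / 4 := by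
    rw [div_le_iff₀ (by positivity)]; nlinarith
  obtain ⟨Cl, hCl, hlev'⟩ := hlevN η hη0
  obtain ⟨Cp, hCp, hpt⟩ := hpoint K η η hK hη0 (by rw [hη]; linarith) hη0
  obtain ⟨Cm, hCm, hmid⟩ :=
    mid_sum_le (θ := θ) (η := η) (η' := η) (by linarith) (by linarith) K hη0.le
  refine ⟨1 / 200000, by norm_num, 2 + 4 * Cp * (1 + 4 * Cm + 4 * Cl),
    fun γ A B h lv S l₀ hl₀ hS hΨ hΨε => ?_⟩
  have hSpos : ∀ q ∈ S, 0 < q := fun q hq => (hS q hq).1
  set Ψ := ∑ q ∈ S, mass (lv q) q with hΨdef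
  have hΨ0 : 0 ≤ Ψ := zero_le_one.trans hΨ
  set T : ℕ → ℕ → ℝ := fun q r => cwt γ A B (lv q) q * cwt γ A B (lv r) r *
    volume.real (arcs γ A B (lv q) q ∩ arcs γ A B (lv r) r ∩ Set.Ioc 0 1) with hT
  change ∑ q ∈ S, ∑ r ∈ S, T q r ≤ _
  have hJex : ∀ z ∈ S ×ˢ S, ∃ J₀ : ℕ, z.1 ≠ z.2 → lv z.1 ≤ lv z.2 → ∀ J, J₀ ≤ J →
      rhoSum γ A B (lv z.1) (lv z.2) z.1 z.2 / dgap (lv z.1) (lv z.2) z.1 z.2 ≤
        Cp * (1 + TMid η η K l₀ (dgap (lv z.1) (lv z.2) z.1 z.2) +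
          TAll η N K J γ A B (lv z.1) (lv z.2) (red z.1 z.2) (red z.2 z.1)) := by
    intro z hz
    obtain ⟨hz1, hz2⟩ := Finset.mem_product.1 hz
    obtain ⟨hq0, hlo, hhi⟩ := hS _ hz1
    obtain ⟨hr0, hLo, hLhi⟩ := hS _ hz2
    by_cases hne : z.1 ≠ z.2 ∧ lv z.1 ≤ lv z.2
    · have hlR : (l₀ : ℝ) ≤ lv z.1 := by exact_mod_cast hlo
      have h45 : 4 * lv z.2 ≤ 5 * lv z.1 := by
        have : (4 : ℝ) * lv z.2 ≤ 5 * lv z.1 := by linarith
        exact_mod_cast this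
      have hL2 : lv z.2 ≤ 2 * l₀ := by
        have : (lv z.2 : ℝ) ≤ 2 * l₀ := by linarith
        exact_mod_cast this
      obtain ⟨J₀, hJ₀⟩ := hpt γ A B h l₀ (lv z.1) (lv z.2) z.1 z.2 (hl₀.trans hlo) hne.2 h45 hL2
        hq0 hr0 hne.1
      exact ⟨J₀, fun _ _ => hJ₀⟩
    · exact ⟨0, fun h1 h2 => absurd ⟨h1, h2⟩ hne⟩
  choose! J₀ hJ₀ using hJex
  set J := (S ×ˢ S).sup J₀ with hJ
  set G : ℕ → ℕ → ℝ := fun q r => if lv q ≤ lv r then mass (lv q) q * mass (lv r) r *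
      TAll η N K J γ A B (lv q) (lv r) (red q r) (red r q) else 0 with hG
  set H : ℕ → ℕ → ℝ := fun q r => mass (lv q) q * mass (lv r) r +
    mass (lv q) q * mass (lv r) r * TMid η η K l₀ (dgap (lv q) (lv r) q r) + G q r with hH
  have hG0 : ∀ q r, r ∈ S → 0 ≤ G q r := fun q r hr => by
    simp only [G]; split
    · exact mul_nonneg (mul_nonneg (mass_nonneg _ _) (mass_nonneg _ _))
        (TAll_nonneg η N K J γ A B (hl₀.trans (hS r hr).2.1) _ _)
    · exact le_rfl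
  have hH0 : ∀ q r, q ∈ S → r ∈ S → 0 ≤ H q r := fun q r hq hr =>
    add_nonneg (add_nonneg (mul_nonneg (mass_nonneg _ _) (mass_nonneg _ _))
      (mul_nonneg (mul_nonneg (mass_nonneg _ _) (mass_nonneg _ _))
        (TMid_nonneg η η K l₀ (dgap_facts (r := r) (hSpos q hq) _ _).2.2.le))) (hG0 q r hr)
  have hside : ∀ q ∈ S, ∀ r ∈ S, q ≠ r → lv q ≤ lv r → T q r ≤ 2 * Cp * H q r := by
    intro q hq r hr hne hle
    refine (pair_term_le h (hl₀.trans (hS q hq).2.1) hle (hSpos q hq) (hSpos r hr) hne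
      (hJ₀ (q, r) (Finset.mk_mem_product hq hr) hne hle J
        (Finset.le_sup (Finset.mk_mem_product hq hr)))).trans_eq ?_
    simp only [H, G, if_pos hle]
    ring
  have hdiag : ∀ q ∈ S, T q q ≤ 2 * mass (lv q) q := by
    intro q hq
    obtain ⟨-, -, h3, -⟩ := single γ A B h (lv q) q (hl₀.trans (hS q hq).2.1) (hSpos q hq)
    simp only [T, Set.inter_self]
    refine le_trans ?_ h3
    rw [mul_assoc]
    exact mul_le_of_le_one_left (mul_nonneg (cwt_nonneg _ _) measureReal_nonneg) (cwt_le_one _ _)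
  have hTle : ∀ q ∈ S, ∀ r ∈ S,
      T q r ≤ (if q = r then 2 * mass (lv q) q else 0) + 2 * Cp * (H q r + H r q) := by
    intro q hq r hr
    have hnn : 0 ≤ 2 * Cp * (H q r + H r q) :=
      mul_nonneg (by linarith) (add_nonneg (hH0 q r hq hr) (hH0 r q hr hq))
    have hq' := mul_nonneg (show 0 ≤ 2 * Cp by linarith) (hH0 q r hq hr)
    have hr' := mul_nonneg (show 0 ≤ 2 * Cp by linarith) (hH0 r q hr hq)
    rcases eq_or_ne q r with rfl | hne
    · rw [if_pos rfl]; linarith [hdiag q hq]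
    rw [if_neg hne, zero_add]
    rcases le_total (lv q) (lv r) with hle | hle
    · linarith [hside q hq r hr hne hle]
    · have hsym : T q r = T r q := by
        simp only [T]
        rw [Set.inter_comm (arcs γ A B (lv q) q) (arcs γ A B (lv r) r)]
        ring
      linarith [hside r hr q hq hne.symm hle]
  refine (Finset.sum_le_sum fun q hq => Finset.sum_le_sum fun r hr => hTle q hq r hr).trans ?_
  have hsumH : ∑ q ∈ S, ∑ r ∈ S, H q r ≤ (1 + 4 * Cm + 4 * Cl) * Ψ ^ 2 := by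
    simp only [H, Finset.sum_add_distrib]
    have h1 : ∑ q ∈ S, ∑ r ∈ S, mass (lv q) q * mass (lv r) r = Ψ ^ 2 := by
      rw [sq, hΨdef, Finset.sum_mul_sum]
    have h2 := hmid lv S hSpos l₀ hl₀
    have h3 : ∑ q ∈ S, ∑ r ∈ S, G q r ≤ 4 * Cl * Ψ ^ 2 := event_pairs_le hCl hlev' h lv S hl₀ hS hΨ J
    rw [← hΨdef] at h2
    have hl1 : (1 : ℝ) ≤ l₀ := by exact_mod_cast hl₀
    have hu : (1 : ℝ) ≤ 2 * (l₀ : ℝ) := by linarith
    have hexp : (K : ℝ) * (2 * θ - 1) = 2 * η := by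
      rw [hθdef, hη]; field_simp; ring
    rw [hexp] at h2
    have h4 : ((2 * (l₀ : ℝ)) ^ η + (2 * (l₀ : ℝ)) ^ (2 * η)) * (2 * (l₀ : ℝ)) ^ η * Ψ ^ (2 * θ) ≤
        4 * Ψ ^ 2 := by
      have e1 : (2 * (l₀ : ℝ)) ^ η + (2 * (l₀ : ℝ)) ^ (2 * η) ≤ 2 * (2 * (l₀ : ℝ)) ^ (2 * η) := by
        linarith [rpow_le_rpow_of_exponent_le hu (by linarith : η ≤ 2 * η)]
      have e2 : (2 * (l₀ : ℝ)) ^ (2 * η) * (2 * (l₀ : ℝ)) ^ η ≤ 2 * Ψ ^ ((3 : ℝ) / 16) := by
        rw [← rpow_add (by linarith), mul_rpow zero_le_two (by linarith)]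
        refine mul_le_mul ?_ ?_ (rpow_nonneg (by linarith) _) zero_le_two
        · exact (rpow_le_rpow_of_exponent_le one_le_two (by rw [hη]; linarith)).trans_eq (rpow_one 2)
        · calc (l₀ : ℝ) ^ (2 * η + η) ≤ (l₀ : ℝ) ^ (ε * (3 / 16)) :=
                rpow_le_rpow_of_exponent_le hl1 (by rw [hη]; linarith)
            _ = ((l₀ : ℝ) ^ ε) ^ ((3 : ℝ) / 16) := rpow_mul (by linarith) _ _
            _ ≤ Ψ ^ ((3 : ℝ) / 16) := rpow_le_rpow (rpow_nonneg (by linarith) _) hΨε (by norm_num)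
      have e3 : Ψ ^ ((3 : ℝ) / 16) * Ψ ^ (2 * θ) ≤ Ψ ^ 2 := by
        rw [← rpow_add (by linarith), ← rpow_natCast Ψ 2]
        refine rpow_le_rpow_of_exponent_le hΨ ?_
        have : ε₀ / (16 * K) ≤ 1 / 64 := by rw [div_le_iff₀ (by positivity)]; nlinarith
        push_cast
        linarith
      calc ((2 * (l₀ : ℝ)) ^ η + (2 * (l₀ : ℝ)) ^ (2 * η)) * (2 * (l₀ : ℝ)) ^ η * Ψ ^ (2 * θ)
          ≤ 2 * (2 * (l₀ : ℝ)) ^ (2 * η) * (2 * (l₀ : ℝ)) ^ η * Ψ ^ (2 * θ) := by gcongr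
        _ = 2 * ((2 * (l₀ : ℝ)) ^ (2 * η) * (2 * (l₀ : ℝ)) ^ η) * Ψ ^ (2 * θ) := by ring
        _ ≤ 2 * (2 * Ψ ^ ((3 : ℝ) / 16)) * Ψ ^ (2 * θ) := by gcongr
        _ = 4 * (Ψ ^ ((3 : ℝ) / 16) * Ψ ^ (2 * θ)) := by ring
        _ ≤ _ := by linarith
    have h5 := mul_le_mul_of_nonneg_left h4 hCm
    linarith
  have hΨ2 : Ψ ≤ Ψ ^ 2 := le_self_pow₀ hΨ (by norm_num)
  simp only [Finset.sum_add_distrib, ← Finset.mul_sum]
  rw [Finset.sum_comm (f := fun q r => H r q)]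
  have h6 : ∑ q ∈ S, ∑ r ∈ S, (if q = r then 2 * mass (lv q) q else 0) = 2 * Ψ := by
    rw [hΨdef, Finset.mul_sum]
    exact Finset.sum_congr rfl fun q hq => by rw [Finset.sum_ite_eq, if_pos hq]
  rw [h6]
  have h7 := mul_le_mul_of_nonneg_left hsumH (show 0 ≤ 4 * Cp by linarith)
  linarith

/-- Full measure under divergence weakened by an arbitrarily small power of a logarithm. -/
theorem weakIDS : WeakIDSStmt := weakIDS_of_main (main_of_levels levelBound)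

end Vale.Agent.P028
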