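import Vale.Agent.P028.NearBound
import Vale.Agent.P028.Anatomy

/-! The pointwise bound of one pair by events, sorted by the size of the gap. -/

namespace Vale.Agent.P028

open Finset Real
open scoped Classical

noncomputable def kGrid (K L j : ℕ) : ℝ := (2 : ℝ) ^ j / (8 * (L : ℝ) ^ K)

noncomputable def TEv (η : ℝ) (N J l L a b : ℕ) : ℝ :=
  ∑ i ∈ range J, if (L : ℝ) ^ η ≤ (2 : ℝ) ^ i then
    (1 + Real.log ((2 : ℝ) ^ i)) ^ N * (gEv ((2 : ℝ) ^ i) l L a b + gEv ((2 : ℝ) ^ i) L l b a) else 0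

noncomputable def TK (N K J : ℕ) (A : ℕ → ℤ) (B : ℕ → ℕ) (l L a b : ℕ) : ℝ :=
  if SameCls A B l L then 0 else
    ∑ j ∈ range J, ((L : ℝ) + Real.log (2 + kGrid K L j)) ^ N / kGrid K L j *
      gK (kGrid K L j) (kdiv B l L) l L a b

noncomputable def TNear (N K J : ℕ) (γ : ℝ) (A : ℕ → ℤ) (B : ℕ → ℕ) (l L a b : ℕ) : ℝ :=
  ∑ i ∈ range J, if ((2 : ℝ) ^ L)⁻¹ ≤ 3 * ((2 : ℝ) ^ i)⁻¹ ∧ ((2 : ℝ) ^ i)⁻¹ ≤ 2 / (L : ℝ) ^ K then
    (L : ℝ) ^ N / ((2 : ℝ) ^ i)⁻¹ * gNear γ A B ((2 : ℝ) ^ i)⁻¹ l L a b else 0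

noncomputable def TLine (N : ℕ) (A : ℕ → ℤ) (B : ℕ → ℕ) (l L a b : ℕ) : ℝ :=
  if SameCls A B l L then 0 else (L : ℝ) ^ N * gLine (B L) L a b

noncomputable def TMid (η η' : ℝ) (K l₀ : ℕ) (D : ℝ) : ℝ :=
  if (8 * (2 * (l₀ : ℝ)) ^ K)⁻¹ ≤ D ∧ D ≤ (2 * (l₀ : ℝ)) ^ η then (1 + 1 / D) * (2 * (l₀ : ℝ)) ^ η' else 0

/-- All events of a pair of levels. -/
noncomputable def TAll (η : ℝ) (N K J : ℕ) (γ : ℝ) (A : ℕ → ℤ) (B : ℕ → ℕ) (l L a b : ℕ) : ℝ :=
  TEv η N J l L a b + TK N K J A B l L a b + TNear N K J γ A B l L a b + TLine N A B l L a b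

theorem one_le_log_add (L : ℕ) {D : ℝ} (hD : 0 ≤ D) (hL : 1 ≤ L) : 1 ≤ (L : ℝ) + Real.log (2 + D) := by
  have : (1 : ℝ) ≤ L := by exact_mod_cast hL
  linarith [Real.log_nonneg (show (1 : ℝ) ≤ 2 + D by linarith)]

theorem gEv_nonneg (D : ℝ) (l L a b : ℕ) : 0 ≤ gEv D l L a b := by unfold gEv; split <;> norm_num

theorem gK_nonneg (D : ℝ) (k l L a b : ℕ) : 0 ≤ gK D k l L a b := by unfold gK; split <;> norm_num

theorem kGrid_pos {K L : ℕ} (hL : 1 ≤ L) (j : ℕ) : 0 < kGrid K L j := by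
  have : (0 : ℝ) < L := by exact_mod_cast hL
  unfold kGrid; positivity

theorem TEv_nonneg (η : ℝ) (N J l L a b : ℕ) : 0 ≤ TEv η N J l L a b := sum_nonneg fun i _ => by
  split
  · exact mul_nonneg (pow_nonneg (by linarith [Real.log_nonneg (one_le_pow₀ (n := i) one_le_two : (1 : ℝ) ≤ 2 ^ i)]) _)
      (add_nonneg (gEv_nonneg _ _ _ _ _) (gEv_nonneg _ _ _ _ _))
  · exact le_rfl

theorem TK_nonneg (N K J : ℕ) (A : ℕ → ℤ) (B : ℕ → ℕ) {l L : ℕ} (hL : 1 ≤ L) (a b : ℕ) :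
    0 ≤ TK N K J A B l L a b := by
  unfold TK; split
  · exact le_rfl
  · refine sum_nonneg fun j _ => mul_nonneg (div_nonneg (pow_nonneg ?_ _) (kGrid_pos hL j).le) (gK_nonneg _ _ _ _ _ _)
    linarith [one_le_log_add L (kGrid_pos (K := K) hL j).le hL]

theorem TNear_nonneg (N K J : ℕ) (γ : ℝ) (A : ℕ → ℤ) (B : ℕ → ℕ) (l L a b : ℕ) :
    0 ≤ TNear N K J γ A B l L a b := sum_nonneg fun i _ => by
  split
  · exact mul_nonneg (by positivity) (gNear_bounds γ A B _ l L a b).1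
  · exact le_rfl

theorem TLine_nonneg (N : ℕ) (A : ℕ → ℤ) (B : ℕ → ℕ) (l L a b : ℕ) : 0 ≤ TLine N A B l L a b := by
  unfold TLine gLine; split
  · exact le_rfl
  · split <;> positivity

theorem TMid_nonneg (η η' : ℝ) (K l₀ : ℕ) {D : ℝ} (hD : 0 ≤ D) : 0 ≤ TMid η η' K l₀ D := by
  unfold TMid; split <;> positivity

theorem exists_dyadic {x D : ℝ} (hx : 0 < x) (hxD : x ≤ D) :
    ∃ j : ℕ, D ≤ 2 ^ j * x ∧ 2 ^ j * x ≤ 2 * D := by
  have hex : ∃ j : ℕ, D ≤ 2 ^ j * x := by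
    obtain ⟨j, hj⟩ := pow_unbounded_of_one_lt (D / x) one_lt_two
    exact ⟨j, by rw [div_lt_iff₀ hx] at hj; exact hj.le⟩
  refine ⟨Nat.find hex, Nat.find_spec hex, ?_⟩
  rcases Nat.eq_zero_or_pos (Nat.find hex) with h | h
  · rw [h, pow_zero, one_mul]; linarith
  · have h' := not_le.1 (Nat.find_min hex (Nat.sub_one_lt h.ne'))
    rw [show Nat.find hex = Nat.find hex - 1 + 1 by omega, pow_succ]
    linarith

theorem log_le_small {η : ℝ} (hη : 0 < η) (N : ℕ) : ∃ C : ℝ, 0 ≤ C ∧ ∀ L : ℕ, 1 ≤ L →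
    (1 + Real.log ((L : ℝ) + 1) + Real.log (2 + L)) ^ N ≤ C * (L : ℝ) ^ η := by
  set c : ℝ := η / ((N : ℝ) + 1) with hc
  have hc0 : 0 < c := by positivity
  refine ⟨(1 + 2 * ((3 : ℝ) ^ c / c)) ^ N, by positivity, fun L hL => ?_⟩
  have hL1 : (1 : ℝ) ≤ L := by exact_mod_cast hL
  have hlog : ∀ x : ℝ, 1 ≤ x → x ≤ 3 * L → Real.log x ≤ (3 : ℝ) ^ c / c * (L : ℝ) ^ c := by
    intro x hx hx3
    refine (Real.log_le_rpow_div (by linarith) hc0).trans ?_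
    rw [div_mul_eq_mul_div, ← mul_rpow (by norm_num) (by linarith)]
    exact div_le_div_of_nonneg_right (rpow_le_rpow (by linarith) hx3 hc0.le) hc0.le
  have h1 := hlog ((L : ℝ) + 1) (by linarith) (by linarith)
  have h2 := hlog (2 + L) (by linarith) (by linarith)
  have hb : 1 + Real.log ((L : ℝ) + 1) + Real.log (2 + L) ≤ (1 + 2 * ((3 : ℝ) ^ c / c)) * (L : ℝ) ^ c := by
    linarith [one_le_rpow hL1 hc0.le]
  refine (pow_le_pow_left₀ ?_ hb N).trans ?_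
  · have := Real.log_nonneg (show (1 : ℝ) ≤ L + 1 by linarith)
    have := Real.log_nonneg (show (1 : ℝ) ≤ 2 + L by linarith)
    linarith
  rw [mul_pow, ← rpow_natCast ((L : ℝ) ^ c) N, ← rpow_mul (by linarith)]
  refine mul_le_mul_of_nonneg_left (rpow_le_rpow_of_exponent_le hL1 ?_) (by positivity)
  rw [hc, div_mul_eq_mul_div, div_le_iff₀ (by positivity)]
  nlinarith

/-- A single term of a sum of nonnegative terms over a range. -/
theorem le_sum_range {f : ℕ → ℝ} (hf : ∀ i, 0 ≤ f i) {i J : ℕ} (h : i < J) : f i ≤ ∑ k ∈ range J, f k :=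
  single_le_sum (fun k _ => hf k) (mem_range.2 h)

theorem le_TK {N K : ℕ} {A : ℕ → ℤ} {B : ℕ → ℕ} {l L q r : ℕ} (hL : 1 ≤ L)
    (hx : (8 * (L : ℝ) ^ K)⁻¹ ≤ dgap l L q r) (hd : ¬ SameCls A B l L) (hk : kdiv B l L ∣ red q r)
    (hsize : (red r q : ℝ) ≤ dgap l L q r * (4 : ℝ) ^ l ∧ (red q r : ℝ) ≤ dgap l L q r * (4 : ℝ) ^ L) :
    ∃ J₀, ∀ J, J₀ ≤ J → ((L : ℝ) + Real.log (2 + 2 * dgap l L q r)) ^ N / dgap l L q r ≤
      2 * 2 ^ N * TK N K J A B l L (red q r) (red r q) := by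
  set D := dgap l L q r with hD
  have hx0 : (0 : ℝ) < (8 * (L : ℝ) ^ K)⁻¹ := by
    have : (0 : ℝ) < L := by exact_mod_cast hL
    positivity
  have hD0 : 0 < D := lt_of_lt_of_le hx0 hx
  obtain ⟨j, hj1, hj2⟩ := exists_dyadic hx0 hx
  refine ⟨j + 1, fun J hJ => ?_⟩
  have hgrid : kGrid K L j = 2 ^ j * (8 * (L : ℝ) ^ K)⁻¹ := div_eq_mul_inv _ _
  rw [← hgrid] at hj1 hj2
  have hg1 : gK (kGrid K L j) (kdiv B l L) l L (red q r) (red r q) = 1 :=
    if_pos ⟨hsize.2.trans (mul_le_mul_of_nonneg_right hj1 (by positivity)),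
      hsize.1.trans (mul_le_mul_of_nonneg_right hj1 (by positivity)), hk⟩
  have hTK : ((L : ℝ) + Real.log (2 + kGrid K L j)) ^ N / kGrid K L j ≤ TK N K J A B l L (red q r) (red r q) := by
    rw [TK, if_neg hd]
    refine le_trans (le_of_eq ?_) (le_sum_range (fun i => mul_nonneg (div_nonneg (pow_nonneg ?_ _)
      (kGrid_pos hL i).le) (gK_nonneg _ _ _ _ _ _)) (show j < J by omega))
    · rw [hg1, mul_one]
    · linarith [one_le_log_add L (kGrid_pos (K := K) hL i).le hL]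
  refine le_trans ?_ (mul_le_mul_of_nonneg_left hTK (by positivity))
  have hbase : (L : ℝ) + Real.log (2 + 2 * D) ≤ 2 * ((L : ℝ) + Real.log (2 + kGrid K L j)) := by
    have h : Real.log (2 + 2 * D) ≤ Real.log 2 + Real.log (2 + kGrid K L j) := by
      rw [← Real.log_mul two_ne_zero (by linarith)]
      exact Real.log_le_log (by linarith) (by linarith)
    have := Real.log_two_lt_d9
    have : (1 : ℝ) ≤ L := by exact_mod_cast hL
    linarith [one_le_log_add L (show 0 ≤ kGrid K L j by linarith) hL]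
  have hb0 : 0 ≤ (L : ℝ) + Real.log (2 + 2 * D) :=
    le_trans zero_le_one (one_le_log_add L (by linarith) hL)
  have hk0 := kGrid_pos (K := K) hL j
  calc ((L : ℝ) + Real.log (2 + 2 * D)) ^ N / D
      ≤ (2 * ((L : ℝ) + Real.log (2 + kGrid K L j))) ^ N / (kGrid K L j / 2) :=
        div_le_div₀ (pow_nonneg (by linarith) N) (pow_le_pow_left₀ hb0 hbase N) (by linarith) (by linarith)
    _ = _ := by rw [mul_pow]; field_simp

theorem TAll_nonneg (η : ℝ) (N K J : ℕ) (γ : ℝ) (A : ℕ → ℤ) (B : ℕ → ℕ) {l L : ℕ} (hL : 1 ≤ L) (a b : ℕ) :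
    0 ≤ TAll η N K J γ A B l L a b :=
  add_nonneg (add_nonneg (add_nonneg (TEv_nonneg _ _ _ _ _ _ _) (TK_nonneg _ _ _ _ _ hL _ _))
    (TNear_nonneg _ _ _ _ _ _ _ _ _ _)) (TLine_nonneg _ _ _ _ _ _ _)

theorem point_large {γ : ℝ} {A : ℕ → ℤ} {B : ℕ → ℕ} {N N₂ K : ℕ} {η η' C₂ U : ℝ} (hN : N₂ ≤ N)
    (hη : 0 < η) (hU : 2 * max C₂ 0 + 2 * max C₂ 0 * 2 ^ N ≤ U)
    {l₀ l L q r : ℕ} (hL : 1 ≤ L) (hq : 0 < q) (hbig : (L : ℝ) ^ η ≤ dgap l L q r)
    (hAL : ∀ D₀ : ℝ, dgap l L q r ≤ D₀ → D₀ ≤ 2 * dgap l L q r →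
      rhoSum γ A B l L q r ≤
        C₂ * D₀ * (1 + (1 + Real.log D₀) ^ N₂ *
            ((if Ev D₀ (red q r) then 1 else 0) + (if Ev D₀ (red r q) then 1 else 0))) +
          C₂ * ((L : ℝ) + Real.log (2 + D₀)) ^ N₂ *
            (if KEv A B l L (red q r) then 1 else 0)) :
    ∃ J₀, ∀ J, J₀ ≤ J → rhoSum γ A B l L q r / dgap l L q r ≤
      U * (1 + TMid η η' K l₀ (dgap l L q r) + TAll η N K J γ A B l L (red q r) (red r q)) := by
  have hL1 : (1 : ℝ) ≤ L := by exact_mod_cast hL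
  obtain ⟨hr', hq', hD0⟩ := dgap_facts (r := r) hq l L
  set D := dgap l L q r with hDdef
  set a := red q r
  set b := red r q
  set c₂ := max C₂ 0
  have hU0 : 0 ≤ U := le_trans (by positivity) hU
  have hTM := TMid_nonneg η η' K l₀ hD0.le
  have hTA : ∀ J, 0 ≤ TAll η N K J γ A B l L a b := fun J => TAll_nonneg η N K J γ A B hL a b
  have hfinal : ∀ J, ∀ X : ℝ, X ≤ U * (1 + TMid η η' K l₀ D) + U * TAll η N K J γ A B l L a b →
      X ≤ U * (1 + TMid η η' K l₀ D + TAll η N K J γ A B l L a b) := fun J X h => by linarith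
  have hplog : ∀ {x : ℝ}, 1 ≤ x → x ^ N₂ ≤ x ^ N := fun hx => pow_le_pow_right₀ hx hN
  have hD1 : 1 ≤ D := (one_le_rpow hL1 hη.le).trans hbig
  obtain ⟨i, hi1, hi2⟩ := exists_dyadic one_pos hD1
  rw [mul_one] at hi1 hi2
  have hxK : (8 * (L : ℝ) ^ K)⁻¹ ≤ D :=
    (inv_le_one_of_one_le₀ (by nlinarith [one_le_pow₀ (n := K) hL1])).trans hD1
  set D₀ : ℝ := (2 : ℝ) ^ i
  have h := hAL D₀ hi1 hi2
  have hlogD₀ : 1 ≤ 1 + Real.log D₀ := by linarith [Real.log_nonneg (hD1.trans hi1)]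
  have hlD₀ : 1 ≤ (L : ℝ) + Real.log (2 + D₀) := one_le_log_add L (by linarith) hL
  -- the event part
  have hev : ∀ J, i + 1 ≤ J →
      (1 + Real.log D₀) ^ N * ((if Ev D₀ a then 1 else 0) + (if Ev D₀ b then 1 else 0)) ≤
        TEv η N J l L a b := by
    intro J hJ
    refine le_trans (le_of_eq ?_) (le_sum_range (fun k => ?_) (show i < J by omega))
    · rw [if_pos (hbig.trans hi1)]
      congr 1
      have e1 : gEv D₀ l L a b = if Ev D₀ a then 1 else 0 := by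
        unfold gEv
        by_cases hE : Ev D₀ a
        · rw [if_pos hE, if_pos ⟨hq'.trans (mul_le_mul_of_nonneg_right hi1 (by positivity)),
            hr'.trans (mul_le_mul_of_nonneg_right hi1 (by positivity)), hE⟩]
        · rw [if_neg hE, if_neg fun hh => hE hh.2.2]
      have e2 : gEv D₀ L l b a = if Ev D₀ b then 1 else 0 := by
        unfold gEv
        by_cases hE : Ev D₀ b
        · rw [if_pos hE, if_pos ⟨hr'.trans (mul_le_mul_of_nonneg_right hi1 (by positivity)),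
            hq'.trans (mul_le_mul_of_nonneg_right hi1 (by positivity)), hE⟩]
        · rw [if_neg hE, if_neg fun hh => hE hh.2.2]
      rw [e1, e2]
    · split
      · exact mul_nonneg (pow_nonneg (by linarith [Real.log_nonneg (one_le_pow₀ (n := k) one_le_two : (1 : ℝ) ≤ 2 ^ k)]) _)
          (add_nonneg (gEv_nonneg _ _ _ _ _) (gEv_nonneg _ _ _ _ _))
      · exact le_rfl
  -- the exceptional part
  obtain ⟨J₁, hJ₁⟩ : ∃ J₁, ∀ J, J₁ ≤ J → c₂ * ((L : ℝ) + Real.log (2 + D₀)) ^ N₂ *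
      (if KEv A B l L a then 1 else 0) / D ≤ 2 * c₂ * 2 ^ N * TK N K J A B l L a b := by
    by_cases hk : KEv A B l L a
    · obtain ⟨J₁, hJ₁⟩ := le_TK (N := N) (K := K) hL hxK hk.1 hk.2 ⟨hr', hq'⟩
      refine ⟨J₁, fun J hJ => ?_⟩
      rw [if_pos hk, mul_one, mul_div_assoc]
      refine (mul_le_mul_of_nonneg_left ?_ (le_max_right _ _)).trans
        ((mul_le_mul_of_nonneg_left (hJ₁ J hJ) (le_max_right _ _)).trans_eq (by ring))
      refine div_le_div_of_nonneg_right ?_ hD0.le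
      exact (hplog hlD₀).trans (pow_le_pow_left₀ (by linarith)
        (add_le_add le_rfl (Real.log_le_log (by linarith) (by linarith))) N)
    · refine ⟨0, fun J _ => ?_⟩
      rw [if_neg hk, mul_zero, zero_div]
      exact mul_nonneg (by positivity) (TK_nonneg _ _ _ _ _ hL _ _)
  refine ⟨max (i + 1) J₁, fun J hJ => hfinal J _ ?_⟩
  have hJi : i + 1 ≤ J := (le_max_left _ _).trans hJ
  have hJk := hJ₁ J ((le_max_right _ _).trans hJ)
  have hev' := hev J hJi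
  set E : ℝ := (if Ev D₀ a then 1 else 0) + (if Ev D₀ b then 1 else 0) with hE
  have hE0 : 0 ≤ E := by rw [hE]; positivity
  have hmain : C₂ * D₀ * (1 + (1 + Real.log D₀) ^ N₂ * E) / D ≤
      2 * c₂ * (1 + TEv η N J l L a b) := by
    calc C₂ * D₀ * (1 + (1 + Real.log D₀) ^ N₂ * E) / D
        ≤ c₂ * (2 * D) * (1 + (1 + Real.log D₀) ^ N * E) / D := by
          refine div_le_div_of_nonneg_right ?_ hD0.le
          refine mul_le_mul (mul_le_mul (le_max_left _ _) hi2 (by positivity) (le_max_right _ _)) ?_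
            (by positivity) (by positivity)
          exact add_le_add le_rfl (mul_le_mul_of_nonneg_right (hplog hlogD₀) hE0)
      _ = 2 * c₂ * (1 + (1 + Real.log D₀) ^ N * E) := by field_simp
      _ ≤ _ := by gcongr
  have hsum : rhoSum γ A B l L q r / D ≤
      2 * c₂ * (1 + TEv η N J l L a b) + 2 * c₂ * 2 ^ N * TK N K J A B l L a b := by
    refine (div_le_div_of_nonneg_right h hD0.le).trans ?_
    rw [add_div]
    refine add_le_add hmain (le_trans ?_ hJk)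
    refine div_le_div_of_nonneg_right ?_ hD0.le
    exact mul_le_mul_of_nonneg_right (mul_le_mul_of_nonneg_right (le_max_left _ _) (by positivity))
      (by split <;> norm_num)
  refine hsum.trans ?_
  have h1 : TEv η N J l L a b ≤ TAll η N K J γ A B l L a b := by
    have := TK_nonneg N K J A B (l := l) hL a b
    have := TNear_nonneg N K J γ A B l L a b
    have := TLine_nonneg N A B l L a b
    unfold TAll; linarith
  have h2 : TK N K J A B l L a b ≤ TAll η N K J γ A B l L a b := by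
    have := TEv_nonneg η N J l L a b
    have := TNear_nonneg N K J γ A B l L a b
    have := TLine_nonneg N A B l L a b
    unfold TAll; linarith
  have hu1 : 2 * c₂ ≤ U := by
    linarith [show (0 : ℝ) ≤ 2 * c₂ * 2 ^ N by positivity]
  have hu2 : 2 * c₂ + 2 * c₂ * 2 ^ N ≤ U := by
    linarith
  calc 2 * c₂ * (1 + TEv η N J l L a b) + 2 * c₂ * 2 ^ N * TK N K J A B l L a b
      ≤ 2 * c₂ * 1 + (2 * c₂ + 2 * c₂ * 2 ^ N) * TAll η N K J γ A B l L a b := by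
        rw [mul_add, add_mul, add_assoc]; gcongr
    _ ≤ U * (1 + TMid η η' K l₀ D) + U * TAll η N K J γ A B l L a b := by
        have := hTA J
        gcongr
        linarith

theorem point_mid {γ : ℝ} {A : ℕ → ℤ} {B : ℕ → ℕ} {N K : ℕ} {η η' c₁ C₃ U : ℝ} (hη : 0 < η) (hη1 : η ≤ 1)
    (hη' : 0 < η') (hc₁ : 0 ≤ c₁) (hC₃ : 0 ≤ C₃)
    (hU : c₁ * C₃ + 2 * c₁ * 2 ^ N ≤ U)
    (hlogL : ∀ L : ℕ, 1 ≤ L → (1 + Real.log ((L : ℝ) + 1) + Real.log (2 + L)) ^ N ≤ C₃ * (L : ℝ) ^ η')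
    {l₀ l L q r : ℕ} (hL : 1 ≤ L) (hLl₀ : L ≤ 2 * l₀) (hq : 0 < q) (hbig : dgap l L q r < (L : ℝ) ^ η)
    (hmid : (8 * (L : ℝ) ^ K)⁻¹ ≤ dgap l L q r)
    (hG' : rhoSum γ A B l L q r ≤
      c₁ * (1 + dgap l L q r) * (1 + Real.log ((L : ℝ) + 1) + Real.log (2 + dgap l L q r)) ^ N +
        c₁ * ((L : ℝ) + Real.log (2 + dgap l L q r)) ^ N * (if KEv A B l L (red q r) then 1 else 0)) :
    ∃ J₀, ∀ J, J₀ ≤ J → rhoSum γ A B l L q r / dgap l L q r ≤
      U * (1 + TMid η η' K l₀ (dgap l L q r) + TAll η N K J γ A B l L (red q r) (red r q)) := by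
  have hL1 : (1 : ℝ) ≤ L := by exact_mod_cast hL
  obtain ⟨hr', hq', hD0⟩ := dgap_facts (r := r) hq l L
  set D := dgap l L q r with hDdef
  set a := red q r
  set b := red r q
  have hU0 : 0 ≤ U := le_trans (by positivity) hU
  have hlD : 1 ≤ (L : ℝ) + Real.log (2 + D) := one_le_log_add L hD0.le hL
  have hpD : 1 ≤ 1 + Real.log ((L : ℝ) + 1) + Real.log (2 + D) := by
    have := Real.log_nonneg (show (1 : ℝ) ≤ L + 1 by linarith)
    have := Real.log_nonneg (show (1 : ℝ) ≤ 2 + D by linarith)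
    linarith
  have hTM := TMid_nonneg η η' K l₀ hD0.le
  have hTA : ∀ J, 0 ≤ TAll η N K J γ A B l L a b := fun J => TAll_nonneg η N K J γ A B hL a b
  have hfinal : ∀ J, ∀ X : ℝ, X ≤ U * (1 + TMid η η' K l₀ D) + U * TAll η N K J γ A B l L a b →
      X ≤ U * (1 + TMid η η' K l₀ D + TAll η N K J γ A B l L a b) := fun J X h => by linarith
  have hDL : D ≤ L := hbig.le.trans ((rpow_le_rpow_of_exponent_le hL1 hη1).trans_eq (rpow_one _))
  obtain ⟨J₁, hJ₁⟩ : ∃ J₁, ∀ J, J₁ ≤ J → c₁ * ((L : ℝ) + Real.log (2 + D)) ^ N *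
      (if KEv A B l L a then 1 else 0) / D ≤ 2 * c₁ * 2 ^ N * TK N K J A B l L a b := by
    by_cases hk : KEv A B l L a
    · obtain ⟨J₁, hJ₁⟩ := le_TK (N := N) (K := K) hL hmid hk.1 hk.2 ⟨hr', hq'⟩
      refine ⟨J₁, fun J hJ => ?_⟩
      rw [if_pos hk, mul_one, mul_div_assoc]
      refine (mul_le_mul_of_nonneg_left ?_ hc₁).trans
        ((mul_le_mul_of_nonneg_left (hJ₁ J hJ) hc₁).trans_eq (by ring))
      exact div_le_div_of_nonneg_right (pow_le_pow_left₀ (by linarith)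
        (add_le_add le_rfl (Real.log_le_log (by linarith) (by linarith))) N) hD0.le
    · refine ⟨0, fun J _ => ?_⟩
      rw [if_neg hk, mul_zero, zero_div]
      exact mul_nonneg (by positivity) (TK_nonneg _ _ _ _ _ hL _ _)
  refine ⟨J₁, fun J hJ => hfinal J _ ?_⟩
  have hl₀ : (L : ℝ) ≤ 2 * l₀ := by exact_mod_cast hLl₀
  have hmidv : TMid η η' K l₀ D = (1 + 1 / D) * (2 * (l₀ : ℝ)) ^ η' := by
    refine if_pos ⟨le_trans ?_ hmid, hbig.le.trans (rpow_le_rpow (by linarith) hl₀ hη.le)⟩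
    gcongr
  have hfirst : c₁ * (1 + D) * (1 + Real.log ((L : ℝ) + 1) + Real.log (2 + D)) ^ N / D ≤
      c₁ * C₃ * TMid η η' K l₀ D := by
    rw [hmidv]
    calc c₁ * (1 + D) * (1 + Real.log ((L : ℝ) + 1) + Real.log (2 + D)) ^ N / D
        = c₁ * (1 + 1 / D) * (1 + Real.log ((L : ℝ) + 1) + Real.log (2 + D)) ^ N := by field_simp; ring
      _ ≤ c₁ * (1 + 1 / D) * (C₃ * (2 * (l₀ : ℝ)) ^ η') := by
          refine mul_le_mul_of_nonneg_left ?_ (by positivity)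
          refine (pow_le_pow_left₀ (by linarith) ?_ N).trans ((hlogL L hL).trans
            (mul_le_mul_of_nonneg_left (rpow_le_rpow (by linarith) hl₀ hη'.le) hC₃))
          linarith [Real.log_le_log (show 0 < 2 + D by linarith) (show 2 + D ≤ 2 + L by linarith)]
      _ = _ := by ring
  have h2 : TK N K J A B l L a b ≤ TAll η N K J γ A B l L a b := by
    have := TEv_nonneg η N J l L a b
    have := TNear_nonneg N K J γ A B l L a b
    have := TLine_nonneg N A B l L a b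
    unfold TAll; linarith
  refine (div_le_div_of_nonneg_right hG' hD0.le).trans ?_
  rw [add_div]
  refine add_le_add (hfirst.trans ?_) ((hJ₁ J hJ).trans ?_)
  · refine mul_le_mul ?_ (by linarith) hTM hU0
    linarith [show (0 : ℝ) ≤ 2 * c₁ * 2 ^ N by positivity]
  · refine mul_le_mul ?_ h2 (TK_nonneg _ _ _ _ _ hL _ _) hU0
    linarith [show (0 : ℝ) ≤ c₁ * C₃ by positivity]

theorem point_small {γ : ℝ} {A : ℕ → ℤ} {B : ℕ → ℕ} {N K : ℕ} {η η' c₁ U : ℝ} (hc₁ : 0 ≤ c₁)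
    (hU : 2 * (c₁ * (2 * 4 ^ N + 3 ^ N)) ≤ U)
    {l₀ l L q r : ℕ} (hL : 1 ≤ L) (hq : 0 < q) (hr : 0 < r)
    (hmid : dgap l L q r < (8 * (L : ℝ) ^ K)⁻¹)
    (hG' : rhoSum γ A B l L q r ≤
      c₁ * (1 + dgap l L q r) * (1 + Real.log ((L : ℝ) + 1) + Real.log (2 + dgap l L q r)) ^ N +
        c₁ * ((L : ℝ) + Real.log (2 + dgap l L q r)) ^ N * (if KEv A B l L (red q r) then 1 else 0))
    (hsm : dgap l L q r < 1 / 8 → rhoSum γ A B l L q r ≠ 0 →
      (∃ n : ℤ, |(n : ℝ) + γ * ((red r q : ℝ) - red q r)| ≤ 2 * dgap l L q r ∧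
          (B L : ℤ) * n + A L * ((red r q : ℤ) - red q r) ≠ 0 ∧
          ((2 : ℝ) ^ L)⁻¹ ≤ 3 * dgap l L q r) ∨
      (¬ SameCls A B l L ∧ red r q = 1 ∧ red q r ≠ 1 ∧ (B L : ℤ) ∣ (red q r : ℤ) - 1)) :
    ∃ J₀, ∀ J, J₀ ≤ J → rhoSum γ A B l L q r / dgap l L q r ≤
      U * (1 + TMid η η' K l₀ (dgap l L q r) + TAll η N K J γ A B l L (red q r) (red r q)) := by
  have hL1 : (1 : ℝ) ≤ L := by exact_mod_cast hL
  obtain ⟨hr', hq', hD0⟩ := dgap_facts (r := r) hq l L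
  set D := dgap l L q r with hDdef
  set a := red q r
  set b := red r q
  have hU0 : 0 ≤ U := le_trans (by positivity) hU
  have hlD : 1 ≤ (L : ℝ) + Real.log (2 + D) := one_le_log_add L hD0.le hL
  have hpD : 1 ≤ 1 + Real.log ((L : ℝ) + 1) + Real.log (2 + D) := by
    have := Real.log_nonneg (show (1 : ℝ) ≤ L + 1 by linarith)
    have := Real.log_nonneg (show (1 : ℝ) ≤ 2 + D by linarith)
    linarith
  have hTM := TMid_nonneg η η' K l₀ hD0.le
  have hTA : ∀ J, 0 ≤ TAll η N K J γ A B l L a b := fun J => TAll_nonneg η N K J γ A B hL a b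
  have hfinal : ∀ J, ∀ X : ℝ, X ≤ U * (1 + TMid η η' K l₀ D) + U * TAll η N K J γ A B l L a b →
      X ≤ U * (1 + TMid η η' K l₀ D + TAll η N K J γ A B l L a b) := fun J X h => by linarith
  -- at most one numerator
  have hK1 : (8 * (L : ℝ) ^ K)⁻¹ ≤ 1 / 8 := by
    rw [one_div]; exact inv_anti₀ (by norm_num) (by nlinarith [one_le_pow₀ (n := K) hL1])
  have hD8 : D < 1 / 8 := hmid.trans_le hK1
  by_cases hG0 : rhoSum γ A B l L q r = 0
  · refine ⟨0, fun J _ => hfinal J _ ?_⟩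
    rw [hG0, zero_div]
    exact add_nonneg (mul_nonneg hU0 (by linarith)) (mul_nonneg hU0 (hTA J))
  have hGL : rhoSum γ A B l L q r ≤ c₁ * (2 * 4 ^ N + 3 ^ N) * (L : ℝ) ^ N := by
    refine hG'.trans ?_
    have h3 : Real.log (2 + D) ≤ 2 := by
      linarith [Real.log_le_sub_one_of_pos (show 0 < 2 + D by linarith)]
    have h1 : (1 + Real.log ((L : ℝ) + 1) + Real.log (2 + D)) ^ N ≤ 4 ^ N * (L : ℝ) ^ N := by
      rw [← mul_pow]
      exact pow_le_pow_left₀ (by linarith)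
        (by linarith [Real.log_le_sub_one_of_pos (show (0 : ℝ) < L + 1 by linarith)]) N
    have h2 : ((L : ℝ) + Real.log (2 + D)) ^ N ≤ 3 ^ N * (L : ℝ) ^ N := by
      rw [← mul_pow]; exact pow_le_pow_left₀ (by linarith) (by linarith) N
    have h4 : (1 : ℝ) + D ≤ 2 := by linarith
    have h5 : (if KEv A B l L a then (1 : ℝ) else 0) ≤ 1 := by split <;> norm_num
    calc c₁ * (1 + D) * (1 + Real.log ((L : ℝ) + 1) + Real.log (2 + D)) ^ N +
          c₁ * ((L : ℝ) + Real.log (2 + D)) ^ N * (if KEv A B l L a then 1 else 0)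
        ≤ c₁ * 2 * (4 ^ N * (L : ℝ) ^ N) + c₁ * (3 ^ N * (L : ℝ) ^ N) * 1 := by gcongr
      _ = _ := by ring
  rcases hsm hD8 hG0 with ⟨n, hn, hn0, hD3⟩ | ⟨hd, hb1, ha1, hdvd⟩
  · -- off the line
    have hex : ∃ i : ℕ, ((2 : ℝ) ^ i)⁻¹ < 2 * D := by
      obtain ⟨i, hi⟩ := exists_pow_lt_of_lt_one (show 0 < 2 * D by linarith) (show (2 : ℝ)⁻¹ < 1 by norm_num)
      exact ⟨i, by rwa [← inv_pow]⟩
    set i := Nat.find hex
    have hi2 : ((2 : ℝ) ^ i)⁻¹ ≤ 2 * D := (Nat.find_spec hex).le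
    have hi1 : D ≤ ((2 : ℝ) ^ i)⁻¹ := by
      rcases Nat.eq_zero_or_pos i with h | h
      · rw [h]; simp only [pow_zero, inv_one]; linarith
      · have h' := not_lt.1 (Nat.find_min hex (Nat.sub_one_lt h.ne'))
        rw [show i = i - 1 + 1 by omega, pow_succ, mul_inv]
        linarith
    refine ⟨i + 1, fun J hJ => hfinal J _ ?_⟩
    have hcond : ((2 : ℝ) ^ L)⁻¹ ≤ 3 * ((2 : ℝ) ^ i)⁻¹ ∧ ((2 : ℝ) ^ i)⁻¹ ≤ 2 / (L : ℝ) ^ K := by
      refine ⟨hD3.trans (mul_le_mul_of_nonneg_left hi1 (by norm_num)), hi2.trans ?_⟩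
      rw [div_eq_mul_inv]
      refine mul_le_mul_of_nonneg_left (hmid.le.trans (inv_anti₀ (by positivity) ?_)) zero_le_two
      linarith [show (0 : ℝ) ≤ (L : ℝ) ^ K by positivity]
    have hgn : gNear γ A B ((2 : ℝ) ^ i)⁻¹ l L a b = 1 :=
      if_pos ⟨hq'.trans (mul_le_mul_of_nonneg_right hi1 (by positivity)),
        hr'.trans (mul_le_mul_of_nonneg_right hi1 (by positivity)), Nat.pos_of_ne_zero (red_pos hr).ne',
        n, hn.trans (mul_le_mul_of_nonneg_left hi1 zero_le_two), hn0⟩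
    have hTN : (L : ℝ) ^ N / ((2 : ℝ) ^ i)⁻¹ ≤ TNear N K J γ A B l L a b := by
      refine le_trans (le_of_eq ?_) (le_sum_range (fun k => ?_) (show i < J by omega))
      · rw [if_pos hcond, hgn, mul_one]
      · split
        · exact mul_nonneg (by positivity) (gNear_bounds γ A B _ l L a b).1
        · exact le_rfl
    refine (div_le_div_of_nonneg_right hGL hD0.le).trans ?_
    have hkey : c₁ * (2 * 4 ^ N + 3 ^ N) * (L : ℝ) ^ N / D ≤
        2 * (c₁ * (2 * 4 ^ N + 3 ^ N)) * ((L : ℝ) ^ N / ((2 : ℝ) ^ i)⁻¹) := by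
      rw [show 2 * (c₁ * (2 * 4 ^ N + 3 ^ N)) * ((L : ℝ) ^ N / ((2 : ℝ) ^ i)⁻¹) =
        c₁ * (2 * 4 ^ N + 3 ^ N) * (L : ℝ) ^ N / (((2 : ℝ) ^ i)⁻¹ / 2) by field_simp]
      gcongr
      linarith
    refine hkey.trans ?_
    have h2 : TNear N K J γ A B l L a b ≤ TAll η N K J γ A B l L a b := by
      have := TEv_nonneg η N J l L a b
      have := TK_nonneg N K J A B (l := l) hL a b
      have := TLine_nonneg N A B l L a b
      unfold TAll; linarith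
    refine le_add_of_nonneg_of_le (mul_nonneg hU0 (by linarith))
      (mul_le_mul ?_ (hTN.trans h2) (by positivity) hU0)
    linarith
  · -- the line
    refine ⟨0, fun J _ => hfinal J _ ?_⟩
    have ha0 : 0 < a := red_pos hq
    have ha2 : 2 ≤ a := by omega
    have ha4 : (a : ℝ) ≤ (4 : ℝ) ^ L :=
      hq'.trans (mul_le_of_le_one_left (by positivity) (by linarith))
    have haT : TLine N A B l L a b = (L : ℝ) ^ N * ((4 : ℝ) ^ L / a) := by
      rw [TLine, if_neg hd, gLine, if_pos ⟨hb1, mem_filter.2 ⟨mem_Icc.2 ⟨ha2, by exact_mod_cast ha4⟩, hdvd⟩⟩]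
    have hinv : 1 / D ≤ (4 : ℝ) ^ L / a := by
      rw [div_le_div_iff₀ hD0 (by exact_mod_cast ha0), one_mul, mul_comm]; exact hq'
    refine (div_le_div_of_nonneg_right hGL hD0.le).trans ?_
    rw [mul_div_assoc, div_eq_mul_one_div ((L : ℝ) ^ N)]
    refine (mul_le_mul_of_nonneg_left (mul_le_mul_of_nonneg_left hinv (by positivity)) (by positivity)).trans ?_
    rw [← haT]
    have h2 : TLine N A B l L a b ≤ TAll η N K J γ A B l L a b := by
      have := TEv_nonneg η N J l L a b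
      have := TK_nonneg N K J A B (l := l) hL a b
      have := TNear_nonneg N K J γ A B l L a b
      unfold TAll; linarith
    refine le_add_of_nonneg_of_le (mul_nonneg hU0 (by linarith))
      (mul_le_mul ?_ h2 (TLine_nonneg _ _ _ _ _ _ _) hU0)
    linarith [show (0 : ℝ) ≤ c₁ * (2 * 4 ^ N + 3 ^ N) by positivity]

/-- The bound of one pair. -/
theorem point_bound : ∃ N : ℕ, ∀ (K : ℕ) (η η' : ℝ), 1 ≤ K → 0 < η → η ≤ 1 → 0 < η' →
    ∃ C : ℝ, 0 ≤ C ∧ ∀ (γ : ℝ) (A : ℕ → ℤ) (B : ℕ → ℕ), IsCls γ A B → ∀ l₀ l L q r : ℕ,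
      1 ≤ l → l ≤ L → 4 * L ≤ 5 * l → L ≤ 2 * l₀ → 0 < q → 0 < r → q ≠ r →
      ∃ J₀, ∀ J, J₀ ≤ J → rhoSum γ A B l L q r / dgap l L q r ≤
        C * (1 + TMid η η' K l₀ (dgap l L q r) + TAll η N K J γ A B l L (red q r) (red r q)) := by
  obtain ⟨N₁, C₁, hA⟩ := anat
  obtain ⟨N₂, hAL⟩ := anatLarge
  refine ⟨max N₁ N₂, fun K η η' hK hη hη1 hη' => ?_⟩
  set N := max N₁ N₂ with hN
  obtain ⟨C₂, hC₂⟩ := hAL η hη
  obtain ⟨C₃, hC₃, hlogL⟩ := log_le_small hη' N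
  set c₁ := max C₁ 0
  set c₂ := max C₂ 0
  set U : ℝ := 2 * c₂ + 2 * c₂ * 2 ^ N + c₁ * C₃ + 2 * c₁ * 2 ^ N + 2 * (c₁ * (2 * 4 ^ N + 3 ^ N)) + 1 with hU
  have hU0 : 0 ≤ U := by positivity
  refine ⟨U, hU0, fun γ A B hcls l₀ l L q r hl hlL h45 hLl₀ hq hr hne => ?_⟩
  have hL : 1 ≤ L := hl.trans hlL
  have hL1 : (1 : ℝ) ≤ L := by exact_mod_cast hL
  obtain ⟨hcl, hG, hsm⟩ := hA γ A B hcls l L q r hl hlL h45 hq hr hne
  obtain ⟨hr', hq', hD0⟩ := dgap_facts (r := r) hq l L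
  set D := dgap l L q r with hDdef
  set a := red q r
  set b := red r q
  have hplog : ∀ {x : ℝ}, 1 ≤ x → x ^ N₁ ≤ x ^ N ∧ x ^ N₂ ≤ x ^ N := fun hx =>
    ⟨pow_le_pow_right₀ hx (le_max_left _ _), pow_le_pow_right₀ hx (le_max_right _ _)⟩
  have hlD : 1 ≤ (L : ℝ) + Real.log (2 + D) := one_le_log_add L hD0.le hL
  have hpD : 1 ≤ 1 + Real.log ((L : ℝ) + 1) + Real.log (2 + D) := by
    have := Real.log_nonneg (show (1 : ℝ) ≤ L + 1 by linarith)
    have := Real.log_nonneg (show (1 : ℝ) ≤ 2 + D by linarith)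
    linarith
  have hG' : rhoSum γ A B l L q r ≤
      c₁ * (1 + D) * (1 + Real.log ((L : ℝ) + 1) + Real.log (2 + D)) ^ N +
        c₁ * ((L : ℝ) + Real.log (2 + D)) ^ N * (if KEv A B l L a then 1 else 0) := by
    refine hG.trans (add_le_add ?_ ?_)
    · exact mul_le_mul (mul_le_mul_of_nonneg_right (le_max_left _ _) (by linarith)) (hplog hpD).1
        (by positivity) (by positivity)
    · refine mul_le_mul_of_nonneg_right ?_ (by split <;> norm_num)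
      exact mul_le_mul (le_max_left _ _) (hplog hlD).1 (by positivity) (le_max_right _ _)
  have e1 : (0 : ℝ) ≤ 2 * c₂ * 2 ^ N := by positivity
  have e2 : (0 : ℝ) ≤ 2 * c₂ := by positivity
  have e3 : (0 : ℝ) ≤ c₁ * C₃ := by positivity
  have e4 : (0 : ℝ) ≤ 2 * c₁ * 2 ^ N := by positivity
  have e5 : (0 : ℝ) ≤ 2 * (c₁ * (2 * 4 ^ N + 3 ^ N)) := by positivity
  rcases le_or_gt ((L : ℝ) ^ η) D with hbig | hbig
  · exact point_large (le_max_right N₁ N₂) hη (by linarith) hL hq hbig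
      fun D₀ h1 h2 => hC₂ γ A B hcls l L q r hl hlL h45 hq hr hne D₀ h1 h2 hbig
  rcases le_or_gt ((8 * (L : ℝ) ^ K)⁻¹) D with hmid | hmid
  · exact point_mid hη hη1 hη' (le_max_right _ _) hC₃ (by linarith) hlogL hL hLl₀ hq hbig hmid hG'
  · exact point_small (le_max_right _ _) (by linarith) hL hq hr hmid hG' hsm

/-- Events of one pair of nearby levels. -/
def LevelBoundStmt : Prop :=
  ∀ N : ℕ, ∃ K : ℕ, 1 ≤ K ∧ ∀ η : ℝ, 0 < η → ∃ C : ℝ, 0 ≤ C ∧
    ∀ (γ : ℝ) (A : ℕ → ℤ) (B : ℕ → ℕ), IsCls γ A B →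
      ∀ (V W : Finset ℕ), (∀ v ∈ V, 0 < v) → (∀ w ∈ W, 0 < w) →
        ∀ (M : ℝ), 1 ≤ M → ∀ l L J : ℕ, 1 ≤ l → l ≤ L → 4 * L ≤ 5 * l →
          (99999 / 100000 : ℝ) * L ≤ l →
          ∑ v ∈ V, mass l v ≤ M → ∑ w ∈ W, mass L w ≤ M →
          pairW l L V W (TAll η N K J γ A B l L) ≤ C * ((L : ℝ) ^ 2)⁻¹ * M ^ 2

end Vale.Agent.P028
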