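import Vale.Agent.P028.Bounds

/-! The two parameter ranges of the ratio inequality. -/

namespace Vale.Agent.P028

open Finset Real

/-- The part of `X` at the primes of `P`. -/
def primePart (P : Finset ℕ) (X : ℕ) : ℕ := ∏ p ∈ P, p ^ X.factorization p

theorem primePart_pos {P : Finset ℕ} (hP : ∀ p ∈ P, p.Prime) (X : ℕ) : 0 < primePart P X :=
  prod_pos fun p hp => pow_pos (hP p hp).pos _

theorem primePart_mono {P : Finset ℕ} (hP : ∀ p ∈ P, p.Prime) {X Z : ℕ} (hZ : Z ≠ 0) (h : X ∣ Z) :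
    primePart P X ≤ primePart P Z := by
  refine prod_le_prod' fun p hp => Nat.pow_le_pow_right (hP p hp).pos ?_
  exact (Nat.factorization_le_iff_dvd (fun h0 => hZ (by rw [h0] at h; exact zero_dvd_iff.1 h)) hZ).2 h p

theorem primePart_resolvedPart {P R : Finset ℕ} (hR : ∀ p ∈ R, p.Prime) (hPR : P ⊆ R) (v w : ℕ) :
    primePart P (resolvedPart R v w) = resolvedPart P v w :=
  prod_congr rfl fun p hp => by rw [factorization_resolvedPart hR, if_pos (hPR hp)]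

theorem resolvedPart_split {P R : Finset ℕ} (hPR : P ⊆ R) (v w : ℕ) :
    (resolvedPart R v w : ℝ) = (resolvedPart (R \ P) v w : ℝ) * resolvedPart P v w := by
  rw [← Nat.cast_mul]
  exact congrArg _ (prod_sdiff hPR).symm

theorem one_le_resolvedPart {R : Finset ℕ} (hR : ∀ p ∈ R, p.Prime) (v w : ℕ) :
    (1 : ℝ) ≤ resolvedPart R v w := by exact_mod_cast resolvedPart_pos hR v w

/-- Splitting the saving from `min 1 (y + z)`. -/
theorem min_one_add_rpow_le {y z e a b : ℝ} (hy : 0 ≤ y) (hz : 0 ≤ z) (he : e ≤ 1) (ha : a ≤ e)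
    (ha0 : 0 < a) (hb : b ≤ e) (hb0 : 0 < b) :
    min 1 (y + z) ^ e ≤ y ^ a + z ^ b := by
  have key : ∀ x c : ℝ, 0 ≤ x → 0 < c → c ≤ e → min 1 x ^ e ≤ x ^ c := by
    intro x c hx hc hce
    have hm : 0 ≤ min 1 x := le_min zero_le_one hx
    refine le_trans ?_ (rpow_le_rpow hm (min_le_right 1 x) hc.le)
    rcases eq_or_lt_of_le hm with h | h
    · rw [← h, zero_rpow hc.ne', zero_rpow (by linarith : e ≠ 0)]
    · exact rpow_le_rpow_of_exponent_ge h (min_le_left _ _) hce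
  have he0 : 0 ≤ e := by linarith
  calc min 1 (y + z) ^ e ≤ (min 1 y + min 1 z) ^ e := by
        refine rpow_le_rpow (le_min zero_le_one (by positivity)) ?_ he0
        rcases le_total 1 y with h | h
        · rw [min_eq_left h]; linarith [min_le_left 1 (y + z), le_min zero_le_one hz]
        rcases le_total 1 z with h' | h'
        · rw [min_eq_left h']; linarith [min_le_left 1 (y + z), le_min zero_le_one hy]
        rw [min_eq_right h, min_eq_right h']; exact min_le_right _ _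
    _ ≤ min 1 y ^ e + min 1 z ^ e :=
        rpow_add_le_add_rpow (le_min zero_le_one hy) (le_min zero_le_one hz) he0 he
    _ ≤ _ := add_le_add (key y a hy ha0 ha) (key z b hz hb0 hb)

theorem sum_le_card_floor {g : ℕ → ℝ} (hg : ∀ t, g t ≤ 1) {Z : ℝ} (hZ : 0 ≤ Z) :
    ∑ t ∈ Icc 1 ⌊Z⌋₊, g t ≤ Z := by
  refine (sum_le_sum fun t _ => hg t).trans ?_
  rw [sum_const, Nat.card_Icc, Nat.add_sub_cancel, nsmul_eq_mul, mul_one]
  exact Nat.floor_le hZ

/-- Costs `κ` per resolved prime power on one side; `a` is only charged at the pattern primes. -/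
theorem bilinear_modeI (hdiv : DivisorSumStmt) {θ κ : ℝ} (hθ : 1 / 2 < θ) (hθ1 : θ < 1) (hκ : 0 < κ)
    (hθ3 : θ ≤ 2 / 3)
    (hκ4 : κ ≤ (1 - θ) / 4) (hκdir : 1 - θ < θ * ((1 - θ - κ) / (1 - θ))) :
    ∃ (p₀ : ℕ) (C : ℝ), 0 ≤ C ∧ ∀ (P : Finset ℕ), (∀ p ∈ P, p.Prime) →
      ∀ (V W : Finset ℕ), (∀ v ∈ V, 0 < v) → (∀ w ∈ W, 0 < w) →
        (∀ x ∈ V ∪ W, ∀ p ∈ x.primeFactors, p ∉ P → p₀ < p) →
      ∀ (α β : ℕ → ℝ), (∀ v ∈ V, 0 < α v ∧ α v ≤ 1) → (∀ w ∈ W, 0 < β w ∧ β w ≤ 1) →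
      ∀ (g : ℕ → ℕ → ℝ), (∀ q r, 0 ≤ g q r ∧ g q r ≤ 1) →
      ∀ (Q S a b : ℝ), 1 ≤ Q → 1 ≤ S → 0 ≤ a → 0 ≤ b →
        (∀ q r, g q r ≠ 0 → (q : ℝ) ≤ Q ∧ (r : ℝ) ≤ S) →
        (∀ X r : ℕ, 0 < X → ∑ t ∈ Icc 1 ⌊Q / X⌋₊, g (X * t) r ≤
          Q / X * (a * primePart P X + b * X)) →
      ∑ v ∈ V, ∑ w ∈ W, α v * β w * g (red v w) (red w v) ≤
        C * (2 / (1 - (2 : ℝ) ^ (-((1 - θ) / 2)))) ^ P.card *
          (Q * S * (1 + Real.log (max Q S)) ^ 3) ^ (1 - θ) * (a ^ ((1 - θ) / 4) + b ^ κ) *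
          ((∑ v ∈ V, α v) * ∑ w ∈ W, β w) ^ θ := by
  classical
  have h1θ : 0 < 1 - θ := by linarith
  set e₁ := 1 - θ - κ with he₁
  set e₂ := 1 - θ with he₂
  set f := (1 - θ) / 2 with hf
  have he₁0 : 0 < e₁ := by rw [he₁]; linarith
  have hs1 : 1 < θ * (e₁ / (1 - θ) + e₂ / (1 - θ)) := by
    rw [mul_add, he₂, div_self h1θ.ne', mul_one]; linarith
  have hs2 : 1 < 2 * e₁ + 2 * θ * (e₁ / (1 - θ)) := by
    have h5 : 2 * θ * (e₁ / (1 - θ)) = 2 * (θ * (e₁ / (1 - θ))) := by ring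
    have h6 : e₁ = 1 - θ - κ := he₁
    have h7 : e₂ = 1 - θ := he₂
    rw [h5]
    linarith
  obtain ⟨η, hη, hη2, hηθ, p₁, hp₁⟩ := exists_params hθ hθ1 he₁0
  obtain ⟨p₂, hp₂, hp₂'⟩ := exists_absorb hθ hθ1 he₁0 (by rw [he₁, he₂]; linarith : e₁ ≤ e₂) hκdir hs1 hs2
  refine ⟨max p₁ p₂, 2, zero_le_two, fun P hP V W hVpos hWpos hbig α β hα hβ g hg Q S a b hQ hS ha hb
    hsupp hcount => ?_⟩
  set L := 1 + Real.log (max Q S) with hL
  have hL0 : 0 ≤ L := by
    have := Real.log_nonneg (hQ.trans (le_max_left Q S)); linarith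
  set cP := 2 / (1 - (2 : ℝ) ^ (-f)) with hcP
  set D := a ^ ((1 - θ) / 4) + b ^ κ with hD
  set C₀ := (Q * S * L ^ 3) ^ (1 - θ) * D with hC₀
  set Γ : ℕ → ℕ → ℝ := fun X _ => min 1 (a * primePart P X + b * X) with hΓ
  have h := ratio_bilinear hdiv hθ hθ1 hη hη2 hηθ (e₁ := e₁) (e₂ := e₂) (f₁ := f) (f₂ := f)
    (by rw [he₁, he₂]; linarith) (b := fun _ => cP) P hP
    (fun p hp J i => (sum_expKer_powT_le (by positivity) le_rfl (hP p hp).two_le J i).1)
    (fun p hp J i => (sum_expKer_powT_le (by positivity) le_rfl (hP p hp).two_le J i).2)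
    V W hVpos hWpos
    (fun x hx p hp hpP => hp₁ p (lt_of_le_of_lt (le_max_left _ _) (hbig x hx p hp hpP)) e₂)
    α β hα hβ g hg hQ hS hsupp ?_ Γ (fun X Y => le_min zero_le_one (by positivity)) ?_
    (C := C₀) (mul_nonneg (rpow_nonneg (by positivity) _) (by positivity)) ?_
  · refine h.trans_eq ?_
    rw [prod_const, hC₀]; ring
  · intro G hG hG₁ hG₂ hT _ _ _
    refine GcdSys.absorbs_of_sum (fun p hp => ?_) ?_
    · obtain ⟨hp', hpP⟩ := mem_sdiff.1 (hT hp)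
      obtain ⟨x, hx, hpx⟩ := mem_biUnion.1 hp'
      simp only [GcdSys.thr, hG, hG₁, hG₂]
      exact hp₂ p (lt_of_le_of_lt (le_max_right _ _) (hbig x hx p hpx hpP))
    · simp only [GcdSys.thr, GcdSys.thr₂, hG, hG₁, hG₂]
      refine hp₂' G.T₀ fun p hp => ?_
      obtain ⟨hp', hpP⟩ := mem_sdiff.1 (hT hp)
      obtain ⟨x, hx, hpx⟩ := mem_biUnion.1 hp'
      exact lt_of_le_of_lt (le_max_right _ _) (hbig x hx p hpx hpP)
  · intro X Y u hX hY
    rw [hΓ]
    simp only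
    have hQX : 0 ≤ Q / (X : ℝ) := by positivity
    rw [mul_min_of_nonneg _ _ hQX, mul_one]
    exact le_min (sum_le_card_floor (fun t => (hg _ _).2) hQX) (hcount X (Y * u) hX)
  · intro R v w hPR hR
    set X := resolvedPart R v w
    set Y := resolvedPart R w v
    have hXs := resolvedPart_split hPR v w
    have hYs := resolvedPart_split hPR w v
    have hRP : ∀ p ∈ R \ P, p.Prime := fun p hp => hR p (sdiff_subset hp)
    set Xp : ℝ := (resolvedPart P v w : ℝ) with hXp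
    set Yp : ℝ := (resolvedPart P w v : ℝ) with hYp
    set Xt : ℝ := (resolvedPart (R \ P) v w : ℝ) with hXt
    set Yt : ℝ := (resolvedPart (R \ P) w v : ℝ) with hYt
    have hXp1 : 1 ≤ Xp := one_le_resolvedPart hP v w
    have hYp1 : 1 ≤ Yp := one_le_resolvedPart hP w v
    have hXt1 : 1 ≤ Xt := one_le_resolvedPart hRP v w
    have hYt1 : 1 ≤ Yt := one_le_resolvedPart hRP w v
    have hXpos : (0 : ℝ) < X := by exact_mod_cast resolvedPart_pos hR v w
    have hYpos : (0 : ℝ) < Y := by exact_mod_cast resolvedPart_pos hR w v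
    rw [shiftWt_powT hP, shiftWt_powT hRP]
    have hpp : (primePart P X : ℝ) = Xp := by rw [primePart_resolvedPart hR hPR]
    have hmin0 : 0 ≤ min 1 (a * primePart P X + b * X) := le_min zero_le_one (by positivity)
    have key := min_one_add_rpow_le (e := (1 - θ) / 2) (a := (1 - θ) / 4) (b := κ)
      (show 0 ≤ a * Xp by positivity) (show 0 ≤ b * (X : ℝ) by positivity) (by linarith) (by linarith)
      (by linarith) (by linarith) hκ
    calc (Q / X * (S / Y) * √(Γ X Y) * L ^ 3) ^ (1 - θ)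
        = (Q * S * L ^ 3) ^ (1 - θ) * (((X : ℝ) * Y) ^ (1 - θ))⁻¹ *
            min 1 (a * Xp + b * X) ^ ((1 - θ) / 2) := by
          rw [hΓ]; simp only [hpp]
          rw [show Q / X * (S / Y) * √(min 1 (a * Xp + b * X)) * L ^ 3 =
            Q * S * L ^ 3 * ((X : ℝ) * Y)⁻¹ * √(min 1 (a * Xp + b * X)) by field_simp,
            mul_rpow (by positivity) (sqrt_nonneg _), mul_rpow (by positivity) (by positivity),
            inv_rpow (by positivity), sqrt_eq_rpow, ← rpow_mul (by rw [← hpp]; exact hmin0)]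
          congr 2; ring
      _ ≤ (Q * S * L ^ 3) ^ (1 - θ) * (((X : ℝ) * Y) ^ (1 - θ))⁻¹ *
            ((a * Xp) ^ ((1 - θ) / 4) + (b * X) ^ κ) := by gcongr
      _ ≤ (Q * S * L ^ 3) ^ (1 - θ) * (Xp ^ (-f) * Yp ^ (-f) * (Xt ^ (-e₁) * Yt ^ (-e₂)) * D) := by
          rw [mul_assoc]
          refine mul_le_mul_of_nonneg_left ?_ (rpow_nonneg (by positivity) _)
          rw [mul_rpow (by positivity) hYpos.le, hXs, hYs,
            mul_rpow (by linarith) (by linarith), mul_rpow (by linarith) (by linarith),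
            mul_rpow ha (by linarith), mul_rpow hb (by positivity), mul_rpow (by linarith) (by linarith),
            mul_inv, mul_inv, mul_inv, ← rpow_neg (by linarith), ← rpow_neg (by linarith),
            ← rpow_neg (by linarith), ← rpow_neg (by linarith)]
          have hY1 : Yp ^ (-(1 - θ)) ≤ Yp ^ (-f) := rpow_le_rpow_of_exponent_le hYp1 (by rw [hf]; linarith)
          have hX1 : Xp ^ (-(1 - θ)) * Xp ^ ((1 - θ) / 4) ≤ Xp ^ (-f) := by
            rw [← rpow_add (by linarith)]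
            exact rpow_le_rpow_of_exponent_le hXp1 (by rw [hf]; linarith)
          have hX2 : Xp ^ (-(1 - θ)) * Xp ^ κ ≤ Xp ^ (-f) := by
            rw [← rpow_add (by linarith)]
            exact rpow_le_rpow_of_exponent_le hXp1 (by rw [hf]; linarith)
          have hT1 : Xt ^ (-(1 - θ)) ≤ Xt ^ (-e₁) := rpow_le_rpow_of_exponent_le hXt1 (by rw [he₁, he₂]; linarith)
          have hT2 : Xt ^ (-(1 - θ)) * Xt ^ κ ≤ Xt ^ (-e₁) := by
            rw [← rpow_add (by linarith)]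
            exact le_of_eq (by rw [he₁, he₂]; ring_nf)
          calc Xt ^ (-(1 - θ)) * Xp ^ (-(1 - θ)) * (Yt ^ (-(1 - θ)) * Yp ^ (-(1 - θ))) *
              (a ^ ((1 - θ) / 4) * Xp ^ ((1 - θ) / 4) + b ^ κ * (Xt ^ κ * Xp ^ κ))
              = (Yp ^ (-(1 - θ)) * Yt ^ (-e₂)) *
                  (a ^ ((1 - θ) / 4) * (Xt ^ (-(1 - θ)) * (Xp ^ (-(1 - θ)) * Xp ^ ((1 - θ) / 4))) +
                    b ^ κ * ((Xt ^ (-(1 - θ)) * Xt ^ κ) * (Xp ^ (-(1 - θ)) * Xp ^ κ))) := by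
                rw [he₂]; ring
            _ ≤ (Yp ^ (-f) * Yt ^ (-e₂)) *
                  (a ^ ((1 - θ) / 4) * (Xt ^ (-e₁) * Xp ^ (-f)) +
                    b ^ κ * (Xt ^ (-e₁) * Xp ^ (-f))) := by gcongr
            _ = _ := by rw [hD]; ring
      _ = _ := by rw [hC₀]; ring

theorem modeII_key {θ κ Xp Yp Xt Yt T b : ℝ} (hκ : 0 < κ) (hκ2 : κ ≤ (1 - θ) / 2) (hXp1 : 1 ≤ Xp)
    (hYp1 : 1 ≤ Yp) (hXt1 : 1 ≤ Xt) (hYt1 : 1 ≤ Yt) (hXT : Xp ≤ T) (hYT : Yp ≤ T) (hb : 0 ≤ b) :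
    ((Xt * Xp * (Yt * Yp)) ^ (1 - θ))⁻¹ * (b ^ κ * (Xt * Xp) ^ κ) ≤
      b ^ κ * (T ^ 2 * Xp ^ (-(2 : ℝ)) * (T ^ 2 * Yp ^ (-(2 : ℝ))) *
        (Xt ^ (-(1 - θ - κ)) * Yt ^ (-(1 - θ - κ)))) := by
  have h0 : 0 ≤ Xp ∧ 0 ≤ Yp ∧ 0 ≤ Xt ∧ 0 ≤ Yt := ⟨by linarith, by linarith, by linarith, by linarith⟩
  rw [mul_rpow (by positivity) (by positivity), mul_rpow h0.2.2.1 h0.1, mul_rpow h0.2.2.2 h0.2.1,
    mul_rpow h0.2.2.1 h0.1, mul_inv, mul_inv, mul_inv, ← rpow_neg h0.1, ← rpow_neg h0.2.1,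
    ← rpow_neg h0.2.2.1, ← rpow_neg h0.2.2.2]
  have hsm : ∀ z : ℝ, 1 ≤ z → z ≤ T → ∀ c : ℝ, c ≤ 0 → z ^ c ≤ T ^ 2 * z ^ (-(2 : ℝ)) := by
    intro z hz hzT c hc0
    refine (rpow_le_one_of_one_le_of_nonpos hz hc0).trans ?_
    rw [rpow_neg (by linarith), rpow_two, ← div_eq_mul_inv, one_le_div (by positivity)]
    exact pow_le_pow_left₀ (by linarith) hzT 2
  have hY1 : Yp ^ (-(1 - θ)) ≤ T ^ 2 * Yp ^ (-(2 : ℝ)) := hsm Yp hYp1 hYT _ (by linarith)
  have hX1 : Xp ^ (-(1 - θ)) * Xp ^ κ ≤ T ^ 2 * Xp ^ (-(2 : ℝ)) := by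
    rw [← rpow_add (by linarith)]; exact hsm Xp hXp1 hXT _ (by linarith)
  have hT1 : Xt ^ (-(1 - θ)) * Xt ^ κ ≤ Xt ^ (-(1 - θ - κ)) := by
    rw [← rpow_add (by linarith)]; exact le_of_eq (by ring_nf)
  have hT2 : Yt ^ (-(1 - θ)) ≤ Yt ^ (-(1 - θ - κ)) :=
    rpow_le_rpow_of_exponent_le hYt1 (by linarith)
  calc Xt ^ (-(1 - θ)) * Xp ^ (-(1 - θ)) * (Yt ^ (-(1 - θ)) * Yp ^ (-(1 - θ))) *
      (b ^ κ * (Xt ^ κ * Xp ^ κ))
      = b ^ κ * (((Xp ^ (-(1 - θ)) * Xp ^ κ) * Yp ^ (-(1 - θ))) *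
          ((Xt ^ (-(1 - θ)) * Xt ^ κ) * Yt ^ (-(1 - θ)))) := by ring
    _ ≤ _ := by gcongr

/-- Symmetric costs; the numbers composed of the pattern primes are at most `T`. -/
theorem bilinear_modeII (hdiv : DivisorSumStmt) {θ κ : ℝ} (hθ : 1 / 2 < θ) (hθ1 : θ < 1) (hκ : 0 < κ)
    (hκ2 : κ ≤ (1 - θ) / 2) :
    ∃ (p₀ : ℕ) (C cτ : ℝ), 0 ≤ C ∧ 0 < cτ ∧ ∀ (P₀ L : ℕ), p₀ < P₀ →
        4 * (L + 1) * (2 * L + 1) * (cτ * powT ((1 - θ - κ) / (1 - θ)) P₀) ^ (2 * θ - 1) ≤ 1 →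
      ∀ (P : Finset ℕ), (∀ p ∈ P, p.Prime) →
      ∀ (V W : Finset ℕ), (∀ v ∈ V, 0 < v) → (∀ w ∈ W, 0 < w) →
        (∀ x ∈ V ∪ W, ∀ p ∈ x.primeFactors, p ∉ P → P₀ < p) →
      ∀ (α β : ℕ → ℝ), (∀ v ∈ V, 0 < α v ∧ α v ≤ 1) → (∀ w ∈ W, 0 < β w ∧ β w ≤ 1) →
      ∀ (g : ℕ → ℕ → ℝ), (∀ q r, 0 ≤ g q r ∧ g q r ≤ 1) →
      ∀ (Q S T b : ℝ), 1 ≤ Q → 1 ≤ S → 0 ≤ T → 0 ≤ b → Q * S ≤ (2 : ℝ) ^ L →
        (∀ q r, g q r ≠ 0 → (q : ℝ) ≤ Q ∧ (r : ℝ) ≤ S) →
        (∀ q r, g q r ≠ 0 → (primePart P q : ℝ) ≤ T ∧ (primePart P r : ℝ) ≤ T) →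
        (∀ q, g q 0 = 0) →
        (∀ X r : ℕ, 0 < X → ∑ t ∈ Icc 1 ⌊Q / X⌋₊, g (X * t) r ≤ Q / X * (b * X)) →
      ∑ v ∈ V, ∑ w ∈ W, α v * β w * g (red v w) (red w v) ≤
        C * T ^ 4 * (Q * S * (1 + Real.log (max Q S)) ^ 3) ^ (1 - θ) * b ^ κ *
          ((∑ v ∈ V, α v) * ∑ w ∈ W, β w) ^ θ := by
  classical
  have h1θ : 0 < 1 - θ := by linarith
  set e := 1 - θ - κ with he
  have he0 : 0 < e := by rw [he]; linarith
  obtain ⟨η, hη, hη2, hηθ, p₁, hp₁⟩ := exists_params hθ hθ1 he0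
  have hθ0 : 0 < θ := by linarith
  refine ⟨p₁, 2 * Real.exp 6, (6 / θ) ^ (1 / (1 - θ)), by positivity, by positivity,
    fun P₀ L hP₀ hsmall P hP V W hVpos hWpos hbig α β hα hβ g hg Q S T b hQ hS hT hb hQS hsupp hsm
      hzero hcount => ?_⟩
  set Lg := 1 + Real.log (max Q S) with hLg
  have hLg0 : 0 ≤ Lg := by
    have := Real.log_nonneg (hQ.trans (le_max_left Q S)); linarith
  set C₀ := T ^ 4 * ((Q * S * Lg ^ 3) ^ (1 - θ) * b ^ κ) with hC₀
  set Γ : ℕ → ℕ → ℝ := fun X Y =>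
    if (primePart P X : ℝ) ≤ T ∧ (primePart P Y : ℝ) ≤ T then min 1 (b * X) else 0 with hΓ
  have h := ratio_bilinear hdiv hθ hθ1 hη hη2 hηθ (e₁ := e) (e₂ := e) (f₁ := 2) (f₂ := 2) le_rfl
    (b := fun p => 1 + 3 * powT 2 p) P hP
    (fun p hp J i => (sum_expKer_le (powT_nonneg 2 p) (powT_nonneg 2 p) le_rfl le_rfl ?_ J i).1)
    (fun p hp J i => (sum_expKer_le (powT_nonneg 2 p) (powT_nonneg 2 p) le_rfl le_rfl ?_ J i).2)
    V W hVpos hWpos
    (fun x hx p hp hpP => hp₁ p (hP₀.trans (hbig x hx p hp hpP)) e)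
    α β hα hβ g hg hQ hS hsupp ?_ Γ (fun X Y => by
      simp only [hΓ]; split
      · exact le_min zero_le_one (by positivity)
      · exact le_rfl) ?_
    (C := C₀) (by positivity) ?_
  · refine h.trans ?_
    have hprod : ∏ p ∈ P, (1 + 3 * powT 2 p) ≤ Real.exp 6 := by
      refine (prod_le_prod (fun p _ => by have := powT_nonneg 2 p; linarith)
        (fun p _ => (by linarith [Real.add_one_le_exp (3 * powT 2 p)] :
          1 + 3 * powT 2 p ≤ Real.exp (3 * powT 2 p)))).trans ?_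
      rw [← Real.exp_sum, Real.exp_le_exp, ← mul_sum]
      have h1 : ∑ p ∈ P, powT 2 p ≤ ∑ p ∈ P, 1 / ((p : ℝ) * (p - 1)) := by
        refine sum_le_sum fun p hp => ?_
        have h2 : (2 : ℝ) ≤ p := by exact_mod_cast (hP p hp).two_le
        rw [powT, rpow_neg (by linarith), rpow_two, ← one_div]
        exact one_div_le_one_div_of_le (by nlinarith) (by nlinarith)
      have h3 : ∀ P : Finset ℕ, (∀ p ∈ P, 2 ≤ p) → ∑ p ∈ P, 1 / ((p : ℝ) * (p - 1)) ≤ 2 := by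
        intro P hP2
        have key : ∀ M : ℕ, 2 ≤ M → ∑ n ∈ Ico 2 M, 1 / ((n : ℝ) * (n - 1)) ≤ 1 - 1 / ((M : ℝ) - 1) := by
          intro M hM
          induction M, hM using Nat.le_induction with
          | base => norm_num
          | succ M hM ih =>
            rw [sum_Ico_succ_top hM]
            have h2 : (2 : ℝ) ≤ M := by exact_mod_cast hM
            have : (1 : ℝ) / ((M : ℝ) * (M - 1)) = 1 / ((M : ℝ) - 1) - 1 / M := by
              field_simp [show (M : ℝ) - 1 ≠ 0 by linarith]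
              ring
            push_cast
            rw [add_sub_cancel_right]
            linarith
        refine (sum_le_sum_of_subset_of_nonneg (t := Ico 2 (P.sup id + 2)) ?_ ?_).trans
          ((key _ (by omega)).trans ?_)
        · intro p hp
          exact mem_Ico.2 ⟨hP2 p hp, by have := le_sup (f := id) hp; simp only [id_eq] at this; omega⟩
        · intro n hn _
          have : (2 : ℝ) ≤ n := by exact_mod_cast (mem_Ico.1 hn).1
          exact div_nonneg zero_le_one (by nlinarith)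
        · have : (2 : ℝ) ≤ ((P.sup id + 2 : ℕ) : ℝ) := by exact_mod_cast Nat.le_add_left 2 _
          have : (0 : ℝ) ≤ 1 / (((P.sup id + 2 : ℕ) : ℝ) - 1) := div_nonneg zero_le_one (by linarith)
          linarith
      linarith [h3 P fun p hp => (hP p hp).two_le]
    have hM : 0 ≤ ((∑ v ∈ V, α v) * ∑ w ∈ W, β w) ^ θ := rpow_nonneg (mul_nonneg
      (sum_nonneg fun v hv => (hα v hv).1.le) (sum_nonneg fun w hw => (hβ w hw).1.le)) _
    refine (mul_le_mul_of_nonneg_right (mul_le_mul_of_nonneg_left hprod (by positivity)) hM).trans_eq ?_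
    rw [hC₀]; ring
  · have h2 : (2 : ℝ) ≤ p := by exact_mod_cast (hP p hp).two_le
    rw [powT, rpow_neg (by linarith), rpow_two, inv_le_comm₀ (by positivity) (by norm_num)]
    nlinarith
  · have h2 : (2 : ℝ) ≤ p := by exact_mod_cast (hP p hp).two_le
    rw [powT, rpow_neg (by linarith), rpow_two, inv_le_comm₀ (by positivity) (by norm_num)]
    nlinarith
  · intro G hG hG₁ hG₂ hT₀ hV₀ hW₀ hk
    refine GcdSys.absorbs_of_count (L := L) (τ := (6 / θ) ^ (1 / (1 - θ)) * powT (e / (1 - θ)) P₀)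
      (mul_nonneg (by positivity) (powT_nonneg _ _)) (fun p hp => ?_) (fun v hv w hw hne => ?_) ?_
    · obtain ⟨hp', hpP⟩ := mem_sdiff.1 (hT₀ hp)
      obtain ⟨x, hx, hpx⟩ := mem_biUnion.1 hp'
      simp only [GcdSys.thr, hG, hG₁]
      exact thrOf_le_const hθ0 hθ1 he0.le (by omega) (hbig x hx p hpx hpP).le
    · obtain ⟨hq, hr⟩ := hsupp _ _ (hk v w hne)
      have hv' : 0 < v := hVpos v (hV₀ hv)
      have hw' : 0 < w := hWpos w (hW₀ hw)
      set n := red v w * red w v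
      have hn : 0 < n := Nat.mul_pos (red_pos hv') (red_pos hw')
      refine le_trans (card_le_card (t := n.primeFactors) fun p hp => ?_) ?_
      · obtain ⟨-, hne'⟩ := mem_filter.1 hp
        rw [Nat.primeFactors_mul (red_pos hv').ne' (red_pos hw').ne', mem_union,
          ← Nat.support_factorization, ← Nat.support_factorization, Finsupp.mem_support_iff,
          Finsupp.mem_support_iff, factorization_red hv' hw', factorization_red hw' hv']
        omega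
      · refine (Nat.pow_le_pow_iff_right (Nat.lt_succ_self 1)).1 (show 2 ^ n.primeFactors.card ≤ 2 ^ L from ?_)
        have h1 : 2 ^ n.primeFactors.card ≤ n := by
          refine le_trans ?_ (Nat.le_of_dvd hn (Nat.prod_primeFactors_dvd n))
          rw [← prod_const]
          exact prod_le_prod' fun p hp => (Nat.prime_of_mem_primeFactors hp).two_le
        refine h1.trans ?_
        have : (n : ℝ) ≤ (2 : ℝ) ^ L := by
          refine le_trans ?_ hQS
          push_cast [n]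
          exact mul_le_mul hq hr (Nat.cast_nonneg _) (by linarith)
        exact_mod_cast this
    · simpa only [hG] using hsmall
  · intro X Y u hX hY
    have hQX : 0 ≤ Q / (X : ℝ) := by positivity
    simp only [hΓ]
    split_ifs with hc
    · rw [mul_min_of_nonneg _ _ hQX, mul_one]
      exact le_min (sum_le_card_floor (fun t => (hg _ _).2) hQX) (hcount X (Y * u) hX)
    · rw [mul_zero]
      refine sum_nonpos fun t ht => ?_
      by_contra hne
      obtain ⟨h1, h2⟩ := hsm _ _ (ne_of_gt (not_le.1 hne))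
      rcases Nat.eq_zero_or_pos u with rfl | hu
      · exact (ne_of_gt (not_le.1 hne)) (by rw [mul_zero]; exact hzero _)
      · have hx : (primePart P X : ℝ) ≤ primePart P (X * t) := by
          exact_mod_cast primePart_mono hP (Nat.mul_pos hX (mem_Icc.1 ht).1).ne' (Dvd.intro t rfl)
        have hy : (primePart P Y : ℝ) ≤ primePart P (Y * u) := by
          exact_mod_cast primePart_mono hP (Nat.mul_pos hY hu).ne' (Dvd.intro u rfl)
        exact hc ⟨hx.trans h1, hy.trans h2⟩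
  · intro R v w hPR hR
    set X := resolvedPart R v w
    set Y := resolvedPart R w v
    have hRP : ∀ p ∈ R \ P, p.Prime := fun p hp => hR p (sdiff_subset hp)
    have hXs := resolvedPart_split hPR v w
    have hYs := resolvedPart_split hPR w v
    set Xp : ℝ := (resolvedPart P v w : ℝ) with hXp
    set Yp : ℝ := (resolvedPart P w v : ℝ) with hYp
    set Xt : ℝ := (resolvedPart (R \ P) v w : ℝ) with hXt
    set Yt : ℝ := (resolvedPart (R \ P) w v : ℝ) with hYt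
    have hXp1 : 1 ≤ Xp := one_le_resolvedPart hP v w
    have hYp1 : 1 ≤ Yp := one_le_resolvedPart hP w v
    have hXt1 : 1 ≤ Xt := one_le_resolvedPart hRP v w
    have hYt1 : 1 ≤ Yt := one_le_resolvedPart hRP w v
    have hXpos : (0 : ℝ) < X := by exact_mod_cast resolvedPart_pos hR v w
    have hYpos : (0 : ℝ) < Y := by exact_mod_cast resolvedPart_pos hR w v
    rw [shiftWt_powT hP, shiftWt_powT hRP]
    have hrhs : 0 ≤ C₀ * (Xp ^ (-(2 : ℝ)) * Yp ^ (-(2 : ℝ))) * (Xt ^ (-e) * Yt ^ (-e)) := by positivity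
    simp only [hΓ]
    rw [primePart_resolvedPart hR hPR, primePart_resolvedPart hR hPR]
    split_ifs with hc
    swap
    · rw [sqrt_zero, mul_zero, zero_mul, zero_rpow h1θ.ne']; exact hrhs
    rw [← hXp, ← hYp] at hc
    have hm0 : (0 : ℝ) ≤ min 1 (b * X) := le_min zero_le_one (by positivity)
    have hΓle : min 1 (b * X) ^ ((1 - θ) / 2) ≤ b ^ κ * (X : ℝ) ^ κ := by
      rw [← mul_rpow hb hXpos.le]
      refine le_trans ?_ (rpow_le_rpow hm0 (min_le_right _ _) hκ.le)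
      rcases eq_or_lt_of_le hm0 with h0 | h0
      · rw [← h0, zero_rpow hκ.ne', zero_rpow (by linarith : (1 - θ) / 2 ≠ 0)]
      · exact rpow_le_rpow_of_exponent_ge h0 (min_le_left _ _) hκ2
    calc (Q / X * (S / Y) * √(min 1 (b * X)) * Lg ^ 3) ^ (1 - θ)
        = (Q * S * Lg ^ 3) ^ (1 - θ) * (((X : ℝ) * Y) ^ (1 - θ))⁻¹ *
            min 1 (b * X) ^ ((1 - θ) / 2) := by
          rw [show Q / X * (S / Y) * √(min 1 (b * X)) * Lg ^ 3 =
            Q * S * Lg ^ 3 * ((X : ℝ) * Y)⁻¹ * √(min 1 (b * X)) by field_simp,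
            mul_rpow (by positivity) (sqrt_nonneg _), mul_rpow (by positivity) (by positivity),
            inv_rpow (by positivity), sqrt_eq_rpow, ← rpow_mul hm0]
          congr 2; ring
      _ ≤ (Q * S * Lg ^ 3) ^ (1 - θ) * (((X : ℝ) * Y) ^ (1 - θ))⁻¹ * (b ^ κ * (X : ℝ) ^ κ) := by gcongr
      _ ≤ (Q * S * Lg ^ 3) ^ (1 - θ) * (b ^ κ * ((T ^ 2 * Xp ^ (-(2 : ℝ))) * (T ^ 2 * Yp ^ (-(2 : ℝ))) *
            (Xt ^ (-e) * Yt ^ (-e)))) := by
          rw [mul_assoc]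
          refine mul_le_mul_of_nonneg_left ?_ (rpow_nonneg (by positivity) _)
          rw [hXs, hYs]
          exact modeII_key hκ hκ2 hXp1 hYp1 hXt1 hYt1 hc.1 hc.2 hb
      _ = _ := by rw [hC₀]; ring

end Vale.Agent.P028
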