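import Vale.Agent.P028.NearII

/-! Pairs with a small gap off the exact line, both ranges together. -/

namespace Vale.Agent.P028

open Finset Real
open scoped Classical

theorem pow_mul_two_rpow_le (k : ℕ) {c : ℝ} (hc : 0 < c) :
    ∃ C : ℝ, 0 ≤ C ∧ ∀ L : ℕ, (L : ℝ) ^ k * (1 + 4 * (L : ℝ)) ^ 3 * (2 : ℝ) ^ (-(c * L)) ≤ C := by
  obtain ⟨C, hC, h⟩ := poly_mul_two_pow_le (k + 3) hc
  refine ⟨4 ^ 3 * C, by positivity, fun L => ?_⟩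
  have hL : (0 : ℝ) ≤ L := Nat.cast_nonneg L
  calc (L : ℝ) ^ k * (1 + 4 * (L : ℝ)) ^ 3 * (2 : ℝ) ^ (-(c * L))
      ≤ (1 + (L : ℝ)) ^ k * (4 * (1 + (L : ℝ))) ^ 3 * (2 : ℝ) ^ (-(c * L)) := by gcongr <;> linarith
    _ = 4 ^ 3 * ((1 + (L : ℝ)) ^ (k + 3) * (2 : ℝ) ^ (-(c * L))) := by ring
    _ ≤ _ := mul_le_mul_of_nonneg_left (h L hL) (by positivity)

theorem nearBound (N : ℕ) :
    ∃ (K : ℕ) (C : ℝ), 1 ≤ K ∧ 0 ≤ C ∧ ∀ (γ : ℝ) (A : ℕ → ℤ) (B : ℕ → ℕ), IsCls γ A B →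
      ∀ (V W : Finset ℕ), (∀ v ∈ V, 0 < v) → (∀ w ∈ W, 0 < w) →
        ∀ (M : ℝ), 1 ≤ M → ∀ (l L : ℕ) (D : ℝ), 1 ≤ L → l ≤ L → (99999 / 100000 : ℝ) * L ≤ l →
          0 < D → D ≤ 1 → ((2 : ℝ) ^ L)⁻¹ ≤ 3 * D → D ≤ 2 / (L : ℝ) ^ K →
          ∑ v ∈ V, mass l v ≤ M → ∑ w ∈ W, mass L w ≤ M →
          (L : ℝ) ^ N / D * pairW l L V W (gNear γ A B D l L) ≤ C * ((L : ℝ) ^ 3)⁻¹ * M ^ 2 := by
  obtain ⟨C₁, hC₁, hI⟩ := near_I
  obtain ⟨C₂, hC₂, hII⟩ := near_II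
  obtain ⟨C₃, hC₃, h3⟩ := pow_mul_two_rpow_le (N + 3) (show (0 : ℝ) < 1 / 200000000000 by norm_num)
  obtain ⟨C₄, hC₄, h4⟩ := pow_mul_two_rpow_le (N + 3) (show (0 : ℝ) < 1 / 100000 by norm_num)
  refine ⟨10 * (N + 6), C₁ * (250 + C₃) + C₂ * C₄, by omega, by positivity,
    fun γ A B hcls V W hV hW M hM l L D hL hl hlν hD hD1 hD3 hDK hmV hmW => ?_⟩
  have hL1 : (1 : ℝ) ≤ L := by exact_mod_cast hL
  have hL3 : (0 : ℝ) < (L : ℝ) ^ 3 := by positivity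
  rw [div_mul_eq_mul_div, mul_div_assoc, ← div_eq_mul_inv, div_mul_eq_mul_div, le_div_iff₀ hL3]
  have hM2 : 0 ≤ M ^ 2 := sq_nonneg M
  rcases le_total ((2 : ℝ) ^ (-((49999 / 50000 : ℝ) * L))) D with hDL | hDL
  · have hpow : D ^ (1 / 10 : ℝ) ≤ 2 * ((L : ℝ) ^ (N + 6))⁻¹ := by
      refine (rpow_le_rpow hD.le hDK (by norm_num)).trans ?_
      rw [div_rpow (by norm_num) (by positivity), ← rpow_natCast (L : ℝ) (10 * (N + 6)),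
        ← rpow_mul (by positivity), div_eq_mul_inv, ← rpow_natCast (L : ℝ) (N + 6)]
      refine mul_le_mul ((rpow_le_rpow_of_exponent_le (by norm_num) (by norm_num : (1 / 10 : ℝ) ≤ 1)).trans_eq
        (rpow_one _)) (le_of_eq ?_) (by positivity) (by norm_num)
      congr 2
      push_cast; ring
    have h := hI γ A B hcls V W hV hW M hM l L D hl hD hD1 hD3 hDL hmV hmW
    have h3' : (L : ℝ) ^ (N + 3) * (1 + 4 * (L : ℝ)) ^ 3 * (2 : ℝ) ^ (-((L : ℝ) / 200000000000)) ≤ C₃ := by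
      refine le_trans (le_of_eq ?_) (h3 L); ring_nf
    calc (L : ℝ) ^ N * (pairW l L V W (gNear γ A B D l L) / D) * (L : ℝ) ^ 3
        ≤ (L : ℝ) ^ N * (C₁ * (D ^ (1 / 10 : ℝ) + (2 : ℝ) ^ (-((L : ℝ) / 200000000000))) *
            (1 + 4 * (L : ℝ)) ^ 3 * M ^ 2) * (L : ℝ) ^ 3 := by gcongr
      _ = C₁ * ((L : ℝ) ^ (N + 3) * (1 + 4 * (L : ℝ)) ^ 3 * D ^ (1 / 10 : ℝ) +
            (L : ℝ) ^ (N + 3) * (1 + 4 * (L : ℝ)) ^ 3 * (2 : ℝ) ^ (-((L : ℝ) / 200000000000))) * M ^ 2 := by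
          ring
      _ ≤ C₁ * (250 + C₃) * M ^ 2 := by
          refine mul_le_mul_of_nonneg_right (mul_le_mul_of_nonneg_left (add_le_add ?_ h3') hC₁) hM2
          calc (L : ℝ) ^ (N + 3) * (1 + 4 * (L : ℝ)) ^ 3 * D ^ (1 / 10 : ℝ)
              ≤ (L : ℝ) ^ (N + 3) * (5 * (L : ℝ)) ^ 3 * (2 * ((L : ℝ) ^ (N + 6))⁻¹) := by gcongr; linarith
            _ = 250 := by
                have : (L : ℝ) ^ (N + 6) ≠ 0 := by positivity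
                field_simp
                ring
      _ ≤ _ := by
          refine mul_le_mul_of_nonneg_right ?_ hM2
          have : 0 ≤ C₂ * C₄ := mul_nonneg hC₂ hC₄
          linarith
  · have h := hII γ A B hcls V W hV hW M hM l L D hl hlν hD hD1 hD3 hDL hmV hmW
    have h4' : (L : ℝ) ^ (N + 3) * (1 + 4 * (L : ℝ)) ^ 3 * (2 : ℝ) ^ (-((L : ℝ) / 100000)) ≤ C₄ := by
      refine le_trans (le_of_eq ?_) (h4 L); ring_nf
    calc (L : ℝ) ^ N * (pairW l L V W (gNear γ A B D l L) / D) * (L : ℝ) ^ 3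
        ≤ (L : ℝ) ^ N * (C₂ * (2 : ℝ) ^ (-((L : ℝ) / 100000)) * (1 + 4 * (L : ℝ)) ^ 3 * M ^ 2) *
            (L : ℝ) ^ 3 := by gcongr
      _ = C₂ * ((L : ℝ) ^ (N + 3) * (1 + 4 * (L : ℝ)) ^ 3 * (2 : ℝ) ^ (-((L : ℝ) / 100000))) * M ^ 2 := by
          ring
      _ ≤ C₂ * C₄ * M ^ 2 := by gcongr
      _ ≤ _ := by
          refine mul_le_mul_of_nonneg_right ?_ hM2
          have : 0 ≤ C₁ * (250 + C₃) := by positivity
          linarith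

end Vale.Agent.P028
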