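import Vale.Agent.P028.EventBound

/-! Pairs with a small gap off the exact line: the range of mode I. -/

namespace Vale.Agent.P028

open Finset Real
open scoped Classical

noncomputable def gNear (γ : ℝ) (A : ℕ → ℤ) (B : ℕ → ℕ) (D : ℝ) (l L : ℕ) (a b : ℕ) : ℝ :=
  if (a : ℝ) ≤ D * (4 : ℝ) ^ L ∧ (b : ℝ) ≤ D * (4 : ℝ) ^ l ∧ 0 < b ∧ NearOff γ A B L D a b then 1 else 0

theorem gNear_bounds (γ : ℝ) (A : ℕ → ℤ) (B : ℕ → ℕ) (D : ℝ) (l L a b : ℕ) :
    0 ≤ gNear γ A B D l L a b ∧ gNear γ A B D l L a b ≤ 1 := by unfold gNear; split <;> norm_num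

theorem gNear_supp {γ : ℝ} {A : ℕ → ℤ} {B : ℕ → ℕ} {D : ℝ} {l L a b : ℕ}
    (h : gNear γ A B D l L a b ≠ 0) :
    (a : ℝ) ≤ D * (4 : ℝ) ^ L ∧ (b : ℝ) ≤ D * (4 : ℝ) ^ l ∧ 0 < b ∧ NearOff γ A B L D a b := by
  unfold gNear at h
  split at h
  · next hh => exact hh
  · exact absurd rfl h

theorem four_pow_mono {D : ℝ} (hD : 0 ≤ D) {l L : ℕ} (hl : l ≤ L) :
    D * (4 : ℝ) ^ l ≤ D * (4 : ℝ) ^ L :=
  mul_le_mul_of_nonneg_left (pow_le_pow_right₀ (by norm_num) hl) hD

/-- The count of `gNear` along a progression of the first entry. -/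
theorem gNear_count : ∃ K : ℝ, 1 ≤ K ∧ ∀ (γ : ℝ) (A : ℕ → ℤ) (B : ℕ → ℕ), IsCls γ A B →
    ∀ (l L : ℕ) (D : ℝ) (X r : ℕ), 0 < D → ((2 : ℝ) ^ L)⁻¹ ≤ 3 * D → l ≤ L → 0 < X →
      ∑ t ∈ Icc 1 ⌊D * (4 : ℝ) ^ L / X⌋₊, gNear γ A B D l L (X * t) r ≤
        K * (D * (4 : ℝ) ^ L / X) *
          (D + (Nat.gcd X (B L) : ℝ) * min ((B L : ℝ))⁻¹ D + X * (5 * ((2 : ℝ) ^ L)⁻¹)) := by
  obtain ⟨K, hK, h⟩ := near_count
  refine ⟨K, hK, fun γ A B hcls l L D X r hD hD3 hl hX => ?_⟩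
  have hrhs : 0 ≤ K * (D * (4 : ℝ) ^ L / X) *
      (D + (Nat.gcd X (B L) : ℝ) * min ((B L : ℝ))⁻¹ D + X * (5 * ((2 : ℝ) ^ L)⁻¹)) := by positivity
  by_cases hQ : 1 ≤ D * (4 : ℝ) ^ L
  swap
  · have hfl : ⌊D * (4 : ℝ) ^ L / X⌋₊ = 0 := by
      rw [Nat.floor_eq_zero, div_lt_one (by exact_mod_cast hX)]
      exact lt_of_lt_of_le (not_le.1 hQ) (by exact_mod_cast hX)
    rw [hfl, Finset.Icc_eq_empty (by omega), sum_empty]
    exact hrhs
  by_cases hr : (r : ℝ) ≤ D * (4 : ℝ) ^ l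
  swap
  · refine le_trans (le_of_eq (sum_eq_zero fun t _ => ?_)) hrhs
    unfold gNear
    exact if_neg fun hh => hr hh.2.1
  refine le_trans (sum_indicator_le_card (fun t => NearOff γ A B L D (X * t) r) fun t _ => ?_)
    (h γ A B hcls L D X r hD hD3 hQ hX (hr.trans (four_pow_mono hD.le hl))).1
  unfold gNear; split
  · next hh => rw [if_pos hh.2.2.2]
  · split <;> norm_num

theorem rpow_mul_le {D : ℝ} (hD : 0 < D) (hD1 : D ≤ 1) {e c : ℝ} (h : c ≤ e) : D ^ e ≤ D ^ c :=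
  rpow_le_rpow_of_exponent_ge hD hD1 h

theorem two_rpow_of_D {D : ℝ} (hD : 0 < D) {L : ℕ} {m e : ℝ} (he : e ≤ 0)
    (hDL : (2 : ℝ) ^ (-(m * L)) ≤ D) : D ^ e ≤ (2 : ℝ) ^ (-(m * e * L)) := by
  refine (rpow_le_rpow_of_nonpos (by positivity) hDL he).trans_eq ?_
  rw [← rpow_mul zero_le_two]; ring_nf

theorem near_I : ∃ C : ℝ, 0 ≤ C ∧ ∀ (γ : ℝ) (A : ℕ → ℤ) (B : ℕ → ℕ), IsCls γ A B →
    ∀ (V W : Finset ℕ), (∀ v ∈ V, 0 < v) → (∀ w ∈ W, 0 < w) →
      ∀ (M : ℝ), 1 ≤ M → ∀ (l L : ℕ) (D : ℝ), l ≤ L → 0 < D → D ≤ 1 → ((2 : ℝ) ^ L)⁻¹ ≤ 3 * D →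
        (2 : ℝ) ^ (-((49999 / 50000 : ℝ) * L)) ≤ D →
        ∑ v ∈ V, mass l v ≤ M → ∑ w ∈ W, mass L w ≤ M →
        pairW l L V W (gNear γ A B D l L) / D ≤
          C * (D ^ (1 / 10 : ℝ) + (2 : ℝ) ^ (-((L : ℝ) / 200000000000))) * (1 + 4 * (L : ℝ)) ^ 3 * M ^ 2 := by
  set θ : ℝ := 1 / 2 + 1 / 1600000 with hθdef
  set κ : ℝ := 99999 / 80000000000 with hκdef
  obtain ⟨p₀, C₁, cP, hC₁, hcP, hI⟩ := levelI (θ := θ) (κ := κ) divisorSum (by norm_num [hθdef])
    (by norm_num [hθdef]) (by norm_num [hκdef]) (by norm_num [hθdef, hκdef]) (by norm_num [hθdef, hκdef])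
  obtain ⟨K, hK, hcount⟩ := gNear_count
  set ε' : ℝ := 1 / 80000000000 / 2 / 3200000 with hε'
  obtain ⟨Cω, hω⟩ := omegaPow cP ε' hcP (by norm_num [hε'])
  set P₀ := smallPrimes p₀ with hP₀
  set C₂ := cP ^ P₀.card * (max Cω 1) with hC₂
  have hC₂1 : 1 ≤ C₂ := one_le_mul_of_one_le_of_one_le (one_le_pow₀ hcP) (le_max_right _ _)
  refine ⟨C₁ * C₂ * (18 * K), by positivity,
    fun γ A B hcls V W hV hW M hM l L D hl hD hD1 hD3 hDI hmV hmW => ?_⟩
  have hB0 : 0 < B L := (hcls L).1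
  have hBpos : (0 : ℝ) < B L := by exact_mod_cast hB0
  have hmass := mul_rpow_le_sq (θ := θ) (sum_nonneg fun v _ => mass_nonneg l v)
    (sum_nonneg fun w _ => mass_nonneg L w) hmV hmW hM (by norm_num [hθdef]) (by norm_num [hθdef])
  have hlogs : (1 + Real.log (max 1 D) + 2 * ((l : ℝ) + L)) ^ 3 ≤ (1 + 4 * (L : ℝ)) ^ 3 := by
    rw [max_eq_left hD1, Real.log_one]
    have : (l : ℝ) ≤ L := by exact_mod_cast hl
    refine pow_le_pow_left₀ (by positivity) ?_ 3
    linarith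
  have hsupp : ∀ q r, gNear γ A B D l L q r ≠ 0 →
      (q : ℝ) ≤ D * (4 : ℝ) ^ L ∧ (r : ℝ) ≤ D * (4 : ℝ) ^ l := fun q r h =>
    ⟨(gNear_supp h).1, (gNear_supp h).2.1⟩
  have hh2 : (0 : ℝ) ≤ ((2 : ℝ) ^ L)⁻¹ := by positivity
  have h2L : ((2 : ℝ) ^ L)⁻¹ = (2 : ℝ) ^ (-(L : ℝ)) := by rw [rpow_neg zero_le_two, rpow_natCast]
  -- it suffices to bound the cost of the parameters
  suffices h : ∃ (P : Finset ℕ) (a b : ℝ), P₀ ⊆ P ∧ (∀ p ∈ P, p.Prime) ∧ 0 ≤ a ∧ 0 ≤ b ∧
      (∀ X r : ℕ, 0 < X → ∑ t ∈ Icc 1 ⌊D * (4 : ℝ) ^ L / X⌋₊, gNear γ A B D l L (X * t) r ≤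
        D * (4 : ℝ) ^ L / X * (a * primePart P X + b * X)) ∧
      cP ^ P.card * (a ^ ((1 - θ) / 4) + b ^ κ) * D ^ (1 - 2 * θ) ≤
        C₂ * (18 * K) * (D ^ (1 / 10 : ℝ) + (2 : ℝ) ^ (-((L : ℝ) / 200000000000))) by
    obtain ⟨P, a, b, hP₀P, hP, ha, hb, hcnt, hcost⟩ := h
    have hmain := hI P hP V W hV hW
      (fun x _ p hp hpP => big_of_notMem_smallPrimes (Nat.prime_of_mem_primeFactors hp) fun hh => hpP (hP₀P hh))
      l L D a b hD ha hb _ (gNear_bounds γ A B D l L) hsupp hcnt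
    have hcomb : C₁ * cP ^ P.card * D ^ (2 - 2 * θ) * (1 + Real.log (max 1 D) + 2 * (l + L)) ^ 3 *
        (a ^ ((1 - θ) / 4) + b ^ κ) / D =
        C₁ * (cP ^ P.card * (a ^ ((1 - θ) / 4) + b ^ κ) * D ^ (1 - 2 * θ)) *
          (1 + Real.log (max 1 D) + 2 * (l + L)) ^ 3 := by
      rw [show (1 - 2 * θ) = (2 - 2 * θ) - 1 by ring, rpow_sub_one hD.ne']; ring
    refine (div_le_div_of_nonneg_right hmain hD.le).trans ?_
    rw [mul_div_right_comm, hcomb]
    refine (mul_le_mul (mul_le_mul (mul_le_mul_of_nonneg_left hcost hC₁) hlogs ?_ (by positivity)) hmass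
      (rpow_nonneg (mul_nonneg (sum_nonneg fun v _ => mass_nonneg l v)
        (sum_nonneg fun w _ => mass_nonneg L w)) _) (by positivity)).trans_eq (by ring)
    exact pow_nonneg (by have := Real.log_nonneg (le_max_left 1 D); positivity) _
  have hgX : ∀ X, 0 < X → (Nat.gcd X (B L) : ℝ) ≤ X := fun X hX => by
    exact_mod_cast Nat.gcd_le_left (B L) hX
  have hpos : (0 : ℝ) < D ^ (1 - 2 * θ) := by positivity
  have hae : ∀ c : ℝ, c ≤ 1 → ∀ x : ℝ, 1 ≤ x → 0 ≤ c → x ^ c ≤ x := fun c hc x hx _ =>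
    (rpow_le_rpow_of_exponent_le hx hc).trans_eq (rpow_one x)
  by_cases hB : ((B L : ℝ))⁻¹ ≤ D ^ (3200000 : ℝ)
  · refine ⟨P₀, K * D, K * (D ^ (3200000 : ℝ) + 5 * ((2 : ℝ) ^ L)⁻¹), subset_rfl,
      fun p hp => smallPrimes_prime hp, by positivity, by positivity, fun X r hX => ?_, ?_⟩
    · refine (hcount γ A B hcls l L D X r hD hD3 hl hX).trans ?_
      have hpp : (1 : ℝ) ≤ primePart P₀ X := by
        exact_mod_cast primePart_pos (fun p hp => smallPrimes_prime hp) X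
      have h1 : (Nat.gcd X (B L) : ℝ) * min ((B L : ℝ))⁻¹ D ≤ X * D ^ (3200000 : ℝ) :=
        mul_le_mul (hgX X hX) ((min_le_left _ _).trans hB) (by positivity) (Nat.cast_nonneg _)
      have hQ : 0 ≤ D * (4 : ℝ) ^ L / X := by positivity
      rw [mul_comm K, mul_assoc]
      refine mul_le_mul_of_nonneg_left ?_ hQ
      nlinarith [mul_le_mul_of_nonneg_left hpp (show 0 ≤ K * D by positivity)]
    · have hc : cP ^ P₀.card ≤ C₂ := le_mul_of_one_le_right (by positivity) (le_max_right _ _)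
      rw [mul_assoc]
      refine (mul_le_mul_of_nonneg_right hc (by positivity)).trans ?_
      have ha : (K * D) ^ ((1 - θ) / 4) * D ^ (1 - 2 * θ) ≤ K * D ^ (1 / 10 : ℝ) := by
        rw [mul_rpow (by linarith) hD.le, mul_assoc, ← rpow_add hD]
        exact mul_le_mul (hae _ (by norm_num [hθdef]) _ hK (by norm_num [hθdef]))
          (rpow_mul_le hD hD1 (by norm_num [hθdef])) (by positivity) (by linarith)
      have hb : (K * (D ^ (3200000 : ℝ) + 5 * ((2 : ℝ) ^ L)⁻¹)) ^ κ * D ^ (1 - 2 * θ) ≤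
          5 * K * (D ^ (1 / 10 : ℝ) + (2 : ℝ) ^ (-((L : ℝ) / 200000000000))) := by
        rw [mul_rpow (by linarith) (by positivity)]
        refine (mul_le_mul_of_nonneg_right (mul_le_mul (hae _ (by norm_num [hκdef]) _ hK (by norm_num [hκdef]))
          (rpow_add_le_add_rpow (by positivity) (by positivity) (by norm_num [hκdef]) (by norm_num [hκdef]))
          (by positivity) (by linarith)) hpos.le).trans ?_
        rw [mul_assoc, add_mul, ← rpow_mul hD.le, ← rpow_add hD, mul_rpow (by norm_num) (by positivity),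
          h2L, ← rpow_mul zero_le_two, mul_comm (5 : ℝ) K, mul_assoc K]
        refine mul_le_mul_of_nonneg_left ?_ (by linarith)
        rw [mul_add (5 : ℝ)]
        refine add_le_add ?_ ?_
        · exact (rpow_mul_le hD hD1 (by norm_num [hθdef, hκdef])).trans
            (le_mul_of_one_le_left (by positivity) (by norm_num))
        · rw [mul_assoc]
          refine mul_le_mul (hae _ (by norm_num [hκdef]) _ (by norm_num) (by norm_num [hκdef])) ?_
            (by positivity) (by norm_num)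
          refine (mul_le_mul_of_nonneg_left (two_rpow_of_D hD (by norm_num [hθdef]) hDI) (by positivity)).trans ?_
          rw [← rpow_add two_pos]
          refine rpow_le_rpow_of_exponent_le one_le_two ?_
          norm_num [hθdef, hκdef]
          linarith [(Nat.cast_nonneg L : (0 : ℝ) ≤ L)]
      rw [mul_assoc C₂]
      refine mul_le_mul_of_nonneg_left ?_ (by positivity)
      rw [add_mul]
      have : 0 ≤ (2 : ℝ) ^ (-((L : ℝ) / 200000000000)) := by positivity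
      have : 0 ≤ D ^ (1 / 10 : ℝ) := by positivity
      nlinarith
  · rw [not_le] at hB
    refine ⟨P₀ ∪ (B L).primeFactors, 2 * K * D, 5 * K * ((2 : ℝ) ^ L)⁻¹, subset_union_left,
      fun p hp => ?_, by positivity, by positivity, fun X r hX => ?_, ?_⟩
    · rcases mem_union.1 hp with hp | hp
      · exact smallPrimes_prime hp
      · exact Nat.prime_of_mem_primeFactors hp
    · refine (hcount γ A B hcls l L D X r hD hD3 hl hX).trans ?_
      have hPp : ∀ p ∈ P₀ ∪ (B L).primeFactors, p.Prime := fun p hp => by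
        rcases mem_union.1 hp with hp | hp
        · exact smallPrimes_prime hp
        · exact Nat.prime_of_mem_primeFactors hp
      have hg : (Nat.gcd X (B L) : ℝ) ≤ primePart (P₀ ∪ (B L).primeFactors) X := by
        exact_mod_cast gcd_le_primePart hPp hX hB0 subset_union_right
      have hg1 : (1 : ℝ) ≤ Nat.gcd X (B L) := by exact_mod_cast Nat.gcd_pos_of_pos_left (B L) hX
      have h1 : D + (Nat.gcd X (B L) : ℝ) * min ((B L : ℝ))⁻¹ D ≤
          2 * D * primePart (P₀ ∪ (B L).primeFactors) X := by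
        have := mul_le_mul hg (min_le_right ((B L : ℝ))⁻¹ D) (by positivity) (by linarith)
        nlinarith
      have hQ : 0 ≤ D * (4 : ℝ) ^ L / X := by positivity
      rw [mul_comm K, mul_assoc]
      refine mul_le_mul_of_nonneg_left ?_ hQ
      nlinarith [mul_le_mul_of_nonneg_left h1 (show 0 ≤ K by linarith)]
    · have hBD : (B L : ℝ) ≤ D ^ (-(3200000 : ℝ)) := by
        rw [rpow_neg hD.le]
        exact (le_inv_comm₀ (by positivity) hBpos).1 hB.le
      have hcard : cP ^ (P₀ ∪ (B L).primeFactors).card ≤ C₂ * D ^ (-(3200000 : ℝ) * ε') := by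
        refine (pow_le_pow_right₀ hcP (card_union_le _ _)).trans ?_
        rw [pow_add, hC₂, mul_assoc]
        refine mul_le_mul_of_nonneg_left ((hω (B L) hB0).trans ?_) (by positivity)
        rw [rpow_mul hD.le]
        exact mul_le_mul (le_max_left _ _) (rpow_le_rpow hBpos.le hBD (by norm_num [hε'])) (by positivity)
          (by positivity)
      rw [mul_assoc]
      refine (mul_le_mul_of_nonneg_right hcard (by positivity)).trans ?_
      rw [mul_assoc C₂, mul_assoc C₂]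
      refine mul_le_mul_of_nonneg_left ?_ (by positivity)
      rw [← mul_assoc, mul_add, add_mul]
      have ha : D ^ (-(3200000 : ℝ) * ε') * (2 * K * D) ^ ((1 - θ) / 4) * D ^ (1 - 2 * θ) ≤
          2 * K * D ^ (1 / 10 : ℝ) := by
        rw [mul_rpow (by linarith) hD.le,
          show ∀ x y z w : ℝ, x * (y * z) * w = y * (x * z * w) from fun x y z w => by ring,
          ← rpow_add hD, ← rpow_add hD]
        exact mul_le_mul (hae _ (by norm_num [hθdef]) _ (by linarith) (by norm_num [hθdef]))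
          (rpow_mul_le hD hD1 (by norm_num [hθdef, hε'])) (by positivity) (by linarith)
      have hb : D ^ (-(3200000 : ℝ) * ε') * (5 * K * ((2 : ℝ) ^ L)⁻¹) ^ κ * D ^ (1 - 2 * θ) ≤
          5 * K * (2 : ℝ) ^ (-((L : ℝ) / 200000000000)) := by
        rw [mul_rpow (by linarith) (by positivity), h2L, ← rpow_mul zero_le_two,
          show ∀ x y z w : ℝ, x * (y * z) * w = y * (x * w * z) from fun x y z w => by ring, ← rpow_add hD]
        refine mul_le_mul (hae _ (by norm_num [hκdef]) _ (by linarith) (by norm_num [hκdef])) ?_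
          (by positivity) (by linarith)
        refine (mul_le_mul_of_nonneg_right (two_rpow_of_D hD (by norm_num [hθdef, hε']) hDI)
          (by positivity)).trans ?_
        rw [← rpow_add two_pos]
        refine rpow_le_rpow_of_exponent_le one_le_two ?_
        norm_num [hθdef, hκdef, hε']
        linarith [(Nat.cast_nonneg L : (0 : ℝ) ≤ L)]
      have : 0 ≤ (2 : ℝ) ^ (-((L : ℝ) / 200000000000)) := by positivity
      have : 0 ≤ D ^ (1 / 10 : ℝ) := by positivity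
      have hK0 : 0 ≤ K := by linarith
      refine (add_le_add ha hb).trans ?_
      rw [mul_add (18 * K)]
      refine add_le_add ?_ ?_ <;> (refine mul_le_mul_of_nonneg_right ?_ (by positivity); linarith)

end Vale.Agent.P028
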