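import Vale.Agent.P028.NearI
import Vale.Agent.P028.LineBound

/-! Pairs with a small gap off the exact line: the range of mode II. -/

namespace Vale.Agent.P028

open Finset Real
open scoped Classical

/-- Square root growth is below every exponential one. -/
theorem exp_sqrt_le (c : ℝ) {η : ℝ} (hη : 0 < η) :
    ∃ C : ℝ, 0 ≤ C ∧ ∀ x : ℝ, 0 ≤ x → Real.exp (c * √(1 + x)) ≤ C * (2 : ℝ) ^ (η * x) := by
  have hl : 0 < Real.log 2 * η := mul_pos (Real.log_pos one_lt_two) hη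
  refine ⟨Real.exp (Real.log 2 * η + c ^ 2 / (Real.log 2 * η)), Real.exp_nonneg _, fun x hx => ?_⟩
  rw [rpow_def_of_pos two_pos, ← Real.exp_add, Real.exp_le_exp]
  have hs := Real.sq_sqrt (show 0 ≤ 1 + x by linarith)
  set s := √(1 + x)
  have h : c * s ≤ Real.log 2 * η * s ^ 2 + c ^ 2 / (Real.log 2 * η) := by
    rw [← sub_nonneg]
    have e : Real.log 2 * η * s ^ 2 + c ^ 2 / (Real.log 2 * η) - c * s =
        ((Real.log 2 * η * s - c / 2) ^ 2 + 3 * c ^ 2 / 4) / (Real.log 2 * η) := by field_simp; ring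
    rw [e]; positivity
  rw [hs] at h
  linarith

theorem card_rel_le {QA : Finset ℕ} {f : ℕ → Finset ℕ} {R : ℝ} (h : ∀ a ∈ QA, ((f a).card : ℝ) ≤ R) :
    ((QA.biUnion (fun a => (f a).image (fun b => (a, b)))).card : ℝ) ≤ QA.card * R := by
  refine (Nat.cast_le.2 card_biUnion_le).trans ?_
  rw [Nat.cast_sum, ← nsmul_eq_mul, ← sum_const]
  exact sum_le_sum fun a ha => (Nat.cast_le.2 card_image_le).trans (h a ha)

/-- Numbers of reduced pairs of `gNear` with an entry having a large part at the primes of `P`. -/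
theorem near_big_card : ∃ K C : ℝ, 1 ≤ K ∧ ∀ (γ : ℝ) (A : ℕ → ℤ) (B : ℕ → ℕ), IsCls γ A B →
    ∀ (l L P₀ : ℕ) (P : Finset ℕ) (D T : ℝ), l ≤ L → 0 < D → ((2 : ℝ) ^ L)⁻¹ ≤ 3 * D →
      1 ≤ D * (4 : ℝ) ^ L → (∀ p ∈ P, p.Prime ∧ p ≤ P₀) → 1 ≤ T →
      ∃ F : Finset (ℕ × ℕ),
        (F.card : ℝ) ≤ 2 * (D * (4 : ℝ) ^ L * (T ^ (-(1 / 80 : ℝ)) *
          Real.exp (C * (1 + 80 * (P₀ : ℝ) ^ (1 / 80 : ℝ)))) * (17 * K * (D * (4 : ℝ) ^ L) * D)) ∧
        ∀ a b, 0 < a → gNear γ A B D l L a b ≠ 0 →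
          (T < (primePart P a : ℝ) ∨ T < (primePart P b : ℝ)) → (a, b) ∈ F := by
  obtain ⟨K, hK, hnear⟩ := near_count
  obtain ⟨C, hC⟩ := smooth_count
  refine ⟨K, C, hK, fun γ A B hcls l L P₀ P D T hl hD hD3 hQ hP hT => ?_⟩
  set Q := D * (4 : ℝ) ^ L with hQdef
  set U := Icc 1 ⌊Q⌋₊
  set big := U.filter (fun q => T < (primePart P q : ℝ))
  have hbig : ((big.card : ℕ) : ℝ) ≤ Q * (T ^ (-(1 / 80 : ℝ)) * Real.exp (C * (1 + 80 * (P₀ : ℝ) ^ (1 / 80 : ℝ)))) := by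
    refine (hC (1 / 80) P₀ P Q T (by norm_num) (by norm_num) hP (by linarith) hT).trans_eq ?_
    ring_nf
  have hrow : ∀ c : ℕ, (c : ℝ) ≤ Q →
      ((U.filter (fun t => NearOff γ A B L D t c)).card : ℝ) ≤ 17 * K * Q * D ∧
      ((U.filter (fun t => NearOff γ A B L D c t)).card : ℝ) ≤ 17 * K * Q * D := by
    intro c hc
    have h := hnear γ A B hcls L D 1 c hD hD3 hQ one_pos hc
    simp only [one_mul, Nat.cast_one, div_one, Nat.gcd_one_left] at h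
    rw [← hQdef] at h
    have hle : K * Q * (D + min ((B L : ℝ))⁻¹ D + 5 * ((2 : ℝ) ^ L)⁻¹) ≤ 17 * K * Q * D := by
      have h0 : 0 ≤ K * Q := mul_nonneg (by linarith) (by linarith)
      refine (mul_le_mul_of_nonneg_left (?_ : _ ≤ 17 * D) h0).trans_eq (by ring)
      linarith [min_le_right ((B L : ℝ))⁻¹ D]
    exact ⟨h.1.trans hle, h.2.trans hle⟩
  set F₁ := big.biUnion (fun a => (U.filter (fun t => NearOff γ A B L D a t)).image (fun b => (a, b)))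
  set F₂ := big.biUnion (fun b => (U.filter (fun t => NearOff γ A B L D t b)).image (fun a => (b, a)))
  refine ⟨F₁ ∪ F₂.image Prod.swap, ?_, fun a b ha hne hor => ?_⟩
  · have hcast : ∀ c ∈ big, (c : ℝ) ≤ Q := fun c hc =>
      (Nat.cast_le.2 (mem_Icc.1 (mem_filter.1 hc).1).2).trans (Nat.floor_le (by linarith))
    refine (Nat.cast_le.2 (card_union_le _ _)).trans ?_
    push_cast
    rw [two_mul]
    refine add_le_add ((card_rel_le fun c hc => (hrow c (hcast c hc)).2).trans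
      (mul_le_mul_of_nonneg_right hbig (by positivity))) ?_
    exact (Nat.cast_le.2 card_image_le).trans ((card_rel_le fun c hc => (hrow c (hcast c hc)).1).trans
      (mul_le_mul_of_nonneg_right hbig (by positivity)))
  · obtain ⟨h1, h2, hb, hn⟩ := gNear_supp hne
    have haU : a ∈ U := mem_Icc.2 ⟨ha, Nat.le_floor h1⟩
    have hbU : b ∈ U := mem_Icc.2 ⟨hb, Nat.le_floor (h2.trans (four_pow_mono hD.le hl))⟩
    rcases hor with h | h
    · exact mem_union_left _ (mem_biUnion.2 ⟨a, mem_filter.2 ⟨haU, h⟩,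
        mem_image.2 ⟨b, mem_filter.2 ⟨hbU, hn⟩, rfl⟩⟩)
    · exact mem_union_right _ (mem_image.2 ⟨(b, a), mem_biUnion.2 ⟨b, mem_filter.2 ⟨hbU, h⟩,
        mem_image.2 ⟨a, mem_filter.2 ⟨haU, hn⟩, rfl⟩⟩, rfl⟩)

/-- The threshold of the pattern primes. -/
theorem exists_P₀ (p₀ : ℕ) {cτ : ℝ} (hcτ : 0 < cτ) :
    ∃ Cp : ℝ, 1 ≤ Cp ∧ ∀ L : ℕ, ∃ P₀ : ℕ, p₀ < P₀ ∧
      (P₀ : ℝ) ^ (1 / 80 : ℝ) ≤ Cp * √(1 + (L : ℝ)) ∧
      4 * (((4 * L : ℕ) : ℝ) + 1) * (2 * ((4 * L : ℕ) : ℝ) + 1) *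
        (cτ * powT ((1 - 11 / 20 - 1 / 5) / (1 - 11 / 20)) P₀) ^ (2 * (11 / 20 : ℝ) - 1) ≤ 1 := by
  set c : ℝ := max (128 * cτ ^ (1 / 10 : ℝ)) 1 with hc
  set W : ℝ := c ^ (18 : ℕ) + (p₀ : ℝ) + 2 with hW
  have hc1 : 1 ≤ c := le_max_right _ _
  have hW1 : 1 ≤ W := by
    have : (0 : ℝ) ≤ c ^ (18 : ℕ) := by positivity
    have : (0 : ℝ) ≤ (p₀ : ℝ) := Nat.cast_nonneg _
    linarith
  refine ⟨(2 * W) ^ (1 / 80 : ℝ), one_le_rpow (by linarith) (by norm_num), fun L => ?_⟩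
  set Z : ℝ := W * (1 + (L : ℝ)) ^ (36 : ℕ) with hZ
  have hL1 : (1 : ℝ) ≤ (1 + (L : ℝ)) ^ (36 : ℕ) := one_le_pow₀ (by simp)
  have hWZ : W ≤ Z := le_mul_of_one_le_right (by linarith) hL1
  refine ⟨⌈Z⌉₊, ?_, ?_, ?_⟩
  · have h : (p₀ : ℝ) < Z := by
      have : (0 : ℝ) ≤ c ^ (18 : ℕ) := by positivity
      linarith
    exact_mod_cast h.trans_le (Nat.le_ceil Z)
  · have hceil : (⌈Z⌉₊ : ℝ) ≤ 2 * W * (1 + (L : ℝ)) ^ (40 : ℕ) := by
      have h1 := (Nat.ceil_lt_add_one (show 0 ≤ Z by positivity)).le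
      have h2 : (1 + (L : ℝ)) ^ (36 : ℕ) ≤ (1 + (L : ℝ)) ^ (40 : ℕ) :=
        pow_le_pow_right₀ (by simp) (by norm_num)
      have h3 : Z ≤ W * (1 + (L : ℝ)) ^ (40 : ℕ) := mul_le_mul_of_nonneg_left h2 (by linarith)
      linarith [hW1.trans hWZ]
    refine (rpow_le_rpow (Nat.cast_nonneg _) hceil (by norm_num)).trans_eq ?_
    rw [mul_rpow (by linarith) (by positivity), ← rpow_natCast (1 + (L : ℝ)) 40, ← rpow_mul (by positivity),
      sqrt_eq_rpow]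
    norm_num
  · have hZ0 : 0 < Z := lt_of_lt_of_le (by linarith) hWZ
    have hP : powT ((1 - 11 / 20 - 1 / 5) / (1 - 11 / 20)) ⌈Z⌉₊ ≤ Z ^ (-(5 / 9 : ℝ)) := by
      rw [powT]; norm_num only
      exact rpow_le_rpow_of_nonpos hZ0 (Nat.le_ceil Z) (by norm_num)
    have hle : (cτ * powT ((1 - 11 / 20 - 1 / 5) / (1 - 11 / 20)) ⌈Z⌉₊) ^ (2 * (11 / 20 : ℝ) - 1) ≤
        cτ ^ (1 / 10 : ℝ) * (Z ^ (1 / 18 : ℝ))⁻¹ := by
      refine (rpow_le_rpow (mul_nonneg hcτ.le (powT_nonneg _ _)) (mul_le_mul_of_nonneg_left hP hcτ.le)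
        (by norm_num)).trans_eq ?_
      rw [mul_rpow hcτ.le (by positivity), ← rpow_mul hZ0.le, ← rpow_neg hZ0.le]
      norm_num
    have hroot : c * (1 + (L : ℝ)) ^ (2 : ℕ) ≤ Z ^ (1 / 18 : ℝ) := by
      have h : (c * (1 + (L : ℝ)) ^ (2 : ℕ)) ^ (18 : ℕ) ≤ Z := by
        rw [mul_pow, ← pow_mul]
        refine mul_le_mul_of_nonneg_right ?_ (by positivity)
        have : (0 : ℝ) ≤ (p₀ : ℝ) := Nat.cast_nonneg _
        linarith
      have h' := rpow_le_rpow (by positivity) h (show (0 : ℝ) ≤ ((18 : ℕ) : ℝ)⁻¹ by positivity)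
      rw [pow_rpow_inv_natCast (by positivity) (by norm_num)] at h'
      simpa using h'
    refine (mul_le_mul_of_nonneg_left hle (by positivity)).trans ?_
    rw [← mul_assoc, ← div_eq_mul_inv, div_le_one (by positivity)]
    refine le_trans ?_ hroot
    push_cast
    calc 4 * (4 * (L : ℝ) + 1) * (2 * (4 * L) + 1) * cτ ^ (1 / 10 : ℝ)
        ≤ 4 * (4 * (1 + (L : ℝ))) * (8 * (1 + L)) * cτ ^ (1 / 10 : ℝ) := by
          gcongr <;> linarith [(Nat.cast_nonneg L : (0 : ℝ) ≤ L)]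
      _ = 128 * cτ ^ (1 / 10 : ℝ) * (1 + (L : ℝ)) ^ (2 : ℕ) := by ring
      _ ≤ _ := mul_le_mul_of_nonneg_right (le_max_left _ _) (by positivity)

theorem near_II : ∃ C : ℝ, 0 ≤ C ∧ ∀ (γ : ℝ) (A : ℕ → ℤ) (B : ℕ → ℕ), IsCls γ A B →
    ∀ (V W : Finset ℕ), (∀ v ∈ V, 0 < v) → (∀ w ∈ W, 0 < w) →
      ∀ (M : ℝ), 1 ≤ M → ∀ (l L : ℕ) (D : ℝ), l ≤ L → (99999 / 100000 : ℝ) * L ≤ l → 0 < D → D ≤ 1 →
        ((2 : ℝ) ^ L)⁻¹ ≤ 3 * D → D ≤ (2 : ℝ) ^ (-((49999 / 50000 : ℝ) * L)) →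
        ∑ v ∈ V, mass l v ≤ M → ∑ w ∈ W, mass L w ≤ M →
        pairW l L V W (gNear γ A B D l L) / D ≤
          C * (2 : ℝ) ^ (-((L : ℝ) / 100000)) * (1 + 4 * (L : ℝ)) ^ 3 * M ^ 2 := by
  obtain ⟨p₀, C₁, cτ, hC₁, hcτ, hII⟩ := levelII (θ := 11 / 20) (κ := 1 / 5) divisorSum (by norm_num)
    (by norm_num) (by norm_num) (by norm_num)
  obtain ⟨K, hK, hcount⟩ := gNear_count
  obtain ⟨K₂, Cs, hK₂, hbigF⟩ := near_big_card
  obtain ⟨Cp, hCp, hP₀⟩ := exists_P₀ p₀ hcτ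
  obtain ⟨Ce, hCe, hE⟩ := exp_sqrt_le (|Cs| * (1 + 80 * Cp))
    (show (0 : ℝ) < 1 / 20000 by norm_num)
  refine ⟨C₁ * (17 * K) + 34 * K₂ * Ce, by positivity,
    fun γ A B hcls V W hV hW M hM l L D hl hlν hD hD1 hD3 hDII hmV hmW => ?_⟩
  set g := gNear γ A B D l L with hgdef
  have hmV0 : 0 ≤ ∑ v ∈ V, mass l v := sum_nonneg fun v _ => mass_nonneg l v
  have hlog3 : (1 + Real.log (max 1 D) + 2 * ((l : ℝ) + L)) ^ 3 ≤ (1 + 4 * (L : ℝ)) ^ 3 := by
    rw [max_eq_left hD1, Real.log_one]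
    have : (l : ℝ) ≤ L := by exact_mod_cast hl
    exact pow_le_pow_left₀ (by positivity) (by linarith) 3
  have hl0 : 0 ≤ (1 + 4 * (L : ℝ)) ^ 3 := by positivity
  have hl1 : (1 : ℝ) ≤ (1 + 4 * (L : ℝ)) ^ 3 := one_le_pow₀ (by simp)
  by_cases hQ : 1 ≤ D * (4 : ℝ) ^ L
  swap
  · refine le_trans (le_of_eq ?_) (by positivity)
    rw [show pairW l L V W g = 0 from sum_eq_zero fun v hv => sum_eq_zero fun w hw => ?_, zero_div]
    by_contra hne
    have h1 := (gNear_supp (right_ne_zero_of_mul hne)).1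
    have : (1 : ℝ) ≤ red v w := by exact_mod_cast red_pos (hV v hv)
    exact hQ (by linarith)
  obtain ⟨P₀, hp₀P, hPsize, hsmall⟩ := hP₀ L
  set P := smallPrimes P₀ with hPdef
  set T : ℝ := (2 : ℝ) ^ ((L : ℝ) / 100) with hT
  have hT1 : 1 ≤ T := one_le_rpow one_le_two (by positivity)
  obtain ⟨F, hFcard, hF⟩ := hbigF γ A B hcls l L P₀ P D T hl hD hD3 hQ
    (fun p hp => ⟨smallPrimes_prime hp, smallPrimes_le hp⟩) hT1
  set gG : ℕ → ℕ → ℝ := fun a b =>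
    if (primePart P a : ℝ) ≤ T ∧ (primePart P b : ℝ) ≤ T then g a b else 0 with hgG
  set gB : ℕ → ℕ → ℝ := fun a b =>
    if (primePart P a : ℝ) ≤ T ∧ (primePart P b : ℝ) ≤ T then 0 else g a b with hgB
  have hsplit : pairW l L V W g = pairW l L V W gG + pairW l L V W gB := by
    simp only [pairW, ← sum_add_distrib, ← mul_add]
    refine sum_congr rfl fun v _ => sum_congr rfl fun w _ => ?_
    simp only [hgG, hgB]
    split <;> simp
  have hgG1 : ∀ a b, 0 ≤ gG a b ∧ gG a b ≤ 1 := fun a b => by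
    simp only [hgG]; split
    · exact gNear_bounds γ A B D l L a b
    · norm_num
  have hgB1 : ∀ a b, 0 ≤ gB a b ∧ gB a b ≤ 1 := fun a b => by
    simp only [hgB]; split
    · norm_num
    · exact gNear_bounds γ A B D l L a b
  have hgGle : ∀ a b, gG a b ≤ g a b := fun a b => by
    simp only [hgG]; split
    · exact le_rfl
    · exact (gNear_bounds γ A B D l L a b).1
  -- the good part
  have hgood : pairW l L V W gG / D ≤
      C₁ * (17 * K) * (2 : ℝ) ^ (-((L : ℝ) / 100000)) * (1 + 4 * (L : ℝ)) ^ 3 * M ^ 2 := by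
    have hQS : D * (4 : ℝ) ^ L * (D * (4 : ℝ) ^ l) ≤ (2 : ℝ) ^ (4 * L) := by
      calc D * (4 : ℝ) ^ L * (D * (4 : ℝ) ^ l) ≤ 1 * (4 : ℝ) ^ L * (1 * (4 : ℝ) ^ L) :=
            mul_le_mul (mul_le_mul_of_nonneg_right hD1 (by positivity))
              ((four_pow_mono hD.le hl).trans (mul_le_mul_of_nonneg_right hD1 (by positivity)))
              (by positivity) (by positivity)
        _ = _ := by rw [one_mul, ← mul_pow, pow_mul]; norm_num
    have h := hII P₀ (4 * L) hp₀P hsmall P (fun p hp => smallPrimes_prime hp) V W hV hW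
      (fun x _ p hp hpP => big_of_notMem_smallPrimes (Nat.prime_of_mem_primeFactors hp) hpP)
      l L D T (17 * K * D) hD (by linarith) (by positivity) hQS gG hgG1
      (fun a b h => by
        have h' : g a b ≠ 0 := fun h0 => h (le_antisymm ((hgGle a b).trans_eq h0) (hgG1 a b).1)
        exact ⟨(gNear_supp h').1, (gNear_supp h').2.1⟩)
      (fun a b h => by by_contra hc; exact h (by simp only [hgG]; rw [if_neg hc]))
      (fun a => le_antisymm ((hgGle a 0).trans (le_of_eq (if_neg fun hh => lt_irrefl 0 hh.2.2.1))) (hgG1 a 0).1)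
      (fun X r hX => by
        refine (sum_le_sum fun t _ => hgGle (X * t) r).trans ((hcount γ A B hcls l L D X r hD hD3 hl hX).trans ?_)
        rw [mul_comm K, mul_assoc]
        refine mul_le_mul_of_nonneg_left ?_ (by positivity)
        have hX1 : (1 : ℝ) ≤ X := by exact_mod_cast hX
        have hgX : (Nat.gcd X (B L) : ℝ) ≤ X := by exact_mod_cast Nat.gcd_le_left (B L) hX
        have h1 : (Nat.gcd X (B L) : ℝ) * min ((B L : ℝ))⁻¹ D ≤ X * D :=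
          mul_le_mul hgX (min_le_right _ _) (by positivity) (by linarith)
        have h2 : (X : ℝ) * (5 * ((2 : ℝ) ^ L)⁻¹) ≤ X * (15 * D) :=
          mul_le_mul_of_nonneg_left (by linarith) (by linarith)
        have h3 : D ≤ X * D := le_mul_of_one_le_left hD.le hX1
        calc K * (D + (Nat.gcd X (B L) : ℝ) * min ((B L : ℝ))⁻¹ D + X * (5 * ((2 : ℝ) ^ L)⁻¹))
            ≤ K * (X * (17 * D)) := mul_le_mul_of_nonneg_left (by linarith) (by linarith)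
          _ = _ := by ring)
    refine (div_le_div_of_nonneg_right h hD.le).trans ?_
    have hmass := mul_rpow_le_sq (θ := 11 / 20) hmV0
      (sum_nonneg fun w _ => mass_nonneg L w) hmV hmW hM (by norm_num) (by norm_num)
    have hkey : T ^ 4 * D ^ (2 - 2 * (11 / 20 : ℝ)) * (17 * K * D) ^ (1 / 5 : ℝ) / D ≤
        17 * K * (2 : ℝ) ^ (-((L : ℝ) / 100000)) := by
      rw [mul_rpow (by linarith) hD.le, hT, ← rpow_natCast, ← rpow_mul zero_le_two,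
        show ∀ x y z w : ℝ, x * y * (z * w) / D = z * (x * (y * w / D)) from fun x y z w => by ring,
        ← rpow_add hD, ← rpow_sub_one hD.ne']
      refine mul_le_mul ((rpow_le_rpow_of_exponent_le (by linarith) (by norm_num : (1 / 5 : ℝ) ≤ 1)).trans_eq
        (rpow_one _)) ?_ (by positivity) (by linarith)
      refine (mul_le_mul_of_nonneg_left (rpow_le_rpow hD.le hDII (by norm_num)) (by positivity)).trans ?_
      rw [← rpow_mul zero_le_two, ← rpow_add two_pos]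
      refine rpow_le_rpow_of_exponent_le one_le_two ?_
      norm_num
      linarith [(Nat.cast_nonneg L : (0 : ℝ) ≤ L)]
    calc C₁ * T ^ 4 * D ^ (2 - 2 * (11 / 20 : ℝ)) * (1 + Real.log (max 1 D) + 2 * (l + L)) ^ 3 *
          (17 * K * D) ^ (1 / 5 : ℝ) * ((∑ v ∈ V, mass l v) * ∑ w ∈ W, mass L w) ^ (11 / 20 : ℝ) / D
        = C₁ * (T ^ 4 * D ^ (2 - 2 * (11 / 20 : ℝ)) * (17 * K * D) ^ (1 / 5 : ℝ) / D) *
            (1 + Real.log (max 1 D) + 2 * (l + L)) ^ 3 *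
            ((∑ v ∈ V, mass l v) * ∑ w ∈ W, mass L w) ^ (11 / 20 : ℝ) := by ring
      _ ≤ C₁ * (17 * K * (2 : ℝ) ^ (-((L : ℝ) / 100000))) * (1 + 4 * (L : ℝ)) ^ 3 * M ^ 2 := by
          refine mul_le_mul (mul_le_mul (mul_le_mul_of_nonneg_left hkey hC₁) hlog3 ?_ (by positivity)) hmass
            (rpow_nonneg (mul_nonneg hmV0 (sum_nonneg fun w _ => mass_nonneg L w)) _) (by positivity)
          exact pow_nonneg (by have := Real.log_nonneg (le_max_left 1 D); positivity) _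
      _ = _ := by ring
  -- the big part
  have hbad : pairW l L V W gB / D ≤
      34 * K₂ * Ce * (2 : ℝ) ^ (-((L : ℝ) / 100000)) * (1 + 4 * (L : ℝ)) ^ 3 * M ^ 2 := by
    have h := pairW_le_card l L hV hW F hgB1 (fun v hv w hw hne => by
      simp only [hgB] at hne
      split at hne
      · exact absurd rfl hne
      · next hc =>
        refine hF _ _ (red_pos (hV v hv)) hne ?_
        by_contra h0
        rw [not_or, not_lt, not_lt] at h0
        exact hc h0)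
    have hexp : Real.exp (Cs * (1 + 80 * (P₀ : ℝ) ^ (1 / 80 : ℝ))) ≤ Ce * (2 : ℝ) ^ (1 / 20000 * (L : ℝ)) := by
      refine le_trans (Real.exp_le_exp.2 ?_) (hE L (Nat.cast_nonneg L))
      have hs1 : 1 ≤ √(1 + (L : ℝ)) := Real.one_le_sqrt.2 (by simp)
      calc Cs * (1 + 80 * (P₀ : ℝ) ^ (1 / 80 : ℝ)) ≤ |Cs| * (1 + 80 * (P₀ : ℝ) ^ (1 / 80 : ℝ)) :=
            mul_le_mul_of_nonneg_right (le_abs_self _) (by positivity)
        _ ≤ |Cs| * ((1 + 80 * Cp) * √(1 + (L : ℝ))) :=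
            mul_le_mul_of_nonneg_left (by rw [add_mul, one_mul]; linarith) (abs_nonneg _)
        _ = _ := by ring
    refine (div_le_div_of_nonneg_right (h.trans (mul_le_mul hFcard (sqrt_mass_le hM hmV hmW) (by positivity)
      (by positivity))) hD.le).trans ?_
    have hexpo : D ^ 2 * ((4 : ℝ) ^ L * (4 : ℝ) ^ L) * (((2 : ℝ) ^ l)⁻¹ * ((2 : ℝ) ^ L)⁻¹) *
        T ^ (-(1 / 80 : ℝ)) * (2 : ℝ) ^ (1 / 20000 * (L : ℝ)) ≤ (2 : ℝ) ^ (-((L : ℝ) / 100000)) := by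
      have hD2 : D ^ 2 ≤ ((2 : ℝ) ^ (-((49999 / 50000 : ℝ) * L))) ^ 2 := pow_le_pow_left₀ hD.le hDII 2
      refine (mul_le_mul_of_nonneg_right (mul_le_mul_of_nonneg_right (mul_le_mul_of_nonneg_right
        (mul_le_mul_of_nonneg_right hD2 (by positivity)) (by positivity)) (by positivity)) (by positivity)).trans ?_
      rw [hT, show (4 : ℝ) = 2 * 2 by norm_num, mul_pow, ← rpow_natCast 2 L, ← rpow_natCast 2 l,
        ← rpow_natCast ((2 : ℝ) ^ (-((49999 / 50000 : ℝ) * L))) 2, ← rpow_mul zero_le_two,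
        ← rpow_neg zero_le_two, ← rpow_neg zero_le_two, ← rpow_mul zero_le_two, ← rpow_add two_pos,
        ← rpow_add two_pos, ← rpow_add two_pos, ← rpow_add two_pos, ← rpow_add two_pos, ← rpow_add two_pos,
        ← rpow_add two_pos]
      refine rpow_le_rpow_of_exponent_le one_le_two ?_
      push_cast
      linarith
    calc 2 * (D * (4 : ℝ) ^ L * (T ^ (-(1 / 80 : ℝ)) * Real.exp (Cs * (1 + 80 * (P₀ : ℝ) ^ (1 / 80 : ℝ)))) *
          (17 * K₂ * (D * (4 : ℝ) ^ L) * D)) * (((2 : ℝ) ^ l)⁻¹ * ((2 : ℝ) ^ L)⁻¹ * M ^ 2) / D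
        = 34 * K₂ * (D ^ 2 * ((4 : ℝ) ^ L * (4 : ℝ) ^ L) * (((2 : ℝ) ^ l)⁻¹ * ((2 : ℝ) ^ L)⁻¹) *
            T ^ (-(1 / 80 : ℝ)) * Real.exp (Cs * (1 + 80 * (P₀ : ℝ) ^ (1 / 80 : ℝ)))) * M ^ 2 := by
          field_simp
          ring
      _ ≤ 34 * K₂ * (D ^ 2 * ((4 : ℝ) ^ L * (4 : ℝ) ^ L) * (((2 : ℝ) ^ l)⁻¹ * ((2 : ℝ) ^ L)⁻¹) *
            T ^ (-(1 / 80 : ℝ)) * (Ce * (2 : ℝ) ^ (1 / 20000 * (L : ℝ)))) * M ^ 2 := by gcongr
      _ = 34 * K₂ * Ce * (D ^ 2 * ((4 : ℝ) ^ L * (4 : ℝ) ^ L) * (((2 : ℝ) ^ l)⁻¹ * ((2 : ℝ) ^ L)⁻¹) *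
            T ^ (-(1 / 80 : ℝ)) * (2 : ℝ) ^ (1 / 20000 * (L : ℝ))) * 1 * M ^ 2 := by ring
      _ ≤ _ := by gcongr
  rw [hsplit, add_div, add_mul, add_mul, add_mul]
  exact add_le_add hgood hbad

end Vale.Agent.P028
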