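import Vale.Agent.P028.Absorb

/-! Thresholds beyond which the hypotheses of the bilinear lemma hold. -/

namespace Vale.Agent.P028

open Finset Real Filter Topology

/-- Power weight of a prime. -/
noncomputable def powT (e : ℝ) (p : ℕ) : ℝ := (p : ℝ) ^ (-e)

theorem powT_nonneg (e : ℝ) (p : ℕ) : 0 ≤ powT e p := rpow_nonneg (Nat.cast_nonneg p) _

theorem powT_le_powT {e₁ e₂ : ℝ} (h : e₁ ≤ e₂) {p : ℕ} (hp : 1 ≤ p) : powT e₂ p ≤ powT e₁ p :=
  rpow_le_rpow_of_exponent_le (by exact_mod_cast hp) (by linarith)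

theorem tendsto_powT {e : ℝ} (he : 0 < e) : Tendsto (powT e) atTop (𝓝 0) :=
  (tendsto_rpow_neg_atTop he).comp tendsto_natCast_atTop_atTop

/-- The geometric kernel has row sums at most `2 / (1 - ρ)`. -/
theorem sum_pow_dist_le_const {ρ : ℝ} (h0 : 0 ≤ ρ) (h1 : ρ < 1) (J : Finset ℕ) (k : ℕ) :
    ∑ j ∈ J, ρ ^ Nat.dist k j ≤ 2 / (1 - ρ) := by
  have hgeo : ∀ S : Finset ℕ, ∑ d ∈ S, ρ ^ d ≤ 1 / (1 - ρ) := by
    intro S
    refine (sum_le_sum_of_subset_of_nonneg (t := Ico 0 (S.sup id + 1))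
      (fun d hd => mem_Ico.2 ⟨Nat.zero_le _, Nat.lt_succ_of_le (le_sup (f := id) hd)⟩)
      fun _ _ _ => by positivity).trans ((geom_sum_Ico_le_of_lt_one h0 h1).trans_eq (by rw [pow_zero]))
  rw [← sum_filter_add_sum_filter_not J (fun j => j ≤ k)]
  rw [show 2 / (1 - ρ) = 1 / (1 - ρ) + 1 / (1 - ρ) by ring]
  refine add_le_add ?_ ?_
  · rw [← sum_image (f := fun d => ρ ^ d) (g := fun j => Nat.dist k j)]
    · exact hgeo _
    · intro a ha b hb hab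
      simp only [coe_filter, Set.mem_ofPred_eq] at ha hb
      simp only [Nat.dist] at hab
      omega
  · rw [← sum_image (f := fun d => ρ ^ d) (g := fun j => Nat.dist k j)]
    · exact hgeo _
    · intro a ha b hb hab
      simp only [coe_filter, Set.mem_ofPred_eq] at ha hb
      simp only [Nat.dist] at hab
      omega

theorem sum_expKer_powT_le {e₁ e₂ : ℝ} (h₁ : 0 < e₁) (h₂ : e₁ ≤ e₂) {p : ℕ} (hp : 2 ≤ p)
    (J : Finset ℕ) (i : ℕ) :
    ∑ j ∈ J, expKer (powT e₁ p) (powT e₂ p) i j ≤ 2 / (1 - (2 : ℝ) ^ (-e₁)) ∧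
    ∑ j ∈ J, expKer (powT e₁ p) (powT e₂ p) j i ≤ 2 / (1 - (2 : ℝ) ^ (-e₁)) := by
  set ρ : ℝ := (2 : ℝ) ^ (-e₁)
  have hρ1 : ρ < 1 := rpow_lt_one_of_one_lt_of_neg (by norm_num) (by linarith)
  have hle : powT e₁ p ≤ ρ :=
    rpow_le_rpow_of_nonpos (by norm_num) (by exact_mod_cast hp) (by linarith)
  have hle₂ : powT e₂ p ≤ ρ := (powT_le_powT h₂ (by omega)).trans hle
  have hρ0 : 0 ≤ ρ := by positivity
  exact ⟨(sum_le_sum fun j _ => expKer_le (powT_nonneg _ _) (powT_nonneg _ _) hle hle₂ i j).trans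
      (sum_pow_dist_le_const hρ0 hρ1 J i),
    (sum_le_sum fun j _ => (expKer_le (powT_nonneg _ _) (powT_nonneg _ _) hle hle₂ j i).trans_eq
      (by rw [Nat.dist_comm])).trans (sum_pow_dist_le_const hρ0 hρ1 J i)⟩

/-- The smallness conditions at every prime beyond the threshold. -/
structure PrimeOK (θ η e₁ e₂ : ℝ) (p : ℕ) : Prop where
  t₁ : powT e₁ p ≤ 1 / 4
  small₁ : 3 * powT e₁ p + 4 * η ^ θ ≤ 1
  small₂ : (1 + 3 * powT e₁ p) * ((1 - η) ^ (2 * θ - 1) + 1) ≤ 2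

theorem thrOf_powT {θ c e : ℝ} (hθ0 : 0 < θ) (hθ1 : θ < 1) (hc : 0 ≤ c) (p : ℕ) :
    thrOf θ (c * powT e p) = (c / θ) ^ (1 / (1 - θ)) * powT (e / (1 - θ)) p := by
  have h1 : 0 < 1 - θ := by linarith
  rw [thrOf, show c * powT e p / θ = c / θ * powT e p by ring,
    mul_rpow (by positivity) (powT_nonneg _ _), powT, powT, ← rpow_mul (Nat.cast_nonneg p)]
  congr 2
  field_simp

/-- Concentration threshold for the parameters `(θ, e)`. -/
theorem thrOf_le_const {θ e : ℝ} (hθ0 : 0 < θ) (hθ1 : θ < 1) (he : 0 ≤ e) {P₀ p : ℕ} (hP : 1 ≤ P₀)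
    (hp : P₀ ≤ p) :
    thrOf θ (6 * powT e p) ≤ (6 / θ) ^ (1 / (1 - θ)) * powT (e / (1 - θ)) P₀ := by
  rw [thrOf_powT hθ0 hθ1 (by norm_num)]
  refine mul_le_mul_of_nonneg_left ?_ (by positivity)
  exact rpow_le_rpow_of_nonpos (by exact_mod_cast hP) (by exact_mod_cast hp)
    (neg_nonpos.2 (div_nonneg he (by linarith)))

/-- Existence of the thresholds. -/
theorem exists_params {θ e₁ : ℝ} (hθ : 1 / 2 < θ) (hθ1 : θ < 1) (he : 0 < e₁) :
    ∃ η : ℝ, 0 < η ∧ η < 1 / 2 ∧ 2 * η ^ (2 * θ - 1) ≤ θ / 2 ∧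
      ∃ p₀ : ℕ, ∀ p, p₀ < p → ∀ e₂, PrimeOK θ η e₁ e₂ p := by
  have h1 : Tendsto (fun η : ℝ => η ^ (2 * θ - 1)) (𝓝 0) (𝓝 0) := by
    have := (Real.continuousAt_rpow_const 0 (2 * θ - 1) (Or.inr (by linarith))).tendsto
    rwa [zero_rpow (by linarith : 2 * θ - 1 ≠ 0)] at this
  have h2 : Tendsto (fun η : ℝ => η ^ θ) (𝓝 0) (𝓝 0) := by
    have := (Real.continuousAt_rpow_const 0 θ (Or.inr (by linarith))).tendsto
    rwa [zero_rpow (by linarith : θ ≠ 0)] at this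
  have hev := ((h1.eventually_lt_const (show (0 : ℝ) < θ / 4 by linarith)).and
    ((h2.eventually_lt_const (show (0 : ℝ) < 1 / 8 by norm_num)).and
      (eventually_lt_nhds (show (0 : ℝ) < 1 / 2 by norm_num)))).filter_mono
    (nhdsWithin_le_nhds (s := Set.Ioi 0))
  obtain ⟨η, ⟨ha, hb, hc⟩, hη⟩ := (hev.and (eventually_mem_nhdsWithin)).exists
  simp only [Set.mem_Ioi] at hη
  refine ⟨η, hη, hc, by linarith, ?_⟩
  set w := (1 - η) ^ (2 * θ - 1)
  have hw : w < 1 := rpow_lt_one (by linarith) (by linarith) (by linarith)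
  have hw0 : 0 ≤ w := rpow_nonneg (by linarith) _
  obtain ⟨p₀, hp₀⟩ := eventually_atTop.1 ((tendsto_powT he).eventually_lt_const
    (show (0 : ℝ) < min (1 / 8) ((1 - w) / 12) from lt_min (by norm_num) (by linarith)))
  refine ⟨p₀, fun p hp e₂ => ?_⟩
  have := hp₀ p hp.le
  rw [lt_min_iff] at this
  have h0 := powT_nonneg e₁ p
  exact ⟨by linarith, by linarith, by nlinarith⟩

/-- Beyond a threshold the absorbed sum is small. -/
theorem exists_absorb {θ e₁ e₂ : ℝ} (hθ : 1 / 2 < θ) (hθ1 : θ < 1) (_he₁ : 0 < e₁) (_he : e₁ ≤ e₂)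
    (hdir : e₂ < θ * (e₁ / (1 - θ))) (hsum₁ : 1 < θ * (e₁ / (1 - θ) + e₂ / (1 - θ)))
    (hsum₂ : 1 < 2 * e₁ + 2 * θ * (e₁ / (1 - θ))) :
    ∃ p₀ : ℕ, (∀ p, p₀ < p → thrOf θ (6 * powT e₁ p) ^ θ ≤ powT e₂ p) ∧
      ∀ T : Finset ℕ, (∀ p ∈ T, p₀ < p) →
        ∑ p ∈ T, (4 * (thrOf θ (6 * powT e₁ p) * thrOf θ (5 * powT e₂ p)) ^ θ +
          6 * powT e₁ p ^ 2 * (thrOf θ (6 * powT e₁ p) * thrOf θ (6 * powT e₁ p)) ^ θ) ≤ 1 / 2 := by
  have hθ0 : 0 < θ := by linarith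
  set β₁ := e₁ / (1 - θ)
  set β₂ := e₂ / (1 - θ)
  set c₁ := (6 / θ) ^ (1 / (1 - θ))
  set c₂ := (5 / θ) ^ (1 / (1 - θ))
  have hc₁ : 0 < c₁ := by positivity
  have hc₂ : 0 < c₂ := by positivity
  set F : ℕ → ℝ := fun p => 4 * (c₁ * c₂) ^ θ * powT (θ * (β₁ + β₂)) p +
    6 * (c₁ * c₁) ^ θ * powT (2 * e₁ + 2 * θ * β₁) p
  have hF : Summable F :=
    ((Real.summable_nat_rpow.2 (by linarith)).mul_left _).add
      ((Real.summable_nat_rpow.2 (by linarith)).mul_left _)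
  obtain ⟨s, hs⟩ := summable_iff_vanishing.1 hF (Set.Iio (1 / 2)) (Iio_mem_nhds (by norm_num))
  obtain ⟨p₁, hp₁⟩ := eventually_atTop.1 ((tendsto_powT (show 0 < θ * β₁ - e₂ by linarith)).eventually_lt_const
    (show (0 : ℝ) < (c₁ ^ θ)⁻¹ by positivity))
  refine ⟨max (s.sup id + 1) (max p₁ 1), fun p hp => ?_, fun T hT => ?_⟩
  · have hp1 : p₁ ≤ p := by omega
    have hpos : (0 : ℝ) < p := by exact_mod_cast (show 0 < p by omega)
    rw [thrOf_powT hθ0 hθ1 (by norm_num), mul_rpow hc₁.le (powT_nonneg _ _)]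
    have h := (hp₁ p hp1).le
    have hsplit : powT β₁ p ^ θ = powT (θ * β₁ - e₂) p * powT e₂ p := by
      rw [powT, powT, powT, ← rpow_mul hpos.le, ← rpow_add hpos]; ring_nf
    rw [hsplit, ← mul_assoc]
    refine mul_le_of_le_one_left (powT_nonneg _ _) ?_
    calc c₁ ^ θ * powT (θ * β₁ - e₂) p ≤ c₁ ^ θ * (c₁ ^ θ)⁻¹ := by gcongr
      _ = 1 := mul_inv_cancel₀ (by positivity)
  · have hdis : Disjoint T s := disjoint_left.2 fun p hp hps => by
      have := le_sup (f := id) hps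
      simp only [id_eq] at this
      have := hT p hp
      omega
    have hlt := hs T hdis
    simp only [Set.mem_Iio] at hlt
    refine le_trans (sum_le_sum fun p hp => ?_) hlt.le
    have hpos : (0 : ℝ) < p := by exact_mod_cast (show 0 < p by have := hT p hp; omega)
    simp only [F]
    rw [thrOf_powT hθ0 hθ1 (by norm_num), thrOf_powT hθ0 hθ1 (by norm_num)]
    have hp' : ∀ e, 0 ≤ powT e p := fun e => powT_nonneg e p
    have e1 : (c₁ * powT β₁ p * (c₂ * powT β₂ p)) ^ θ = (c₁ * c₂) ^ θ * powT (θ * (β₁ + β₂)) p := by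
      rw [show c₁ * powT β₁ p * (c₂ * powT β₂ p) = c₁ * c₂ * (powT β₁ p * powT β₂ p) by ring,
        mul_rpow (by positivity) (mul_nonneg (hp' _) (hp' _)), powT, powT, powT, ← rpow_add hpos,
        ← rpow_mul hpos.le]
      ring_nf
    have e2 : powT e₁ p ^ 2 * (c₁ * powT β₁ p * (c₁ * powT β₁ p)) ^ θ =
        (c₁ * c₁) ^ θ * powT (2 * e₁ + 2 * θ * β₁) p := by
      rw [show c₁ * powT β₁ p * (c₁ * powT β₁ p) = c₁ * c₁ * (powT β₁ p * powT β₁ p) by ring,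
        mul_rpow (by positivity) (mul_nonneg (hp' _) (hp' _)), powT, powT, powT, ← rpow_add hpos,
        ← rpow_mul hpos.le, ← rpow_natCast, ← rpow_mul hpos.le, mul_left_comm, ← rpow_add hpos]
      push_cast; ring_nf
    rw [e1, mul_assoc 6, e2]
    linarith

end Vale.Agent.P028
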